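import Vale.Agent.P098.Regularity.B5.Variable

/-!
P098, block B5: functions with Hölder derivatives up to a given order on an open set.
-/

open MeasureTheory Filter Set
open scoped Topology ContDiff

namespace Vale.Agent.P098.B5

variable {d : ℕ}

/-- Bounded and `α`-Hölder on `S`. -/
def Hol0 (S : Set (Euc d)) (α : ℝ) (f : Euc d → ℝ) : Prop :=
  ∃ M : ℝ, 0 ≤ M ∧ (∀ x ∈ S, |f x| ≤ M) ∧ ∀ x ∈ S, ∀ y ∈ S, |f x - f y| ≤ M * ‖x - y‖ ^ α

/-- Derivatives up to order `k` exist on `S` and are bounded and `α`-Hölder. -/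
def Hol (S : Set (Euc d)) (α : ℝ) : ℕ → (Euc d → ℝ) → Prop
  | 0, f => Hol0 S α f
  | k + 1, f => Hol0 S α f ∧ DifferentiableOn ℝ f S ∧ ∀ i, Hol S α k (pd i f)

/-- The map `(x', t) ↦ (x', g (x', t))`. -/
noncomputable def hodo (t : Fin d) (g : Euc d → ℝ) (y : Euc d) : Euc d := flat t y + g y • bas t

end Vale.Agent.P098.B5
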