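import Vale.Agent.P098.Regularity.B5.Near
import Vale.Agent.P098.Regularity.B5.HolDef

/-!
P098, block B5: the hodograph `x_t = h (x', u)` and its equation with natural boundary condition.
-/

open MeasureTheory Filter Set
open scoped Topology ContDiff

namespace Vale.Agent.P098.B5

variable {d : ℕ}

/-- The conormal flux of the functional `((1 + |p|²) / q + q) / 4` shifted by a constant. -/
noncomputable def fluxFn (t j : Fin d) (f : Fin d → ℝ) : ℝ :=
  if j = t then (1 - (1 + ∑ k, if k = t then 0 else f k ^ 2) / f t ^ 2) / 2 else f j / f t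

/-- The gradient as a function of the index. -/
noncomputable def grad (h : Euc d → ℝ) (x : Euc d) : Fin d → ℝ := fun i => pd i h x

/-- A hodograph of `u`. -/
structure IsHodo (u h : Euc d → ℝ) (t : Fin d) (R α M : ℝ) : Prop where
  R_pos : 0 < R
  R_le : R ≤ 1
  M_nonneg : 0 ≤ M
  smooth : ContDiffOn ℝ ∞ h (hball t R)
  near : ∀ i, ∀ x ∈ hball t R, |pd i h x - if i = t then 1 else 0| ≤ M * ‖x‖ ^ α
  hold : ∀ i, ∀ x ∈ hball t R, ∀ y ∈ hball t R, |pd i h x - pd i h y| ≤ M * ‖x - y‖ ^ α
  bdd : ∀ x ∈ hball t R, |h x| ≤ M * ‖x‖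
  eqn : ∀ φ, IsTestFn φ → tsupport φ ⊆ Metric.ball 0 R →
    ∫ x in upper t, ∑ j, fluxFn t j (grad h x) * pd j φ x = 0
  div : ∀ x ∈ hball t R, ∑ j, pd j (fun y => fluxFn t j (grad h y)) x = 0
  onto : ∃ δ, 0 < δ ∧ ∀ x ∈ posSet u, ‖x‖ < δ →
    flat t x + u x • bas t ∈ hball t R ∧ h (flat t x + u x • bas t) = x t

lemma flat_add_apply (t j : Fin d) (y : Euc d) (s : ℝ) :
    (flat t y + s • bas t) j = if j = t then s else y j := by
  simp only [PiLp.add_apply, PiLp.smul_apply, flat_apply, bas_apply, smul_eq_mul]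
  split_ifs <;> simp

lemma flat_self (t : Fin d) (y : Euc d) : flat t y + y t • bas t = y := by simp [flat]

lemma norm_flat_le (t : Fin d) (y : Euc d) : ‖flat t y‖ ≤ ‖y‖ := by
  simpa [flat] using norm_flat_sub t y 0

lemma norm_flat_add_le (t : Fin d) (y : Euc d) (s : ℝ) : ‖flat t y + s • bas t‖ ≤ ‖flat t y‖ + |s| :=
  (norm_add_le _ _).trans (add_le_add le_rfl (by rw [norm_smul]; simp))

lemma flat_idem (t : Fin d) (y : Euc d) (s : ℝ) : flat t (flat t y + s • bas t) = flat t y := by
  ext j; simp only [flat_apply, flat_add_apply]; split_ifs <;> rfl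

namespace IsNear

variable {u : Euc d → ℝ} {t : Fin d} {r α K : ℝ} (H : IsNear u t r α K)

/-- The radius on which the gradient is close to `bas t`. -/
def Small (_H : IsNear u t r α K) : Prop := r ≤ 1 ∧ K * r ^ α ≤ 1 / 4

include H

lemma mono {s : ℝ} (hs : 0 < s) (hsr : s ≤ r) : IsNear u t s α K :=
  ⟨H.cont, H.nonneg, H.smooth, H.harmonic, hs, H.K_nonneg, H.α_pos, H.α_lt, H.zero,
    fun i x hx hxs => H.grad i x hx (hxs.trans_le hsr),
    fun i x hx y hy hxs hys => H.hold i x hx y hy (hxs.trans_le hsr) (hys.trans_le hsr),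
    fun x hx hxs => H.eik x hx (hxs.trans_le hsr), fun x hxs => H.above x (hxs.trans_le hsr),
    fun x hxs => H.below x (hxs.trans_le hsr)⟩

lemma isOpen_pos : IsOpen (posSet u) := isOpen_lt continuous_const H.cont

lemma hasDerivAt_line {y : Euc d} {s : ℝ} (hs : flat t y + s • bas t ∈ posSet u) :
    HasDerivAt (fun s => u (flat t y + s • bas t)) (pd t u (flat t y + s • bas t)) s := by
  have hd : DifferentiableAt ℝ u (flat t y + s • bas t) :=
    (H.smooth.contDiffAt (H.isOpen_pos.mem_nhds hs)).differentiableAt (by simp)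
  have h := hd.hasFDerivAt.comp_hasDerivAt s (((hasDerivAt_id s).smul_const (bas t)).const_add (flat t y))
  simpa [Function.comp_def, pd] using h

variable (hS : H.Small)
include hS

lemma pd_t_ge {x : Euc d} (hx : x ∈ posSet u) (hxr : ‖x‖ < r) : 3 / 4 ≤ pd t u x := by
  have h := (abs_le.1 (H.grad t x hx hxr)).1
  simp only [if_true] at h
  have := mul_le_mul_of_nonneg_left (Real.rpow_le_rpow (norm_nonneg x) hxr.le H.α_pos.le) H.K_nonneg
  linarith [hS.2]

lemma small_pow {x : Euc d} (hxr : ‖x‖ < r) : K * ‖x‖ ^ (1 + α) ≤ ‖x‖ / 4 := by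
  rcases eq_or_lt_of_le (norm_nonneg x) with h | h
  · rw [← h, Real.zero_rpow (by linarith [H.α_pos])]; simp
  rw [Real.rpow_add h, Real.rpow_one]
  have := (mul_le_mul_of_nonneg_left (Real.rpow_le_rpow h.le hxr.le H.α_pos.le) H.K_nonneg).trans hS.2
  nlinarith

omit hS in
lemma norm_line {y : Euc d} (hy : ‖flat t y‖ < r / 4) {s : ℝ} (hs : |s| ≤ r / 4) :
    ‖flat t y + s • bas t‖ < r / 2 := by
  have := H.r_pos
  exact lt_of_le_of_lt (norm_flat_add_le t y s) (by linarith)

lemma pos_of_ge {y : Euc d} (hy : ‖flat t y‖ < r / 4) {s : ℝ} (h1 : r / 8 ≤ s) (h2 : s ≤ r / 4) :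
    0 < u (flat t y + s • bas t) := by
  have hr := H.r_pos
  have hn := H.norm_line hy (abs_le.2 ⟨by linarith, h2⟩)
  refine H.above _ (by linarith) ?_
  rw [flat_add_apply, if_pos rfl]
  have := H.small_pow hS (show ‖flat t y + s • bas t‖ < r by linarith)
  linarith

lemma bottom_zero {y : Euc d} (hy : ‖flat t y‖ < r / 4) :
    u (flat t y + (-(r / 4)) • bas t) = 0 := by
  have hr := H.r_pos
  have hn := H.norm_line hy (show |-(r / 4)| ≤ r / 4 by rw [abs_neg, abs_of_pos (by linarith)])
  refine le_antisymm (not_lt.1 fun hpos => ?_) (H.nonneg _)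
  have h := H.below _ (show _ < r by linarith) hpos
  rw [flat_add_apply, if_pos rfl] at h
  have := H.small_pow hS (show ‖flat t y + (-(r / 4)) • bas t‖ < r by linarith)
  linarith

/-- Along a line the positive part is upwards closed, with slope at least `3/4`. -/
lemma line_mono {y : Euc d} (hy : ‖flat t y‖ < r / 4) {s s' : ℝ} (hs : -(r / 4) ≤ s) (hss : s ≤ s')
    (hs' : s' ≤ r / 4) (hpos : 0 < u (flat t y + s • bas t)) :
    0 < u (flat t y + s' • bas t) ∧
      3 / 4 * (s' - s) ≤ u (flat t y + s' • bas t) - u (flat t y + s • bas t) := by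
  have hr := H.r_pos
  set g := fun s : ℝ => u (flat t y + s • bas t) with hg
  have hgc : Continuous g := H.cont.comp (by fun_prop)
  have hslope : ∀ b, s ≤ b → b ≤ s' → (∀ σ ∈ Ico s b, 0 < g σ) → 3 / 4 * (b - s) ≤ g b - g s := by
    intro b hsb hbs' hall
    refine (convex_Icc s b).mul_sub_le_image_sub_of_le_deriv hgc.continuousOn ?_ ?_ s
      (left_mem_Icc.2 hsb) b (right_mem_Icc.2 hsb) hsb
    · intro σ hσ
      rw [interior_Icc] at hσ
      exact (H.hasDerivAt_line (hall σ (Ioo_subset_Ico_self hσ))).differentiableAt.differentiableWithinAt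
    · intro σ hσ
      rw [interior_Icc] at hσ
      have hp := hall σ (Ioo_subset_Ico_self hσ)
      rw [(H.hasDerivAt_line hp).deriv]
      refine H.pd_t_ge hS hp ?_
      have := H.norm_line hy (show |σ| ≤ r / 4 from abs_le.2 ⟨by linarith [hσ.1], by linarith [hσ.2]⟩)
      linarith
  have hall : ∀ σ ∈ Icc s s', 0 < g σ := by
    by_contra hcon
    push Not at hcon
    obtain ⟨σ, hσ, hσ0⟩ := hcon
    set Z := Icc s s' ∩ g ⁻¹' Iic 0 with hZ
    have hZc : IsCompact Z := isCompact_Icc.inter_right (isClosed_Iic.preimage hgc)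
    obtain ⟨b, hb, hbmin⟩ := hZc.exists_isLeast ⟨σ, hσ, hσ0⟩
    have hb2 : g b ≤ 0 := hb.2
    have h := hslope b hb.1.1 hb.1.2 fun τ hτ => by
      by_contra hτ0
      have := hbmin ⟨⟨hτ.1, hτ.2.le.trans hb.1.2⟩, not_lt.1 hτ0⟩
      linarith [hτ.2]
    have : 0 < g s := hpos
    linarith [hb.1.1]
  exact ⟨hall s' (right_mem_Icc.2 hss), hslope s' hss le_rfl fun σ hσ => hall σ (Ico_subset_Icc_self hσ)⟩

/-- Below a positive point there is a zero at distance comparable to the value. -/
lemma descent {y : Euc d} (hy : ‖flat t y‖ < r / 4) {s : ℝ} (hs : -(r / 4) ≤ s) (hs' : s ≤ r / 4)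
    (hpos : 0 < u (flat t y + s • bas t)) :
    ∃ σ, -(r / 4) ≤ σ ∧ σ < s ∧ u (flat t y + σ • bas t) = 0 ∧
      3 / 4 * (s - σ) ≤ u (flat t y + s • bas t) := by
  set g := fun s : ℝ => u (flat t y + s • bas t) with hg
  have hgc : Continuous g := H.cont.comp (by fun_prop)
  set Z := Icc (-(r / 4)) s ∩ g ⁻¹' Iic 0 with hZ
  have hZc : IsCompact Z := isCompact_Icc.inter_right (isClosed_Iic.preimage hgc)
  obtain ⟨b, hb, hbmax⟩ := hZc.exists_isGreatest
    ⟨-(r / 4), left_mem_Icc.2 hs, (H.bottom_zero hS hy).le⟩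
  have hb0 : g b = 0 := le_antisymm hb.2 (H.nonneg _)
  have hbs : b < s := lt_of_le_of_ne hb.1.2 fun h => by
    have : g b = g s := by rw [h]
    linarith [show 0 < g s from hpos]
  refine ⟨b, hb.1.1, hbs, hb0, ?_⟩
  have hlim : Tendsto (fun σ => g σ + 3 / 4 * (s - σ)) (𝓝[>] b) (𝓝 (g b + 3 / 4 * (s - b))) :=
    tendsto_nhdsWithin_of_tendsto_nhds
      ((hgc.add (continuous_const.mul (continuous_const.sub continuous_id))).tendsto b)
  rw [hb0, zero_add] at hlim
  refine le_of_tendsto hlim ?_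
  filter_upwards [Ioo_mem_nhdsGT hbs] with σ hσ
  have hσ0 : 0 < g σ := by
    by_contra h0
    have := hbmax ⟨⟨hb.1.1.trans hσ.1.le, hσ.2.le⟩, not_lt.1 h0⟩
    linarith [hσ.1]
  linarith [(H.line_mono hS hy (hb.1.1.trans hσ.1.le) hσ.2.le hs' hσ0).2]

lemma exists_height {y : Euc d} (hy : ‖flat t y‖ < r / 4) {τ : ℝ} (h0 : 0 < τ) (h1 : τ ≤ r / 16) :
    ∃ s, -(r / 4) < s ∧ s < r / 4 ∧ u (flat t y + s • bas t) = τ := by
  have hr := H.r_pos
  set g := fun s : ℝ => u (flat t y + s • bas t) with hg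
  have hgc : Continuous g := H.cont.comp (by fun_prop)
  have htop : r / 16 < g (r / 4) := by
    have hp := H.pos_of_ge hS hy le_rfl (show r / 8 ≤ r / 4 by linarith)
    have := (H.line_mono hS hy (by linarith) (show r / 8 ≤ r / 4 by linarith) le_rfl hp).2
    simp only [hg]; linarith
  have hbot : g (-(r / 4)) = 0 := H.bottom_zero hS hy
  obtain ⟨s, hs, hse⟩ := intermediate_value_Icc (by linarith : -(r / 4) ≤ r / 4) hgc.continuousOn
    (show τ ∈ Icc (g (-(r / 4))) (g (r / 4)) from ⟨by linarith, by linarith⟩)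
  exact ⟨s, lt_of_le_of_ne hs.1 fun h => by rw [← h] at hse; linarith,
    lt_of_le_of_ne hs.2 fun h => by rw [h] at hse; linarith, hse⟩

lemma height_unique {y : Euc d} (hy : ‖flat t y‖ < r / 4) {s s' : ℝ} (hs : -(r / 4) ≤ s)
    (hs1 : s ≤ r / 4) (hs' : -(r / 4) ≤ s') (hs1' : s' ≤ r / 4)
    (h : u (flat t y + s • bas t) = u (flat t y + s' • bas t)) (hpos : 0 < u (flat t y + s • bas t)) :
    s = s' := by
  rcases le_total s s' with hle | hle
  · have := (H.line_mono hS hy hs hle hs1' hpos).2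
    linarith
  · have := (H.line_mono hS hy hs' hle hs1 (h ▸ hpos)).2
    linarith

end IsNear

lemma exists_slab_volume (t : Fin d) : ∃ V : ℝ, 0 ≤ V ∧ ∀ ε : ℝ, 0 < ε →
    ∃ B : Set (Euc d), MeasurableSet B ∧ volume B ≠ ⊤ ∧ (volume B).toReal ≤ V * ε ∧
      ∀ y : Euc d, ‖y‖ ≤ 1 → ε ≤ y t → y t ≤ 2 * ε → y ∈ B := by
  refine ⟨∏ i : Fin d, if i = t then 1 else 2, Finset.prod_nonneg fun i _ => by split_ifs <;> norm_num,
    fun ε hε => ?_⟩
  set s : Fin d → Set ℝ := fun i => if i = t then Icc ε (2 * ε) else Icc (-1) 1 with hs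
  have hsm : ∀ i, MeasurableSet (s i) := fun i => by
    simp only [hs]; split_ifs <;> exact measurableSet_Icc
  have hvol : volume ((WithLp.ofLp : Euc d → Fin d → ℝ) ⁻¹' univ.pi s) = ∏ i, volume (s i) := by
    rw [(PiLp.volume_preserving_ofLp (Fin d)).measure_preimage
      (MeasurableSet.univ_pi hsm).nullMeasurableSet, volume_pi_pi]
  have hi : ∀ i, volume (s i) = ENNReal.ofReal (if i = t then ε else 2) := fun i => by
    simp only [hs]
    split_ifs <;> rw [Real.volume_Icc] <;> congr 1 <;> ring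
  refine ⟨(WithLp.ofLp : Euc d → Fin d → ℝ) ⁻¹' univ.pi s,
    (PiLp.volume_preserving_ofLp (Fin d)).measurable (MeasurableSet.univ_pi hsm), ?_, ?_,
    fun y hy h1 h2 i _ => ?_⟩
  · rw [hvol]
    simp only [hi]
    exact ENNReal.prod_ne_top fun i _ => ENNReal.ofReal_ne_top
  · rw [hvol, ENNReal.toReal_prod]
    simp only [hi]
    refine le_of_eq ?_
    rw [Finset.prod_congr rfl fun i _ => ENNReal.toReal_ofReal (by split_ifs <;> linarith),
      ← Finset.mul_prod_erase _ _ (Finset.mem_univ t), ← Finset.mul_prod_erase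
        (f := fun i => if i = t then (1 : ℝ) else 2) _ (Finset.mem_univ t)]
    simp only [if_true, one_mul]
    rw [mul_comm ε]
    congr 1
    exact Finset.prod_congr rfl fun i hi => by simp [Finset.ne_of_mem_erase hi]
  · simp only [hs]
    split_ifs with h
    · subst h; exact ⟨h1, h2⟩
    · exact abs_le.1 ((abs_apply_le_norm y i).trans hy)

/-- A divergence free field with small normal component near the boundary has no weak source. -/
theorem weak_eq_of_div {t : Fin d} {R α M : ℝ} (hR : R ≤ 1) (hα : 0 < α) (hα1le : α ≤ 1)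
    {P : Fin d → Euc d → ℝ} (hP : ∀ j, ContDiffOn ℝ ∞ (P j) (hball t R))
    (hdiv : ∀ x ∈ hball t R, ∑ j, pd j (P j) x = 0) (hb : ∀ j, ∀ x ∈ hball t R, |P j x| ≤ M)
    (ht : ∀ x ∈ hball t R, |P t x| ≤ M * x t ^ α) {φ : Euc d → ℝ} (hφ : IsTestFn φ)
    (hs : tsupport φ ⊆ Metric.ball 0 R) :
    ∫ x in upper t, ∑ j, P j x * pd j φ x = 0 := by
  set T := Real.smoothTransition with hT
  have hTs : ContDiff ℝ ∞ T := Real.smoothTransition.contDiff
  obtain ⟨B, hB⟩ := ((isCompact_Icc (a := (0 : ℝ)) (b := 1))).exists_bound_of_continuousOn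
    (((contDiff_infty_iff_deriv.1 hTs).2).continuous.continuousOn)
  obtain ⟨Φ, hΦ⟩ := hφ.2.exists_bound_of_continuous hφ.1.continuous
  obtain ⟨V, hV, hslab⟩ := exists_slab_volume t
  have hφd : ∀ y, DifferentiableAt ℝ φ y := fun y => hφ.1.differentiable (by simp) y
  have hker : ∀ y, pd t φ y = pd t φ y := fun _ => rfl
  set θ : ℝ → Euc d → ℝ := fun ε y => T (y t * ε⁻¹ - 1) with hθ
  have hθs : ∀ ε, ContDiff ℝ ∞ (θ ε) := fun ε =>
    hTs.comp (((EuclideanSpace.proj (𝕜 := ℝ) t).contDiff.mul contDiff_const).sub contDiff_const)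
  have hpθ : ∀ ε y j, pd j (θ ε) y
      = if j = t then deriv T (y t * ε⁻¹ - 1) * ε⁻¹ else 0 := fun ε y j => by
    have h : fderiv ℝ (θ ε) y = _ :=
      (HasDerivAt.comp_hasFDerivAt (f := fun z : Euc d => z t * ε⁻¹ - 1) y
        (hTs.differentiable (by simp) (y t * ε⁻¹ - 1)).hasDerivAt
        ((((EuclideanSpace.proj (𝕜 := ℝ) t).hasFDerivAt).mul_const ε⁻¹).sub_const 1)).fderiv
    rw [pd, h]
    by_cases hj : t = j
    · subst hj; simp
    · simp [hj, Ne.symm hj]
  set S := upper t with hS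
  have hPm : ∀ j, AEStronglyMeasurable (fun y => P j y * pd j φ y) (volume.restrict S) := fun j => by
    have hc : ContinuousOn (fun y => P j y * pd j φ y) (hball t R) :=
      (hP j).continuousOn.mul (continuous_pd_test hφ j).continuousOn
    have hi : EqOn ((hball t R).indicator fun y => P j y * pd j φ y) (fun y => P j y * pd j φ y) S := by
      intro y hy
      by_cases hyR : y ∈ hball t R
      · rw [indicator_of_mem hyR]
      · rw [indicator_of_notMem hyR]
        have : y ∉ tsupport φ := fun h => hyR ⟨hs h, hy⟩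
        simp [pd_eq_zero_of_eventually (notMem_tsupport_iff_eventuallyEq.1 this) j]
    exact ((aestronglyMeasurable_indicator_iff (isOpen_hball t R).measurableSet).2
      (hc.aestronglyMeasurable (isOpen_hball t R).measurableSet)).restrict.congr
        ((ae_restrict_iff' (measurableSet_upper t)).2 (Eventually.of_forall hi))
  have hPb : ∀ j, ∀ y ∈ S, |P j y * pd j φ y| ≤ |M| * |pd j φ y| := fun j y hy => by
    by_cases hyR : y ∈ hball t R
    · rw [abs_mul]
      exact mul_le_mul_of_nonneg_right ((hb j y hyR).trans (le_abs_self M)) (abs_nonneg _)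
    · have : y ∉ tsupport φ := fun h => hyR ⟨hs h, hy⟩
      simp [pd_eq_zero_of_eventually (notMem_tsupport_iff_eventuallyEq.1 this) j]
  have hdom : Integrable (fun y => ∑ j, |M| * |pd j φ y|) (volume.restrict S) :=
    ((integrable_finsetSum _ fun j _ => (((continuous_pd_test hφ j).integrable_of_hasCompactSupport
      (hasCompactSupport_pd hφ.2 j)).abs.const_mul |M|))).restrict
  -- the cut-off identity
  have hid : ∀ ε, 0 < ε → |∫ y in S, θ ε y * ∑ j, P j y * pd j φ y|
      ≤ |M| * 2 * |B| * |Φ| * V * ε ^ α := by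
    intro ε hε
    have hψ : IsTestFn fun y => θ ε y * φ y := ⟨(hθs ε).mul hφ.1, hφ.2.mul_left⟩
    have hψs : tsupport (fun y => θ ε y * φ y) ⊆ hball t R := fun y hy => by
      refine ⟨hs (tsupport_mul_subset_right hy), ?_⟩
      have hcl : tsupport (fun y => θ ε y * φ y) ⊆ {z | ε ≤ z t} := by
        refine closure_minimal (fun z hz => ?_) (isClosed_le continuous_const
          (EuclideanSpace.proj (𝕜 := ℝ) t).continuous)
        by_contra hzt
        refine hz ?_
        have : T (z t * ε⁻¹ - 1) = 0 := by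
          refine Real.smoothTransition.zero_of_nonpos ?_
          have : z t * ε⁻¹ ≤ 1 := by
            rw [← div_eq_mul_inv, div_le_one hε]; exact (not_le.1 hzt).le
          linarith
        simp [hθ, this]
      exact lt_of_lt_of_le hε (hcl hy)
    have hψ1 : ContDiff ℝ 1 fun y => θ ε y * φ y := hψ.1.of_le (WithTop.coe_le_coe.2 le_top)
    have hf : ∀ j, ContDiff ℝ 1 fun y => (θ ε y * φ y) * P j y := fun j =>
      contDiff_mul_of_tsupport (isOpen_hball t R) hψ1 hψs ((hP j).of_le (WithTop.coe_le_coe.2 le_top))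
    have hfs : ∀ j, HasCompactSupport fun y => (θ ε y * φ y) * P j y := fun j => hψ.2.mul_right
    have hint : ∀ j, Integrable (pd j fun y => (θ ε y * φ y) * P j y) := fun j =>
      (continuous_pd (hf j) j).integrable_of_hasCompactSupport (hasCompactSupport_pd (hfs j) j)
    have h0 : ∫ y in S, ∑ j, pd j (fun y => (θ ε y * φ y) * P j y) y = 0 := by
      rw [setIntegral_eq_integral_of_forall_compl_eq_zero]
      · rw [integral_finsetSum _ fun j _ => hint j]
        exact Finset.sum_eq_zero fun j _ => integral_pd_eq_zero (hf j) (hfs j) j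
      · intro y hy
        have hne : y ∉ tsupport (fun y => θ ε y * φ y) := fun h => hy (hψs h).2
        refine Finset.sum_eq_zero fun j _ => pd_eq_zero_of_eventually ?_ j
        filter_upwards [notMem_tsupport_iff_eventuallyEq.1 hne] with z hz
        show θ ε z * φ z * P j z = 0
        rw [show θ ε z * φ z = 0 from hz, zero_mul]
    obtain ⟨Bx, hBm, hBf, hBv, hBmem⟩ := hslab ε hε
    have key : ∀ y ∈ S, ∑ j, pd j (fun y => (θ ε y * φ y) * P j y) y
        = θ ε y * (∑ j, P j y * pd j φ y) + φ y * (deriv T (y t * ε⁻¹ - 1) * ε⁻¹) * P t y := by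
      intro y hy
      by_cases hyR : y ∈ hball t R
      · have e : ∀ j, pd j (fun y => (θ ε y * φ y) * P j y) y
            = θ ε y * (P j y * pd j φ y) + φ y * pd j (θ ε) y * P j y
              + θ ε y * φ y * pd j (P j) y := fun j => by
          have hdθ : DifferentiableAt ℝ (θ ε) y := (hθs ε).differentiable (by simp) y
          rw [pd_mul j (f := fun z => θ ε z * φ z) (hdθ.fun_mul (hφd y))
            (((hP j).contDiffAt ((isOpen_hball t R).mem_nhds hyR)).differentiableAt (by simp)),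
            pd_mul j hdθ (hφd y)]
          ring
        simp only [e, Finset.sum_add_distrib, ← Finset.mul_sum, hdiv y hyR, mul_zero, add_zero, hpθ]
        simp
      · have hne : y ∉ tsupport φ := fun h => hyR ⟨hs h, hy⟩
        have hz := notMem_tsupport_iff_eventuallyEq.1 hne
        have e1 : ∀ j, pd j (fun y => (θ ε y * φ y) * P j y) y = 0 := fun j => by
          refine pd_eq_zero_of_eventually ?_ j
          filter_upwards [hz] with z hz'
          simp [hz']
        simp [e1, fun j => pd_eq_zero_of_eventually hz j, hz.eq_of_nhds]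
    rw [setIntegral_congr_fun (measurableSet_upper t) key] at h0
    have hθb : ∀ y, |θ ε y| ≤ 1 := fun y => by
      rw [hθ]; simp only
      rw [abs_of_nonneg (Real.smoothTransition.nonneg _)]
      exact Real.smoothTransition.le_one _
    have hmeas1 : AEStronglyMeasurable (fun y => θ ε y * ∑ j, P j y * pd j φ y) (volume.restrict S) :=
      (hθs ε).continuous.aestronglyMeasurable.mul
        (Finset.aestronglyMeasurable_fun_sum _ fun j _ => hPm j)
    have hi1 : IntegrableOn (fun y => θ ε y * ∑ j, P j y * pd j φ y) S := by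
      refine hdom.mono' hmeas1 ((ae_restrict_iff' (measurableSet_upper t)).2
        (Eventually.of_forall fun y hy => ?_))
      rw [norm_mul]
      refine le_trans (mul_le_of_le_one_left (norm_nonneg _) (hθb y)) ?_
      exact (norm_sum_le _ _).trans (Finset.sum_le_sum fun j _ => hPb j y hy)
    have hsum : IntegrableOn (fun y => θ ε y * (∑ j, P j y * pd j φ y)
        + φ y * (deriv T (y t * ε⁻¹ - 1) * ε⁻¹) * P t y) S :=
      ((integrable_finsetSum _ fun j _ => hint j).integrableOn).congr_fun key (measurableSet_upper t)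
    have hi2 : IntegrableOn (fun y => φ y * (deriv T (y t * ε⁻¹ - 1) * ε⁻¹) * P t y) S :=
      (hsum.sub hi1).congr_fun (fun y _ => by simp) (measurableSet_upper t)
    rw [integral_add hi1 hi2] at h0
    rw [eq_neg_of_add_eq_zero_left h0, abs_neg]
    set c := |M| * 2 * |B| * |Φ| * (ε ^ α / ε) with hc
    have hb2 : ∀ y ∈ S, |φ y * (deriv T (y t * ε⁻¹ - 1) * ε⁻¹) * P t y|
        ≤ Bx.indicator (fun _ => c) y := by
      intro y hy
      have hc0 : 0 ≤ c := by positivity
      by_cases hyR : y ∈ tsupport φ ∧ ε ≤ y t ∧ y t ≤ 2 * ε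
      · obtain ⟨h1, h2, h3⟩ := hyR
        have hyb : y ∈ hball t R := ⟨hs h1, hy⟩
        rw [indicator_of_mem (hBmem y ((mem_hball.1 hyb).1.le.trans hR) h2 h3)]
        have hT' : |deriv T (y t * ε⁻¹ - 1)| ≤ |B| := (hB _ ⟨by
          rw [← div_eq_mul_inv, le_sub_iff_add_le, zero_add, one_le_div hε]; exact h2, by
          rw [← div_eq_mul_inv, sub_le_iff_le_add, div_le_iff₀ hε]; linarith⟩).trans (le_abs_self B)
        have hP' : |P t y| ≤ |M| * (2 * ε ^ α) := by
          refine (ht y hyb).trans (mul_le_mul (le_abs_self M) ?_ (Real.rpow_nonneg hy.le α)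
            (abs_nonneg M))
          refine (Real.rpow_le_rpow hy.le h3 hα.le).trans ?_
          rw [Real.mul_rpow (by norm_num) hε.le]
          refine mul_le_mul_of_nonneg_right ?_ (by positivity)
          simpa using Real.rpow_le_rpow_of_exponent_le one_le_two hα1le
        rw [abs_mul, abs_mul, abs_mul, abs_of_pos (inv_pos.2 hε)]
        calc |φ y| * (|deriv T (y t * ε⁻¹ - 1)| * ε⁻¹) * |P t y|
            ≤ |Φ| * (|B| * ε⁻¹) * (|M| * (2 * ε ^ α)) :=
              mul_le_mul (mul_le_mul ((hΦ y).trans (le_abs_self Φ))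
                (mul_le_mul_of_nonneg_right hT' (inv_nonneg.2 hε.le)) (by positivity) (abs_nonneg Φ))
                hP' (abs_nonneg _) (by positivity)
          _ = c := by simp only [hc]; ring
      · refine le_trans (le_of_eq ?_) (indicator_nonneg (fun _ _ => hc0) y)
        rcases not_and_or.1 hyR with h | h
        · simp [image_eq_zero_of_notMem_tsupport h]
        · have : deriv T (y t * ε⁻¹ - 1) = 0 := by
            rcases not_and_or.1 h with h | h
            · have hev : T =ᶠ[𝓝 (y t * ε⁻¹ - 1)] fun _ => 0 := by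
                have hlt : y t * ε⁻¹ - 1 < 0 := by
                  rw [sub_neg, ← div_eq_mul_inv, div_lt_one hε]; exact not_le.1 h
                filter_upwards [gt_mem_nhds hlt] with z hz
                exact Real.smoothTransition.zero_of_nonpos hz.le
              simp [hev.deriv_eq]
            · have hev : T =ᶠ[𝓝 (y t * ε⁻¹ - 1)] fun _ => 1 := by
                have hlt : 1 < y t * ε⁻¹ - 1 := by
                  rw [lt_sub_iff_add_lt, ← div_eq_mul_inv, lt_div_iff₀ hε]; linarith [not_le.1 h]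
                filter_upwards [lt_mem_nhds hlt] with z hz
                exact Real.smoothTransition.one_of_one_le hz.le
              simp [hev.deriv_eq]
          simp [this]
    refine (norm_integral_le_of_norm_le (f := fun y =>
      φ y * (deriv T (y t * ε⁻¹ - 1) * ε⁻¹) * P t y) (((integrable_indicator_iff hBm).2
      (integrableOn_const (C := c) hBf)).restrict) ((ae_restrict_iff' (measurableSet_upper t)).2
        (Eventually.of_forall hb2))).trans ?_
    rw [setIntegral_indicator hBm, setIntegral_const, smul_eq_mul, measureReal_def]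
    calc (volume (S ∩ Bx)).toReal * c ≤ V * ε * c := by
          refine mul_le_mul_of_nonneg_right ((ENNReal.toReal_mono hBf
            (measure_mono inter_subset_right)).trans hBv) (by positivity)
      _ = |M| * 2 * |B| * |Φ| * V * ε ^ α := by simp only [hc]; field_simp
  have hlim : Tendsto (fun ε => ∫ y in S, θ ε y * ∑ j, P j y * pd j φ y) (𝓝[>] 0)
      (𝓝 (∫ y in S, ∑ j, P j y * pd j φ y)) := by
    refine tendsto_integral_filter_of_dominated_convergence _ (Eventually.of_forall fun ε =>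
      (hθs ε).continuous.aestronglyMeasurable.mul
        (Finset.aestronglyMeasurable_fun_sum _ fun j _ => hPm j)) ?_ hdom ?_
    · refine Eventually.of_forall fun ε => (ae_restrict_iff' (measurableSet_upper t)).2
        (Eventually.of_forall fun y hy => ?_)
      rw [norm_mul]
      refine le_trans (mul_le_of_le_one_left (norm_nonneg _) ?_) ?_
      · rw [Real.norm_eq_abs, abs_of_nonneg (Real.smoothTransition.nonneg _)]
        exact Real.smoothTransition.le_one _
      · exact (norm_sum_le _ _).trans (Finset.sum_le_sum fun j _ => hPb j y hy)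
    · refine (ae_restrict_iff' (measurableSet_upper t)).2 (Eventually.of_forall fun y hy => ?_)
      refine tendsto_const_nhds.congr' ?_
      have hy' : 0 < y t := hy
      filter_upwards [Ioo_mem_nhdsGT (show 0 < y t / 2 by linarith)] with ε hε
      have : T (y t * ε⁻¹ - 1) = 1 := by
        refine Real.smoothTransition.one_of_one_le ?_
        rw [le_sub_iff_add_le, ← div_eq_mul_inv, le_div_iff₀ hε.1]; linarith [hε.2]
      simp [hθ, this]
  have h0 : Tendsto (fun ε : ℝ => |M| * 2 * |B| * |Φ| * V * ε ^ α) (𝓝[>] 0) (𝓝 0) := by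
    refine tendsto_nhdsWithin_of_tendsto_nhds ?_
    have := ((continuous_id.rpow_const fun _ => Or.inr hα.le).const_mul
      (|M| * 2 * |B| * |Φ| * V)).tendsto (0 : ℝ)
    simpa [Real.zero_rpow hα.ne'] using this
  refine abs_eq_zero.1 (le_antisymm ?_ (abs_nonneg _))
  exact le_of_tendsto_of_tendsto hlim.abs h0 (by
    filter_upwards [self_mem_nhdsWithin] with ε hε using hid ε hε)

/-- The lift `y ↦ (y', h y)`. -/
noncomputable def lift (t : Fin d) (h : Euc d → ℝ) (y : Euc d) : Euc d := flat t y + h y • bas t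

/-- The projection off the `t` axis as a linear map. -/
noncomputable def flatL (t : Fin d) : Euc d →L[ℝ] Euc d :=
  ContinuousLinearMap.id ℝ (Euc d) - (EuclideanSpace.proj (𝕜 := ℝ) t).smulRight (bas t)

lemma flatL_apply (t : Fin d) (v : Euc d) : flatL t v = flat t v := rfl

lemma flat_bas (t i : Fin d) : flat t (bas i) = if i = t then (0 : Euc d) else bas i := by
  ext j
  rw [flat_apply]
  by_cases hi : i = t
  · simp only [hi, if_true]; split_ifs with hj <;> simp [hj]
  · simp only [hi, if_false]; split_ifs with hj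
    · subst hj; simp [Ne.symm hi]
    · rfl

/-- The flux in the original variables. -/
noncomputable def physFlux (u : Euc d → ℝ) (t j : Fin d) (x : Euc d) : ℝ :=
  if j = t then (1 - ∑ k, pd k u x ^ 2) / 2 else -pd j u x

/-- `h` is the height of the level sets in the ball of radius `R = s₀ / 16`. -/
structure IsHeight (u h : Euc d → ℝ) (t : Fin d) (s₀ α K R : ℝ) : Prop where
  near : IsNear u t s₀ α K
  small : near.Small
  R_eq : R = s₀ / 16
  spec : ∀ y ∈ hball t R,
    -(s₀ / 4) < h y ∧ h y < s₀ / 4 ∧ u (flat t y + h y • bas t) = y t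

namespace IsHeight

variable {u h : Euc d → ℝ} {t : Fin d} {s₀ α K R : ℝ} (G : IsHeight u h t s₀ α K R)
include G

lemma R_pos : 0 < R := by rw [G.R_eq]; linarith [G.near.r_pos]

lemma flat_lt {y : Euc d} (hy : y ∈ hball t R) : ‖flat t y‖ < s₀ / 4 := by
  have := norm_flat_le t y
  have := (mem_hball.1 hy).1
  rw [G.R_eq] at this
  linarith [G.near.r_pos]

lemma lift_pos {y : Euc d} (hy : y ∈ hball t R) : lift t h y ∈ posSet u := by
  show 0 < u (lift t h y)
  rw [lift, (G.spec y hy).2.2]; exact (mem_hball.1 hy).2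

lemma lift_lt {y : Euc d} (hy : y ∈ hball t R) : ‖lift t h y‖ < s₀ := by
  have := G.near.norm_line (G.flat_lt hy) (s := h y)
    (abs_le.2 ⟨(G.spec y hy).1.le, (G.spec y hy).2.1.le⟩)
  simp only [lift]
  linarith [G.near.r_pos]

lemma unique {y : Euc d} (hy : y ∈ hball t R) {s : ℝ} (h1 : -(s₀ / 4) ≤ s) (h2 : s ≤ s₀ / 4)
    (h3 : u (flat t y + s • bas t) = y t) : s = h y :=
  G.near.height_unique G.small (G.flat_lt hy) h1 h2 (G.spec y hy).1.le (G.spec y hy).2.1.le
    (h3.trans (G.spec y hy).2.2.symm) (by rw [h3]; exact (mem_hball.1 hy).2)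

lemma hud {x : Euc d} (hx : x ∈ posSet u) : DifferentiableAt ℝ u x :=
  (G.near.smooth.contDiffAt (G.near.isOpen_pos.mem_nhds hx)).differentiableAt (by simp)

lemma pd_t_pos {y : Euc d} (hy : y ∈ hball t R) : 3 / 4 ≤ pd t u (lift t h y) :=
  G.near.pd_t_ge G.small (G.lift_pos hy) (G.lift_lt hy)

lemma smooth : ContDiffOn ℝ ∞ h (hball t R) := by
  have H := G.near
  have hS := G.small
  have hh := G.spec
  have hflat := fun {y} hy => G.flat_lt (y := y) hy
  have hΦpos := fun {y} hy => G.lift_pos (y := y) hy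
  have hΦr := fun {y} hy => G.lift_lt (y := y) hy
  have huniq : ∀ {y}, y ∈ hball t R → ∀ s, -(s₀ / 4) ≤ s → s ≤ s₀ / 4 →
      u (flat t y + s • bas t) = y t → s = h y := fun {y} hy s => G.unique hy
  set Φ : Euc d → Euc d := lift t h with hΦ
  set Fl : Euc d →L[ℝ] Euc d := flatL t with hFl
  have hFle : ∀ v, Fl v = flat t v := fun v => rfl
  intro y₀ hy₀
  refine ContDiffAt.contDiffWithinAt ?_
  set x₀ := Φ y₀ with hx₀
  have hpos := hΦpos hy₀
  have hus : ContDiffAt ℝ ∞ u x₀ := H.smooth.contDiffAt (H.isOpen_pos.mem_nhds hpos)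
  have hne : pd t u x₀ ≠ 0 := by linarith [H.pd_t_ge hS hpos (hΦr hy₀)]
  set Ψ : Euc d → Euc d := fun x => flat t x + u x • bas t with hΨ
  have hΨs : ContDiffAt ℝ ∞ Ψ x₀ :=
    (Fl.contDiff.contDiffAt (x := x₀)).add (hus.smul contDiffAt_const)
  set L : Euc d →L[ℝ] Euc d := Fl + (fderiv ℝ u x₀).smulRight (bas t) with hL
  have hLd : HasFDerivAt Ψ L x₀ :=
    (Fl.hasFDerivAt).add ((hus.differentiableAt (by simp)).hasFDerivAt.smul_const (bas t))
  have hinj : Function.Injective (L : Euc d →ₗ[ℝ] Euc d) := by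
    refine (injective_iff_map_eq_zero _).2 fun v hv => ?_
    have hv' : flat t v + fderiv ℝ u x₀ v • bas t = 0 := hv
    have hc : ∀ j, (if j = t then fderiv ℝ u x₀ v else v j) = 0 := fun j => by
      rw [← flat_add_apply t j v, hv']; rfl
    have hvj : ∀ j, j ≠ t → v j = 0 := fun j hj => by simpa [hj] using hc j
    have ht : fderiv ℝ u x₀ v = 0 := by simpa using hc t
    rw [clm_apply_eq, Finset.sum_eq_single t (fun j _ hj => by simp [hvj j hj]) (by simp)] at ht
    have hvt : v t = 0 := (mul_eq_zero.1 ht).resolve_right hne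
    ext j
    by_cases hj : j = t
    · subst hj; simpa using hvt
    · simpa using hvj j hj
  set e : Euc d ≃L[ℝ] Euc d :=
    (LinearEquiv.ofBijective (L : Euc d →ₗ[ℝ] Euc d)
      ⟨hinj, LinearMap.surjective_of_injective hinj⟩).toContinuousLinearEquiv with he
  have hLd' : HasFDerivAt Ψ (e : Euc d →L[ℝ] Euc d) x₀ := hLd.congr_fderiv (by ext v; rfl)
  have himg : Ψ x₀ = y₀ := by
    show flat t (flat t y₀ + h y₀ • bas t) + u (flat t y₀ + h y₀ • bas t) • bas t = y₀
    rw [flat_idem, (hh y₀ hy₀).2.2, flat_self]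
  set ι := hΨs.localInverse hLd' (by simp) with hι
  have hιs : ContDiffAt ℝ ∞ ι y₀ := himg ▸ hΨs.to_localInverse hLd' (by simp)
  have hι0 : ι y₀ = x₀ := himg ▸ hΨs.localInverse_apply_image hLd' (by simp)
  have hright : ∀ᶠ y in 𝓝 y₀, Ψ (ι y) = y :=
    himg ▸ (hΨs.hasStrictFDerivAt' hLd' (by simp)).eventually_right_inverse
  have hpath : ∀ᶠ y in 𝓝 y₀, y ∈ hball t R ∧ |ι y t| < s₀ / 4 := by
    refine (show ∀ᶠ y in 𝓝 y₀, y ∈ hball t R from (isOpen_hball t R).mem_nhds hy₀).and ?_
    have hc : ContinuousAt (fun y => |ι y t|) y₀ :=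
      ((EuclideanSpace.proj (𝕜 := ℝ) t).continuous.continuousAt.comp hιs.continuousAt).abs
    refine hc.eventually (gt_mem_nhds ?_)
    simp only [hι0, hx₀, hΦ, lift, flat_add_apply, if_true]
    exact abs_lt.2 ⟨(hh y₀ hy₀).1, (hh y₀ hy₀).2.1⟩
  refine (((EuclideanSpace.proj (𝕜 := ℝ) t).contDiff.contDiffAt (x := ι y₀)).comp y₀ hιs).congr_of_eventuallyEq ?_
  filter_upwards [hright, hpath] with y hy1 hy2
  refine (huniq hy2.1 _ (abs_le.1 hy2.2.le).1 (abs_le.1 hy2.2.le).2 ?_).symm
  have hyt : u (ι y) = y t := by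
    have := congrArg (fun z : Euc d => z t) hy1
    simpa [hΨ, flat_apply] using this
  have hflatι : flat t y = flat t (ι y) := by
    conv_lhs => rw [← hy1]
    exact flat_idem _ _ _
  show u (flat t y + ι y t • bas t) = y t
  rw [hflatι, flat_self, hyt]

lemma hasFDerivAt_lift {y : Euc d} (hy : y ∈ hball t R) :
    HasFDerivAt (lift t h) (flatL t + (fderiv ℝ h y).smulRight (bas t)) y :=
  ((flatL t).hasFDerivAt).add ((((G.smooth.contDiffAt ((isOpen_hball t R).mem_nhds hy))).differentiableAt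
    (by simp)).hasFDerivAt.smul_const (bas t))

lemma pdh_eq (i : Fin d) {y : Euc d} (hy : y ∈ hball t R) :
    (if i = t then 0 else pd i u (lift t h y)) + pd t u (lift t h y) * pd i h y
      = if i = t then 1 else 0 := by
  have hh := G.spec
  have hud := fun {x} hx => G.hud (x := x) hx
  have hΦpos := fun {y} hy => G.lift_pos (y := y) hy
  have hΦd := fun {y} hy => G.hasFDerivAt_lift (y := y) hy
  set P := EuclideanSpace.proj (𝕜 := ℝ) t with hP
  set Φ : Euc d → Euc d := lift t h with hΦ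
  have h1 : fderiv ℝ (fun z => u (Φ z)) y (bas i) = fderiv ℝ (fun z : Euc d => z t) y (bas i) := by
    have he : (fun z => u (Φ z)) =ᶠ[𝓝 y] fun z : Euc d => z t := by
      filter_upwards [(isOpen_hball t R).mem_nhds hy] with z hz using (hh z hz).2.2
    rw [he.fderiv_eq]
  have hc : fderiv ℝ (fun z => u (Φ z)) y = _ :=
    ((hud (hΦpos hy)).hasFDerivAt.comp y (hΦd hy)).fderiv
  have hpr : fderiv ℝ (fun z : Euc d => z t) y = P :=
    P.fderiv
  rw [hc, hpr, ContinuousLinearMap.comp_apply, add_apply, flatL_apply, ContinuousLinearMap.smulRight_apply,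
    map_add, map_smul, flat_bas, smul_eq_mul] at h1
  have hPi : P (bas i) = if i = t then 1 else 0 := by
    show bas i t = _
    rw [bas_apply]; simp [eq_comm]
  rw [hPi] at h1
  rw [← h1]
  split_ifs with hi <;> simp [pd, mul_comm]

lemma pd_t_h {y : Euc d} (hy : y ∈ hball t R) : pd t h y = 1 / pd t u (lift t h y) := by
  have := G.pdh_eq t hy
  simp only [if_true, zero_add] at this
  rw [eq_div_iff (by linarith [G.pd_t_pos hy]), mul_comm]
  exact this

lemma pd_i_h {i : Fin d} (hi : i ≠ t) {y : Euc d} (hy : y ∈ hball t R) :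
    pd i h y = -pd i u (lift t h y) / pd t u (lift t h y) := by
  have := G.pdh_eq i hy
  simp only [hi, if_false] at this
  rw [eq_div_iff (by linarith [G.pd_t_pos hy])]
  linarith

lemma dev (i : Fin d) {y : Euc d} (hy : y ∈ hball t R) :
    |pd i u (lift t h y) - if i = t then 1 else 0| ≤ 1 / 4 :=
  (G.near.grad i _ (G.lift_pos hy) (G.lift_lt hy)).trans ((mul_le_mul_of_nonneg_left
    (Real.rpow_le_rpow (norm_nonneg _) (G.lift_lt hy).le G.near.α_pos.le) G.near.K_nonneg).trans
      G.small.2)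

lemma pd_h_le (i : Fin d) {y : Euc d} (hy : y ∈ hball t R) : |pd i h y| ≤ 2 := by
  have h3 := G.pd_t_pos hy
  by_cases hi : i = t
  · subst hi
    rw [G.pd_t_h hy, abs_of_pos (by positivity), div_le_iff₀ (by linarith)]; linarith
  · have h4 := G.dev i hy
    simp only [hi, if_false, sub_zero] at h4
    rw [G.pd_i_h hi hy, abs_div, abs_neg, abs_of_pos (show 0 < pd t u (lift t h y) by linarith),
      div_le_iff₀ (by linarith)]
    linarith

lemma h_lip {y z : Euc d} (hy : y ∈ hball t R) (hz : z ∈ hball t R) :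
    |h y - h z| ≤ 2 * d * ‖y - z‖ := by
  refine (convex_hball t R).norm_image_sub_le_of_norm_fderiv_le (f := h) (fun w hw =>
    ((G.smooth.contDiffAt ((isOpen_hball t R).mem_nhds hw))).differentiableAt (by simp))
    (fun w hw => ?_) hz hy
  refine ContinuousLinearMap.opNorm_le_bound _ (by positivity) fun v => ?_
  rw [clm_apply_eq, Real.norm_eq_abs]
  refine (abs_sum_le_card (B := ‖v‖ * 2) fun j => ?_).trans (le_of_eq (by ring))
  rw [abs_mul]
  exact mul_le_mul (abs_apply_le_norm v j) (G.pd_h_le j hw) (abs_nonneg _) (norm_nonneg _)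

lemma lift_lip {y z : Euc d} (hy : y ∈ hball t R) (hz : z ∈ hball t R) :
    ‖lift t h y - lift t h z‖ ≤ (1 + 2 * d) * ‖y - z‖ := by
  rw [show lift t h y - lift t h z = (flat t y - flat t z) + (h y - h z) • bas t by
    simp only [lift, sub_smul]; abel]
  refine (norm_add_le _ _).trans ?_
  rw [norm_smul, PiLp.norm_single, norm_one, mul_one, Real.norm_eq_abs]
  have := norm_flat_sub t y z
  have := G.h_lip hy hz
  linarith

lemma axis (ε : ℝ) (hε : 0 < ε) (hεR : ε < R) :
    ε • bas t ∈ hball t R ∧ |h (ε • bas t)| ≤ 2 * ε := by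
  have H := G.near
  have hS := G.small
  have hh := G.spec
  have hflat := fun {y} hy => G.flat_lt (y := y) hy
  have hm : ε • bas t ∈ hball t R := mem_hball.2 ⟨by
    rw [norm_smul, PiLp.norm_single, norm_one, mul_one, Real.norm_eq_abs, abs_of_pos hε]
    exact hεR, by simp [hε]⟩
  refine ⟨hm, ?_⟩
  obtain ⟨h1, h2, h3⟩ := hh _ hm
  set s := h (ε • bas t) with hs
  have hf0 : flat t (ε • bas t) = 0 := by simp [flat]
  rw [hf0, zero_add] at h3
  have het : (ε • bas t : Euc d) t = ε := by simp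
  rw [het] at h3
  have hn : ∀ σ : ℝ, |σ| ≤ s₀ / 4 → ‖σ • bas t‖ < s₀ := fun σ hσ => by
    rw [norm_smul, PiLp.norm_single, norm_one, mul_one, Real.norm_eq_abs]; linarith
  have habs : |s| ≤ s₀ / 4 := abs_le.2 ⟨h1.le, h2.le⟩
  have hneg : ∀ σ : ℝ, |σ| ≤ s₀ / 4 → σ < 0 → ¬ 0 < u (σ • bas t) := fun σ hσ hσ0 hp => by
    have hb := H.below _ (hn σ hσ) hp
    have := H.small_pow hS (hn σ hσ)
    rw [norm_smul, PiLp.norm_single, norm_one, mul_one, Real.norm_eq_abs, abs_of_neg hσ0] at hb this
    simp at hb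
    linarith
  have hspos : 0 ≤ s := not_lt.1 fun hneg' => hneg s habs hneg' (by rw [h3]; exact hε)
  obtain ⟨σ, hσ1, hσ2, hσ3, hσ4⟩ := H.descent hS (y := ε • bas t) (hflat hm) h1.le h2.le
    (by rw [hf0, zero_add, h3]; exact hε)
  rw [hf0, zero_add] at hσ3 hσ4
  have hσle : σ ≤ 0 := by
    by_contra hσ0
    have hσ0' : 0 < σ := not_le.1 hσ0
    have hσa : |σ| ≤ s₀ / 4 := abs_le.2 ⟨hσ1, by linarith⟩
    have := H.small_pow hS (hn σ hσa)
    have hab := H.above _ (hn σ hσa) (by
      rw [norm_smul, PiLp.norm_single, norm_one, mul_one, Real.norm_eq_abs,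
        abs_of_pos hσ0'] at this ⊢
      simp; linarith)
    linarith
  rw [h3] at hσ4
  rw [abs_of_nonneg hspos]; linarith

lemma lift_origin {y : Euc d} (hy : y ∈ hball t R) :
    ‖lift t h y‖ ≤ (1 + 2 * d) * ‖y‖ ∧ |h y| ≤ 2 * d * ‖y‖ := by
  set L : ℝ := 1 + 2 * d with hL
  set Φ : Euc d → Euc d := lift t h with hΦ
  have hR0 := G.R_pos
  have hax := G.axis
  have hhl : ∀ y ∈ hball t R, ∀ z ∈ hball t R, |h y - h z| ≤ 2 * d * ‖y - z‖ :=
    fun y hy z hz => G.h_lip hy hz
  have hΦl : ∀ y ∈ hball t R, ∀ z ∈ hball t R, ‖Φ y - Φ z‖ ≤ L * ‖y - z‖ :=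
    fun y hy z hz => G.lift_lip hy hz
  have hc1 : Tendsto (fun ε : ℝ => L * ‖y - ε • bas t‖ + 2 * ε) (𝓝[>] 0) (𝓝 (L * ‖y‖)) := by
    refine tendsto_nhdsWithin_of_tendsto_nhds ?_
    have := (show Continuous fun ε : ℝ => L * ‖y - ε • bas t‖ + 2 * ε by fun_prop).tendsto 0
    simpa using this
  have hc2 : Tendsto (fun ε : ℝ => 2 * d * ‖y - ε • bas t‖ + 2 * ε) (𝓝[>] 0) (𝓝 (2 * d * ‖y‖)) := by
    refine tendsto_nhdsWithin_of_tendsto_nhds ?_
    have := (show Continuous fun ε : ℝ => 2 * d * ‖y - ε • bas t‖ + 2 * ε by fun_prop).tendsto 0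
    simpa using this
  refine ⟨ge_of_tendsto hc1 ?_, ge_of_tendsto hc2 ?_⟩ <;>
    filter_upwards [Ioo_mem_nhdsGT hR0] with ε hε <;> obtain ⟨hm, hle⟩ := hax ε hε.1 hε.2
  · have h1 := hΦl y hy _ hm
    have h2 : ‖Φ (ε • bas t)‖ ≤ 2 * ε := by
      have : Φ (ε • bas t) = h (ε • bas t) • bas t := by simp [hΦ, lift, flat]
      rw [this, norm_smul, PiLp.norm_single, norm_one, mul_one, Real.norm_eq_abs]; exact hle
    linarith [norm_sub_norm_le (Φ y) (Φ (ε • bas t))]
  · have h1 := hhl y hy _ hm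
    linarith [abs_sub_abs_le_abs_sub (h y) (h (ε • bas t))]

lemma near_one (i : Fin d) {y : Euc d} (hy : y ∈ hball t R) :
    |pd i h y - if i = t then 1 else 0| ≤ 3 * K * (1 + 2 * d) * ‖y‖ ^ α := by
  have H := G.near
  have hK := H.K_nonneg
  have hα := H.α_pos
  set L : ℝ := 1 + 2 * d with hL
  set Φ : Euc d → Euc d := lift t h with hΦ
  have hΦpos := fun {y} hy => G.lift_pos (y := y) hy
  have hΦr := fun {y} hy => G.lift_lt (y := y) hy
  have hΦ0 := fun y hy => G.lift_origin (y := y) hy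
  have hL1 : 1 ≤ L := by simp only [hL]; linarith [Nat.cast_nonneg (α := ℝ) d]
  have hqt := fun y hy => G.pd_t_h (y := y) hy
  have hpi := fun i hi y hy => G.pd_i_h (i := i) hi (y := y) hy
  have h3 := G.pd_t_pos hy
  have hg := fun j => (H.grad j _ (hΦpos hy) (hΦr hy)).trans (mul_le_mul_of_nonneg_left
    ((Real.rpow_le_rpow (norm_nonneg _) (hΦ0 y hy).1 hα.le).trans (le_of_eq
      (Real.mul_rpow (by linarith) (norm_nonneg y)))) hK)
  have hLα : L ^ α ≤ L := by
    simpa using Real.rpow_le_rpow_of_exponent_le hL1 H.α_lt.le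
  have hX : K * (L ^ α * ‖y‖ ^ α) ≤ K * L * ‖y‖ ^ α := by
    rw [← mul_assoc]; gcongr
  by_cases hi : i = t
  · subst hi
    have h5 := (hg i).trans hX
    simp only [if_true] at h5 ⊢
    rw [hqt y hy, div_sub_one (by linarith), abs_div,
      abs_of_pos (show 0 < pd i u (Φ y) by linarith), div_le_iff₀ (by linarith), abs_sub_comm]
    nlinarith [show 0 ≤ K * L * ‖y‖ ^ α by positivity]
  · have h5 := (hg i).trans hX
    simp only [hi, if_false, sub_zero] at h5 ⊢
    rw [hpi i hi y hy, abs_div, abs_neg, abs_of_pos (show 0 < pd t u (Φ y) by linarith),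
      div_le_iff₀ (by linarith)]
    nlinarith [show 0 ≤ K * L * ‖y‖ ^ α by positivity]

lemma hold_h (i : Fin d) {y z : Euc d} (hy : y ∈ hball t R) (hz : z ∈ hball t R) :
    |pd i h y - pd i h z| ≤ 5 * K * (1 + 2 * d) * ‖y - z‖ ^ α := by
  have H := G.near
  have hK := H.K_nonneg
  have hα := H.α_pos
  set L : ℝ := 1 + 2 * d with hL
  set Φ : Euc d → Euc d := lift t h with hΦ
  have hΦpos := fun {y} hy => G.lift_pos (y := y) hy
  have hΦr := fun {y} hy => G.lift_lt (y := y) hy
  have hΦl : ∀ y ∈ hball t R, ∀ z ∈ hball t R, ‖Φ y - Φ z‖ ≤ L * ‖y - z‖ :=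
    fun y hy z hz => G.lift_lip hy hz
  have hL1 : 1 ≤ L := by simp only [hL]; linarith [Nat.cast_nonneg (α := ℝ) d]
  have hqt := fun y hy => G.pd_t_h (y := y) hy
  have hpi := fun i hi y hy => G.pd_i_h (i := i) hi (y := y) hy
  have hdev := fun i y hy => G.dev i (y := y) hy
  have h3 := G.pd_t_pos hy
  have h3' := G.pd_t_pos hz
  have hg : ∀ j, |pd j u (Φ y) - pd j u (Φ z)| ≤ K * L * ‖y - z‖ ^ α := fun j => by
    refine (H.hold j _ (hΦpos hy) _ (hΦpos hz) (hΦr hy) (hΦr hz)).trans ?_
    rw [mul_assoc]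
    refine mul_le_mul_of_nonneg_left ((Real.rpow_le_rpow (norm_nonneg _) (hΦl y hy z hz)
      hα.le).trans ?_) hK
    rw [Real.mul_rpow (by linarith) (norm_nonneg _)]
    refine mul_le_mul_of_nonneg_right ?_ (by positivity)
    simpa using Real.rpow_le_rpow_of_exponent_le hL1 H.α_lt.le
  have hX : 0 ≤ K * L * ‖y - z‖ ^ α := by positivity
  set a := pd t u (Φ y)
  set a' := pd t u (Φ z)
  have hprod : 9 / 16 ≤ a * a' := by nlinarith
  by_cases hi : i = t
  · subst hi
    rw [hqt y hy, hqt z hz, div_sub_div _ _ (by linarith) (by linarith), abs_div,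
      abs_of_pos (show 0 < pd i u (Φ y) * pd i u (Φ z) by positivity), one_mul, mul_one,
      div_le_iff₀ (by positivity), abs_sub_comm]
    nlinarith [hg i]
  · set b := pd i u (Φ y)
    set b' := pd i u (Φ z)
    have hb : |b| ≤ 1 / 4 := by simpa [hi] using hdev i y hy
    have ha : |a| ≤ 5 / 4 := by
      have := hdev t y hy
      simp only [if_true] at this
      rw [abs_of_pos (by linarith)]; linarith [(abs_le.1 this).2]
    rw [hpi i hi y hy, hpi i hi z hz, div_sub_div _ _ (by linarith) (by linarith), abs_div,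
      abs_of_pos (show 0 < a * a' by positivity), div_le_iff₀ (by positivity)]
    rw [show -b * a' - a * -b' = b * (a - a') + a * (b' - b) by ring]
    refine (abs_add_le _ _).trans ?_
    rw [abs_mul, abs_mul, abs_sub_comm b' b]
    have e1 : |b| * |a - a'| ≤ 1 / 4 * (K * L * ‖y - z‖ ^ α) :=
      mul_le_mul hb (hg t) (abs_nonneg _) (by norm_num)
    have e2 : |a| * |b - b'| ≤ 5 / 4 * (K * L * ‖y - z‖ ^ α) :=
      mul_le_mul ha (hg i) (abs_nonneg _) (by norm_num)
    nlinarith

lemma flux_eq (j : Fin d) :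
    EqOn (fun y => fluxFn t j (grad h y)) (fun y => physFlux u t j (lift t h y)) (hball t R) := by
  have hqt := fun y hy => G.pd_t_h (y := y) hy
  have hpi := fun i hi y hy => G.pd_i_h (i := i) hi (y := y) hy
  set Φ : Euc d → Euc d := lift t h with hΦ
  intro y hy
  have h3 : pd t u (Φ y) ≠ 0 := by linarith [G.pd_t_pos hy]
  by_cases hj : j = t
  · subst hj
    simp only [fluxFn, physFlux, grad, if_true]
    congr 2
    have e : ∀ k, (if k = j then 0 else pd k h y ^ 2)
        = (if k = j then 0 else pd k u (Φ y) ^ 2) / pd j u (Φ y) ^ 2 := fun k => by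
      by_cases hk : k = j
      · simp [hk]
      · simp only [hk, if_false, hpi k hk y hy]; ring
    rw [Finset.sum_congr rfl fun k _ => e k, ← Finset.sum_div, hqt y hy,
      ← Finset.add_sum_erase _ (fun k => pd k u (Φ y) ^ 2) (Finset.mem_univ j),
      ← Finset.add_sum_erase _ (fun k => if k = j then 0 else pd k u (Φ y) ^ 2) (Finset.mem_univ j),
      if_pos rfl, zero_add,
      Finset.sum_congr rfl fun k hk => if_neg (Finset.ne_of_mem_erase hk)]
    field_simp
  · simp only [fluxFn, physFlux, grad, hj, if_false, hpi j hj y hy, hqt y hy]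
    field_simp

lemma contDiffOn_physFlux (j : Fin d) : ContDiffOn ℝ ∞ (physFlux u t j) (posSet u) := by
  have H := G.near
  by_cases hj : j = t
  · unfold physFlux; simp only [hj, if_true]
    exact (contDiffOn_const.sub (ContDiffOn.sum fun k _ =>
      (contDiffAt_pd_of_contDiffOn H.isOpen_pos H.smooth k).pow 2)).div_const 2
  · unfold physFlux; simp only [hj, if_false]
    exact (contDiffAt_pd_of_contDiffOn H.isOpen_pos H.smooth j).neg

lemma contDiffOn_flux (j : Fin d) : ContDiffOn ℝ ∞ (fun y => fluxFn t j (grad h y)) (hball t R) :=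
  ((G.contDiffOn_physFlux j).comp (((flatL t).contDiff.contDiffOn).add
    (G.smooth.smul contDiffOn_const)) fun _ hy => G.lift_pos hy).congr (G.flux_eq j)

lemma flux_div {y : Euc d} (hy : y ∈ hball t R) :
    ∑ j, pd j (fun y => fluxFn t j (grad h y)) y = 0 := by
  have H := G.near
  have hqt := fun y hy => G.pd_t_h (y := y) hy
  have hpi := fun i hi y hy => G.pd_i_h (i := i) hi (y := y) hy
  have hflux := G.flux_eq
  have hΦpos := fun {y} hy => G.lift_pos (y := y) hy
  have hΦr := fun {y} hy => G.lift_lt (y := y) hy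
  have hΦd := fun {y} hy => G.hasFDerivAt_lift (y := y) hy
  have hQs := G.contDiffOn_physFlux
  set Φ : Euc d → Euc d := lift t h with hΦ
  set Q : Fin d → Euc d → ℝ := physFlux u t with hQ'
  have hQ : Q = fun j x => if j = t then (1 - ∑ k, pd k u x ^ 2) / 2 else -pd j u x := rfl
  set x := Φ y with hx
  have hxp := hΦpos hy
  have hd1 : ∀ k, HasFDerivAt (pd k u) (fderiv ℝ (pd k u) x) x := fun k =>
    (((contDiffAt_pd_of_contDiffOn H.isOpen_pos H.smooth k).contDiffAt
      (H.isOpen_pos.mem_nhds hxp)).differentiableAt (by simp)).hasFDerivAt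
  have hdQ : ∀ j, DifferentiableAt ℝ (Q j) x := fun j =>
    ((hQs j).contDiffAt (H.isOpen_pos.mem_nhds hxp)).differentiableAt (by simp)
  have hstep : ∀ j, pd j (fun y => fluxFn t j (grad h y)) y
      = (if j = t then 0 else pd j (Q j) x) + pd j h y * pd t (Q j) x := fun j => by
    have he : (fun y => fluxFn t j (grad h y)) =ᶠ[𝓝 y] fun y => Q j (Φ y) := by
      filter_upwards [(isOpen_hball t R).mem_nhds hy] with z hz using hflux j hz
    have hc : fderiv ℝ (fun y => Q j (Φ y)) y = _ := (HasFDerivAt.comp (g := Q j) (f := Φ) y (hdQ j).hasFDerivAt (hΦd hy)).fderiv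
    rw [pd_congr he, pd, hc, ContinuousLinearMap.comp_apply, add_apply, flatL_apply,
      ContinuousLinearMap.smulRight_apply, map_add, map_smul, flat_bas, smul_eq_mul]
    split_ifs <;> simp [pd]
  have hpt : pd t (Q t) x = -∑ k, pd k u x * pd t (pd k u) x := by
    have h1 : fderiv ℝ (fun z => (1 - ∑ k, pd k u z ^ 2) * (2 : ℝ)⁻¹) x = _ :=
      (((HasFDerivAt.fun_sum fun k (_ : k ∈ Finset.univ) => (hd1 k).pow 2).const_sub 1).mul_const
        (2 : ℝ)⁻¹).fderiv
    simp only [hQ, if_true, pd, div_eq_mul_inv] at h1 ⊢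
    rw [h1]
    simp only [smul_apply, neg_apply, FunLike.coe_sum, Finset.sum_apply, smul_eq_mul, mul_neg]
    rw [Finset.mul_sum]
    congr 1
    refine Finset.sum_congr rfl fun k _ => ?_
    simp; ring
  have hpj : ∀ j, j ≠ t → ∀ i, pd i (Q j) x = -pd i (pd j u) x := fun j hj i => by
    have : Q j = fun z => -pd j u z := by funext z; simp [hQ, hj]
    rw [this, pd, fderiv_fun_neg]; rfl
  have hsym : ∀ k, pd t (pd k u) x = pd k (pd t u) x := fun k =>
    pd_pd_comm ((H.smooth.contDiffAt (H.isOpen_pos.mem_nhds hxp)).of_le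
      (WithTop.coe_le_coe.2 le_top)) t k
  have h3 : pd t u x ≠ 0 := by linarith [G.pd_t_pos hy]
  have hterm : ∀ j, pd j (fun y => fluxFn t j (grad h y)) y = -pd j (pd j u) x
      + ((if j = t then pd t (pd t u) x else pd j u x / pd t u x * pd t (pd j u) x)
        + if j = t then -((∑ k, pd k u x * pd t (pd k u) x) / pd t u x) else 0) := fun j => by
    rw [hstep j]
    by_cases hj : j = t
    · subst hj
      simp only [if_true, hpt, hqt y hy]
      ring
    · simp only [hj, if_false, hpj j hj, hpi j hj y hy]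
      ring
  simp only [hterm, Finset.sum_add_distrib, Finset.sum_neg_distrib, H.harmonic x hxp, neg_zero,
    zero_add, Finset.sum_ite_eq', Finset.mem_univ, if_true]
  rw [← Finset.add_sum_erase _ _ (Finset.mem_univ t), if_pos rfl, add_assoc,
    Finset.sum_congr rfl fun j hj => if_neg (Finset.ne_of_mem_erase hj),
    ← Finset.add_sum_erase (f := fun k => pd k u x * pd t (pd k u) x) _ (Finset.mem_univ t),
    add_div, Finset.sum_div]
  have e : ∀ j : Fin d, pd j u x / pd t u x * pd t (pd j u) x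
      = pd j u x * pd t (pd j u) x / pd t u x := fun j => by ring
  simp only [e, mul_div_cancel_left₀ _ h3]
  ring

lemma flux_le (j : Fin d) {y : Euc d} (hy : y ∈ hball t R) : |fluxFn t j (grad h y)| ≤ 2 + K := by
  have H := G.near
  have hK := H.K_nonneg
  have hflux := G.flux_eq
  rw [show fluxFn t j (grad h y) = physFlux u t j (lift t h y) from hflux j hy]
  by_cases hj : j = t
  · simp only [physFlux, hj, if_true]
    have := H.eik _ (G.lift_pos hy) (G.lift_lt hy) 0 H.zero
    rw [sub_zero] at this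
    have h1 : K * ‖lift t h y‖ ^ α ≤ 1 / 4 := (mul_le_mul_of_nonneg_left
      (Real.rpow_le_rpow (norm_nonneg _) (G.lift_lt hy).le H.α_pos.le) hK).trans G.small.2
    rw [abs_div, abs_two]
    linarith
  · simp only [physFlux, hj, if_false, abs_neg]
    have := G.dev j hy
    simp only [hj, if_false, sub_zero] at this
    linarith

lemma flux_t_le {y : Euc d} (hy : y ∈ hball t R) :
    |fluxFn t t (grad h y)| ≤ (2 + K) * y t ^ α := by
  have H := G.near
  have hS := G.small
  have hK := H.K_nonneg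
  have hα := H.α_pos
  have hh := G.spec
  have hflat := fun {y} hy => G.flat_lt (y := y) hy
  have hΦpos := fun {y} hy => G.lift_pos (y := y) hy
  have hΦr := fun {y} hy => G.lift_lt (y := y) hy
  have hflux := G.flux_eq
  set Φ : Euc d → Euc d := lift t h with hΦ
  set Q : Fin d → Euc d → ℝ := physFlux u t with hQ'
  have hQ : Q = fun j x => if j = t then (1 - ∑ k, pd k u x ^ 2) / 2 else -pd j u x := rfl
  rw [show fluxFn t t (grad h y) = Q t (Φ y) from hflux t hy]
  obtain ⟨h1, h2, h3⟩ := hh y hy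
  obtain ⟨σ, -, hσ2, hσ3, hσ4⟩ := H.descent hS (hflat hy) h1.le h2.le
    (by rw [h3]; exact (mem_hball.1 hy).2)
  rw [h3] at hσ4
  have he := H.eik _ (hΦpos hy) (hΦr hy) _ hσ3
  have hn : ‖Φ y - (flat t y + σ • bas t)‖ ≤ 2 * y t := by
    rw [show Φ y - (flat t y + σ • bas t) = (h y - σ) • bas t by simp only [hΦ, lift, sub_smul]; abel,
      norm_smul, PiLp.norm_single, norm_one, mul_one, Real.norm_eq_abs, abs_of_pos (by linarith)]
    linarith [(mem_hball.1 hy).2]
  have h4 : ‖Φ y - (flat t y + σ • bas t)‖ ^ α ≤ 2 * y t ^ α := by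
    refine (Real.rpow_le_rpow (norm_nonneg _) hn hα.le).trans ?_
    rw [Real.mul_rpow (by norm_num) (mem_hball.1 hy).2.le]
    refine mul_le_mul_of_nonneg_right ?_ (Real.rpow_nonneg (mem_hball.1 hy).2.le α)
    simpa using Real.rpow_le_rpow_of_exponent_le one_le_two H.α_lt.le
  have h5 := he.trans (mul_le_mul_of_nonneg_left h4 hK)
  simp only [hQ, if_true, abs_div, abs_two]
  linarith [Real.rpow_nonneg (mem_hball.1 hy).2.le α]

end IsHeight

/-- The hodograph exists near a free boundary point in adapted coordinates. -/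
theorem IsNear.exists_hodo {u : Euc d → ℝ} {t : Fin d} {r α K : ℝ} (H₀ : IsNear u t r α K) :
    ∃ (h : Euc d → ℝ) (R M : ℝ), IsHodo u h t R α M := by
  have hα := H₀.α_pos
  set s₀ : ℝ := min (min r 1) ((1 / (4 * (K + 1))) ^ (1 / α)) with hs₀
  have hK := H₀.K_nonneg
  have hs₀0 : 0 < s₀ := lt_min (lt_min H₀.r_pos one_pos) (by positivity)
  have H := H₀.mono hs₀0 ((min_le_left _ _).trans (min_le_left _ _))
  have hS : H.Small := by
    refine ⟨(min_le_left _ _).trans (min_le_right _ _), ?_⟩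
    have h1 : s₀ ^ α ≤ 1 / (4 * (K + 1)) := by
      refine (Real.rpow_le_rpow hs₀0.le (min_le_right _ _) hα.le).trans (le_of_eq ?_)
      rw [← Real.rpow_mul (by positivity), one_div_mul_cancel hα.ne', Real.rpow_one]
    refine (mul_le_mul_of_nonneg_left h1 hK).trans ?_
    rw [mul_one_div, div_le_iff₀ (by positivity)]
    linarith
  set R := s₀ / 16 with hR
  have hR0 : 0 < R := by positivity
  have hflat : ∀ {y : Euc d}, y ∈ hball t R → ‖flat t y‖ < s₀ / 4 := fun {y} hy => by
    have := norm_flat_le t y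
    have := (mem_hball.1 hy).1
    simp only [hR] at this ⊢; linarith
  have hex : ∀ y : Euc d, ∃ s, y ∈ hball t R → -(s₀ / 4) < s ∧ s < s₀ / 4 ∧
      u (flat t y + s • bas t) = y t := fun y => by
    by_cases hy : y ∈ hball t R
    · obtain ⟨s, hs⟩ := H.exists_height hS (hflat hy) (mem_hball.1 hy).2
        (((le_abs_self _).trans (abs_apply_le_norm y t)).trans (mem_hball.1 hy).1.le)
      exact ⟨s, fun _ => hs⟩
    · exact ⟨0, fun h => absurd h hy⟩
  choose h hh using hex
  have G : IsHeight u h t s₀ α K R := ⟨H, hS, rfl, hh⟩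
  set L : ℝ := 1 + 2 * d with hL
  have hd0 : (0 : ℝ) ≤ d := Nat.cast_nonneg d
  have hKL : 0 ≤ K * L := by positivity
  refine ⟨h, R, 5 * K * L + 2 * d, hR0, ?_, by positivity, G.smooth, fun i y hy => ?_,
    fun i y hy z hz => ?_, fun y hy => ?_, fun φ hφ hs => ?_, fun y hy => G.flux_div hy, ?_⟩
  · have := hS.1
    simp only [hR]; linarith
  · exact (G.near_one i hy).trans (mul_le_mul_of_nonneg_right (by linarith) (by positivity))
  · exact (G.hold_h i hy hz).trans (mul_le_mul_of_nonneg_right (by linarith) (by positivity))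
  · exact (G.lift_origin hy).2.trans (mul_le_mul_of_nonneg_right (by linarith) (norm_nonneg _))
  · exact weak_eq_of_div (by have := hS.1; simp only [hR]; linarith) hα H₀.α_lt.le
      G.contDiffOn_flux (fun y hy => G.flux_div hy) (fun j y hy => G.flux_le j hy)
      (fun y hy => G.flux_t_le hy) hφ hs
  · obtain ⟨δ, hδ, hδu⟩ := Metric.continuous_iff.1 H.cont 0 (R / 2) (by positivity)
    refine ⟨min δ (R / 2), lt_min hδ (by positivity), fun x hx hxn => ?_⟩
    have hux : u x < R / 2 := by
      have := hδu x (by rw [dist_zero_right]; exact hxn.trans_le (min_le_left _ _))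
      rw [H.zero, Real.dist_eq, sub_zero] at this
      exact (le_abs_self _).trans_lt this
    have hxR : ‖x‖ < R / 2 := hxn.trans_le (min_le_right _ _)
    have hm : flat t x + u x • bas t ∈ hball t R := by
      refine mem_hball.2 ⟨?_, ?_⟩
      · refine lt_of_le_of_lt (norm_flat_add_le t x _) ?_
        rw [abs_of_pos (show 0 < u x from hx)]
        linarith [norm_flat_le t x]
      · rw [flat_add_apply, if_pos rfl]; exact hx
    refine ⟨hm, (G.unique hm (s := x t) ?_ ?_ ?_).symm⟩
    · have := abs_le.1 (abs_apply_le_norm x t)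
      simp only [hR] at hxR; linarith
    · have := abs_le.1 (abs_apply_le_norm x t)
      simp only [hR] at hxR; linarith
    · rw [flat_idem, flat_self, flat_add_apply, if_pos rfl]

end Vale.Agent.P098.B5
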