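import Vale.Agent.P098.Regularity.B5.Linear
import Vale.Agent.P098.Regularity.B5.Hodograph

/-!
P098, block B5: the hodograph is smooth up to the flat boundary, with Hölder derivatives of all
orders.
-/

open MeasureTheory Filter Set
open scoped Topology ContDiff

namespace Vale.Agent.P098.B5

variable {d : ℕ} {t : Fin d} {α : ℝ}

/-- The coefficients of the flux difference. -/
noncomputable def coef (t j k : Fin d) (f g : Fin d → ℝ) : ℝ :=
  if j = t then
    if k = t then (1 + ∑ l, if l = t then 0 else f l ^ 2) * (f t + g t) / (2 * f t ^ 2 * g t ^ 2)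
    else -(f k + g k) / (2 * g t ^ 2)
  else if k = t then -f j / (f t * g t) else if j = k then 1 / g t else 0

/-- The index vector `bas t`. -/
def unitVec (t : Fin d) : Fin d → ℝ := fun i => if i = t then 1 else 0

lemma fluxFn_sub (t j : Fin d) {f g : Fin d → ℝ} (hf : f t ≠ 0) (hg : g t ≠ 0) :
    fluxFn t j g - fluxFn t j f = ∑ k, coef t j k f g * (g k - f k) := by
  by_cases hj : j = t
  · subst hj
    have e : ∀ k, coef j j k f g * (g k - f k)
        = (if k = j then (1 + ∑ l, if l = j then 0 else f l ^ 2) * (f j + g j)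
            / (2 * f j ^ 2 * g j ^ 2) * (g j - f j) else 0)
          - (1 / (2 * g j ^ 2)) * ((if k = j then 0 else g k ^ 2) - if k = j then 0 else f k ^ 2) := by
      intro k
      by_cases hk : k = j
      · subst hk; simp [coef]
      · simp only [coef, hk, if_false, if_true, zero_sub]; field_simp; ring
    simp only [e, Finset.sum_sub_distrib, ← Finset.mul_sum, Finset.sum_ite_eq', Finset.mem_univ,
      if_true, fluxFn]
    field_simp
    ring
  · have e : ∀ k, coef t j k f g * (g k - f k) = (if k = t then -f j / (f t * g t) * (g t - f t) else 0)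
        + if k = j then 1 / g t * (g j - f j) else 0 := by
      intro k
      by_cases hk : k = t
      · subst hk; simp [coef, hj, Ne.symm hj]
      · by_cases hk2 : k = j
        · subst hk2; simp [coef, hk]
        · simp [coef, hj, hk, hk2, Ne.symm hk2]
    simp only [e, Finset.sum_add_distrib, Finset.sum_ite_eq', Finset.mem_univ, if_true, fluxFn, hj,
      if_false]
    field_simp
    ring

lemma coef_unitVec (t j k : Fin d) :
    coef t j k (unitVec t) (unitVec t) = if j = k then 1 else 0 := by
  by_cases hj : j = t <;> by_cases hk : k = t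
  · subst hj hk
    have : ∀ l, (if l = k then (0 : ℝ) else unitVec k l ^ 2) = 0 := fun l => by
      by_cases hl : l = k <;> simp [unitVec, hl]
    rw [coef, if_pos rfl, if_pos rfl]
    simp only [this, Finset.sum_const_zero]
    simp [unitVec]
  · subst hj; simp [coef, hk, unitVec, Ne.symm hk]
  · subst hk; simp [coef, hj, unitVec]
  · simp [coef, hj, hk, unitVec]

lemma exists_coef_lip (t : Fin d) : ∃ L : ℝ, 0 ≤ L ∧ ∀ j k (p q : (Fin d → ℝ) × (Fin d → ℝ)),
    p ∈ Metric.closedBall (unitVec t, unitVec t) (1 / 2) →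
    q ∈ Metric.closedBall (unitVec t, unitVec t) (1 / 2) →
      |coef t j k p.1 p.2 - coef t j k q.1 q.2| ≤ L * dist p q := by
  set S := Metric.closedBall ((unitVec t, unitVec t) : (Fin d → ℝ) × (Fin d → ℝ)) (1 / 2) with hS
  have hpos : ∀ p ∈ S, 1 / 2 ≤ p.1 t ∧ 1 / 2 ≤ p.2 t := fun p hp => by
    rw [hS, Metric.mem_closedBall, Prod.dist_eq, max_le_iff] at hp
    have h1 := (dist_le_pi_dist p.1 (unitVec t) t).trans hp.1
    have h2 := (dist_le_pi_dist p.2 (unitVec t) t).trans hp.2
    simp only [unitVec, if_true, Real.dist_eq] at h1 h2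
    exact ⟨by linarith [(abs_le.1 h1).1], by linarith [(abs_le.1 h2).1]⟩
  have hcd : ∀ j k, ContDiffOn ℝ 1 (fun p : (Fin d → ℝ) × (Fin d → ℝ) => coef t j k p.1 p.2) S := by
    intro j k p hp
    obtain ⟨h1, h2⟩ := hpos p hp
    have ha : ∀ i, ContDiffAt ℝ 1 (fun p : (Fin d → ℝ) × (Fin d → ℝ) => p.1 i) p := fun i => by
      fun_prop
    have hb : ∀ i, ContDiffAt ℝ 1 (fun p : (Fin d → ℝ) × (Fin d → ℝ) => p.2 i) p := fun i => by
      fun_prop
    refine ContDiffAt.contDiffWithinAt ?_
    unfold coef
    have h1' : p.1 t ≠ 0 := by linarith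
    have h2' : p.2 t ≠ 0 := by linarith
    split_ifs
    · refine ContDiffAt.div ((contDiffAt_const.add (ContDiffAt.sum fun l _ => ?_)).mul
        ((ha t).add (hb t))) ((contDiffAt_const.mul ((ha t).pow 2)).mul ((hb t).pow 2))
        (by positivity)
      split_ifs
      · exact contDiffAt_const
      · exact (ha l).pow 2
    · exact ((ha k).add (hb k)).neg.div (contDiffAt_const.mul ((hb t).pow 2)) (by positivity)
    · exact (ha j).neg.div ((ha t).mul (hb t)) (mul_ne_zero h1' h2')
    · exact contDiffAt_const.div (hb t) h2'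
    · exact contDiffAt_const
  choose K hK using fun j k => (hcd j k).exists_lipschitzOnWith one_ne_zero (convex_closedBall _ _)
    (isCompact_closedBall _ _)
  have hle : ∀ j k, (K j k : ℝ) ≤ ∑ a, ∑ b, (K a b : ℝ) := fun j k =>
    (Finset.single_le_sum (f := fun b => (K j b : ℝ)) (fun b _ => (K j b).coe_nonneg)
      (Finset.mem_univ k)).trans (Finset.single_le_sum (f := fun a => ∑ b, (K a b : ℝ))
        (fun a _ => Finset.sum_nonneg fun b _ => (K a b).coe_nonneg) (Finset.mem_univ j))
  refine ⟨∑ a, ∑ b, (K a b : ℝ), Finset.sum_nonneg fun a _ => Finset.sum_nonneg fun b _ =>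
    (K a b).coe_nonneg, fun j k p q hp hq => ?_⟩
  refine le_trans ?_ (mul_le_mul_of_nonneg_right (hle j k) dist_nonneg)
  rw [← Real.dist_eq]
  exact (hK j k).dist_le_mul p hp q hq

lemma hol_coef {S : Set (Euc d)} (hS : IsOpen S) {n : ℕ} {G : Fin d → Euc d → ℝ}
    (hG : ∀ i, Hol S α n (G i)) (hp : ∀ x ∈ S, 1 / 2 ≤ G t x) (j k : Fin d) :
    Hol S α n fun x => coef t j k (fun i => G i x) fun i => G i x := by
  have hinv := (hG t).inv hS (by norm_num) hp
  have hne : ∀ x ∈ S, G t x ≠ 0 := fun x hx => by linarith [hp x hx]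
  by_cases hj : j = t
  · by_cases hk : k = t
    · have hsum : Hol S α n fun x => ∑ l, if l = t then 0 else G l x * G l x :=
        Hol.sum hS Finset.univ fun l _ => by
          by_cases hl : l = t
          · simp only [hl, if_true]; exact hol_const n 0
          · simp only [hl, if_false]; exact (hG l).mul hS (hG l)
      refine (((hol_const n 1).add hS hsum).mul hS (hinv.mul hS (hinv.mul hS hinv))).congr hS
        fun x hx => ?_
      have := hne x hx
      simp only [coef, hj, hk, if_true, sq]
      field_simp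
      ring
    · refine (((hG k).mul hS (hinv.mul hS hinv)).neg hS).congr hS fun x hx => ?_
      have := hne x hx
      simp only [coef, hj, hk, if_true, if_false]
      field_simp
      ring
  · by_cases hk : k = t
    · refine (((hG j).mul hS (hinv.mul hS hinv)).neg hS).congr hS fun x hx => ?_
      have := hne x hx
      simp only [coef, hj, hk, if_true, if_false]
      field_simp
    · by_cases hjk : j = k
      · refine hinv.congr hS fun x _ => ?_
        subst hjk
        simp [coef, hj]
      · refine (hol_const n 0).congr hS fun x _ => ?_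
        simp [coef, hj, hk, hjk]

/-- The linearised coefficients along the hodograph. -/
noncomputable def hodoCoef (t : Fin d) (h : Euc d → ℝ) (j k : Fin d) (x : Euc d) : ℝ :=
  coef t j k (grad h x) (grad h x)

variable {u h : Euc d → ℝ} {R M R₁ L ε : ℝ}

/-- The hodograph on a radius on which its gradient is close to `bas t`. -/
structure IsSmallHodo (u h : Euc d → ℝ) (t : Fin d) (R α M L ε R₁ : ℝ) : Prop where
  hodo : IsHodo u h t R α M
  R₁_pos : 0 < R₁
  R₁_le : R₁ ≤ R
  L_nonneg : 0 ≤ L
  lip : ∀ j k (p q : (Fin d → ℝ) × (Fin d → ℝ)),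
    p ∈ Metric.closedBall (unitVec t, unitVec t) (1 / 2) →
    q ∈ Metric.closedBall (unitVec t, unitVec t) (1 / 2) →
      |coef t j k p.1 p.2 - coef t j k q.1 q.2| ≤ L * dist p q
  small : M * R₁ ^ α ≤ 1 / 2
  close : L * (M * R₁ ^ α) ≤ ε

namespace IsSmallHodo

variable (H : IsSmallHodo u h t R α M L ε R₁) (hα : 0 < α)
include H

lemma sub : hball t R₁ ⊆ hball t R := hball_mono t H.R₁_le

include hα

lemma dist_unit {x : Euc d} (hx : x ∈ hball t R₁) : dist (grad h x) (unitVec t) ≤ M * R₁ ^ α := by
  refine (dist_pi_le_iff (by have := H.hodo.M_nonneg; have := H.R₁_pos; positivity)).2 fun i => ?_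
  exact (H.hodo.near i x (H.sub hx)).trans (mul_le_mul_of_nonneg_left
    (Real.rpow_le_rpow (norm_nonneg _) (mem_hball.1 hx).1.le hα.le) H.hodo.M_nonneg)

lemma mem_box {x y : Euc d} (hx : x ∈ hball t R₁) (hy : y ∈ hball t R₁) :
    (grad h x, grad h y) ∈ Metric.closedBall (unitVec t, unitVec t) (1 / 2) := by
  rw [Metric.mem_closedBall, Prod.dist_eq]
  exact max_le ((H.dist_unit hα hx).trans H.small) ((H.dist_unit hα hy).trans H.small)

lemma coef_close {x y : Euc d} (hx : x ∈ hball t R₁) (hy : y ∈ hball t R₁) (j k : Fin d) :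
    |coef t j k (grad h x) (grad h y) - if j = k then 1 else 0| ≤ ε := by
  rw [← coef_unitVec t j k]
  refine (H.lip j k (grad h x, grad h y) (unitVec t, unitVec t) (H.mem_box hα hx hy)
    (Metric.mem_closedBall_self (by norm_num))).trans ?_
  refine le_trans (mul_le_mul_of_nonneg_left ?_ H.L_nonneg) H.close
  rw [Prod.dist_eq]
  exact max_le (H.dist_unit hα hx) (H.dist_unit hα hy)

lemma pd_t_ge {x : Euc d} (hx : x ∈ hball t R₁) : 1 / 2 ≤ pd t h x := by
  have h1 := (dist_le_pi_dist (grad h x) (unitVec t) t).trans ((H.dist_unit hα hx).trans H.small)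
  simp only [unitVec, if_true, Real.dist_eq, grad] at h1
  linarith [(abs_le.1 h1).1]

lemma abs_pd_le (i : Fin d) {x : Euc d} (hx : x ∈ hball t R₁) : |pd i h x| ≤ 2 := by
  have h1 := (dist_le_pi_dist (grad h x) (unitVec t) i).trans ((H.dist_unit hα hx).trans H.small)
  simp only [unitVec, Real.dist_eq, grad] at h1
  have h2 : |if i = t then (1 : ℝ) else 0| ≤ 1 := by split_ifs <;> simp
  have := abs_sub_abs_le_abs_sub (pd i h x) (if i = t then 1 else 0)
  linarith

lemma grad_hol0 (i : Fin d) : Hol0 (hball t R₁) α (pd i h) :=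
  ⟨2 + M, by linarith [H.hodo.M_nonneg],
    fun x hx => (H.abs_pd_le hα i hx).trans (by linarith [H.hodo.M_nonneg]),
    fun x hx y hy => (H.hodo.hold i x (H.sub hx) y (H.sub hy)).trans
      (mul_le_mul_of_nonneg_right (by linarith) (Real.rpow_nonneg (norm_nonneg _) _))⟩

/-- One tangential derivative of the hodograph. -/
lemma tangent [NeZero d] (hε : GoodEps t α ε) {r : ℝ} (hr : 0 < r) (hrR : r < R₁) {i : Fin d}
    (hi : i ≠ t) :
    Hol (hball t r) α 1 (pd i h) ∧ IsLinEq t r ε (hodoCoef t h) (fun _ _ => 0) (pd i h) := by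
  have hU := isOpen_hball t R
  have hs := H.hodo.smooth
  set R' := (r + R₁) / 2 with hR'
  have hrR' : r < R' := by simp only [hR']; linarith
  have hR'R : R' < R₁ := by simp only [hR']; linarith
  set δ := R₁ - R' with hδ
  have hδ0 : 0 < δ := by simp only [hδ]; linarith
  have hsub : hball t R' ⊆ hball t R₁ := hball_mono t hR'R.le
  have hR1 : R₁ ≤ 1 := H.R₁_le.trans H.hodo.R_le
  have hsh : ∀ s ∈ Ioo 0 δ, R' + |s| ≤ R₁ := fun s hs => by
    rw [abs_of_pos hs.1]; simp only [hδ] at hs; linarith [hs.2]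
  have hM := H.hodo.M_nonneg
  have hL := H.L_nonneg
  have hp : ∀ x ∈ hball t R₁, ∀ k, DifferentiableAt ℝ (pd k h) x := fun x hx k =>
    differentiableAt_of_smooth (contDiffAt_pd_of_contDiffOn hU hs k) (H.sub hx)
  have hPc : ∀ j, ContinuousOn (fun x => fluxFn t j (grad h x)) (hball t R₁) := fun j x hx => by
    refine ContinuousAt.continuousWithinAt ?_
    have hg : ∀ k, ContinuousAt (pd k h) x := fun k => (hp x hx k).continuousAt
    have hne : pd t h x ≠ 0 := by linarith [H.pd_t_ge hα hx]
    unfold fluxFn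
    split_ifs
    · exact (continuousAt_const.sub ((continuousAt_const.add (tendsto_finsetSum _ fun k _ => by
        split_ifs
        · exact tendsto_const_nhds
        · exact (hg k).pow 2)).div ((hg t).pow 2) (pow_ne_zero 2 hne))).div_const 2
    · exact (hg j).div (hg t) hne
  have hPb : ∀ j, ∀ x ∈ hball t R₁,
      |fluxFn t j (grad h x)| ≤ (1 + 4 * (1 + (d : ℝ) * 4)) + 4 := by
    intro j x hx
    have h1 : 1 / 2 ≤ pd t h x := H.pd_t_ge hα hx
    have h2 : ∀ k, |pd k h x| ≤ 2 := fun k => H.abs_pd_le hα k hx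
    unfold fluxFn
    split_ifs
    · have hsum : |∑ k, if k = t then 0 else grad h x k ^ 2| ≤ (d : ℝ) * 4 :=
        abs_sum_le_card fun k => by
          split_ifs
          · simp
          · rw [abs_pow]
            show |pd k h x| ^ 2 ≤ 4
            nlinarith [h2 k, abs_nonneg (pd k h x)]
      have h3 : |(1 + ∑ k, if k = t then 0 else grad h x k ^ 2) / grad h x t ^ 2|
          ≤ 4 * (1 + (d : ℝ) * 4) := by
        rw [abs_div, abs_pow, abs_of_pos (show 0 < grad h x t by show 0 < pd t h x; linarith),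
          div_le_iff₀ (by show 0 < pd t h x ^ 2; positivity)]
        have h4 : (1 / 4 : ℝ) ≤ pd t h x ^ 2 := by nlinarith
        calc |1 + ∑ k, if k = t then 0 else grad h x k ^ 2| ≤ 1 + (d : ℝ) * 4 :=
              (abs_add_le _ _).trans (by rw [abs_one]; linarith)
          _ = 4 * (1 + (d : ℝ) * 4) * (1 / 4) := by ring
          _ ≤ _ := mul_le_mul_of_nonneg_left h4 (by positivity)
      rw [abs_div, abs_two]
      have := abs_sub (1 : ℝ) ((1 + ∑ k, if k = t then 0 else grad h x k ^ 2) / grad h x t ^ 2)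
      rw [abs_one] at this
      linarith
    · rw [abs_div, div_le_iff₀ (by show 0 < |pd t h x|; rw [abs_of_pos (by linarith)]; linarith)]
      have : |grad h x t| = pd t h x := abs_of_pos (show 0 < pd t h x by linarith)
      rw [this]
      have hd : (0 : ℝ) ≤ d := Nat.cast_nonneg d
      calc |grad h x j| ≤ 2 := h2 j
        _ ≤ 4 * pd t h x := by linarith
        _ ≤ _ := mul_le_mul_of_nonneg_right (by linarith) (by linarith)
  have hweak : IsWeakDiv t R₁ fun j x => fluxFn t j (grad h x) := fun φ hφ hφs =>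
    H.hodo.eqn φ hφ (hφs.trans (Metric.ball_subset_ball H.R₁_le))
  set A' : ℝ → Fin d → Fin d → Euc d → ℝ :=
    fun s j k x => coef t j k (grad h x) (grad h (x + s • bas i)) with hA'
  set q : (Euc d → ℝ) → ℝ → Euc d → ℝ := fun f s x => (f (x + s • bas i) - f x) / s with hq
  have hsol : ∀ s ∈ Ioo 0 δ,
      IsLinSol t R' α (A' s) (fun _ _ => 0) (q h s) (fun k => q (pd k h) s) := by
    intro s hs'
    refine ⟨fun x hx => diff_dq hi (hs.mono H.sub) (hsh s hs') hx, ⟨2 * M / s,
      div_nonneg (by linarith) hs'.1.le, fun k x hx y hy => ?_⟩, fun φ hφ hφs => ?_⟩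
    · simp only [hq]
      rw [← sub_div, abs_div, abs_of_pos hs'.1, div_mul_eq_mul_div]
      refine div_le_div_of_nonneg_right ?_ hs'.1.le
      have h1 := H.hodo.hold k _ (H.sub (shift_mem hi hx (hsh s hs'))) _
        (H.sub (shift_mem hi hy (hsh s hs')))
      rw [show x + s • bas i - (y + s • bas i) = x - y by abel] at h1
      have h2 := H.hodo.hold k x (H.sub (hsub hx)) y (H.sub (hsub hy))
      have a1 := abs_le.1 h1
      have a2 := abs_le.1 h2
      exact abs_le.2 ⟨by linarith, by linarith⟩
    · refine Eq.trans ?_ (hweak.dq hi hPc hPb (hsh s hs') φ hφ hφs)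
      refine setIntegral_congr_fun (measurableSet_upper t) fun x hx => ?_
      refine Finset.sum_congr rfl fun j _ => ?_
      by_cases hxr : x ∈ hball t R'
      · congr 1
        have hne : ∀ y ∈ hball t R₁, grad h y t ≠ 0 := fun y hy => by
          show pd t h y ≠ 0; linarith [H.pd_t_ge hα hy]
        show _ = (fluxFn t j (grad h (x + s • bas i)) - fluxFn t j (grad h x)) / s
        rw [fluxFn_sub t j (hne x (hsub hxr)) (hne _ (shift_mem hi hxr (hsh s hs'))), Finset.sum_div,
          sub_zero]
        exact Finset.sum_congr rfl fun k _ => by simp only [hA', hq, grad]; ring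
      · have hn : x ∉ tsupport φ := fun h' => hxr ⟨hφs h', hx⟩
        simp [pd_eq_zero_of_eventually (notMem_tsupport_iff_eventuallyEq.1 hn) j]
  have hlim : ∀ k, ∀ x ∈ hball t R', Tendsto (fun s => q (pd k h) s x) (𝓝[>] 0) (𝓝 (pd i (pd k h) x)) :=
    fun k x hx => tendsto_dq (hp x (hsub hx) k)
  have hsR : hball t r ⊆ hball t R := hball_mono t (hrR.le.trans H.R₁_le)
  obtain ⟨hb, heq⟩ := limit_step (z := fun s => q h s) hα hε hr hrR' (hR'R.le.trans hR1) hδ0
    (show (0 : ℝ) ≤ L * M + 2 by positivity) hsol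
    (fun s hs' j k x hx => H.coef_close hα (hsub hx) (shift_mem hi hx (hsh s hs')) j k)
    (fun s hs' j k x hx y hy => by
      have hxs := shift_mem hi hx (hsh s hs')
      have hys := shift_mem hi hy (hsh s hs')
      refine (H.lip j k (grad h x, grad h (x + s • bas i)) (grad h y, grad h (y + s • bas i))
        (H.mem_box hα (hsub hx) hxs) (H.mem_box hα (hsub hy) hys)).trans ?_
      have hd0 : 0 ≤ ‖x - y‖ ^ α := Real.rpow_nonneg (norm_nonneg _) _
      have hdist : dist (grad h x, grad h (x + s • bas i)) (grad h y, grad h (y + s • bas i))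
          ≤ M * ‖x - y‖ ^ α := by
        rw [Prod.dist_eq]
        refine max_le ((dist_pi_le_iff (by positivity)).2 fun l => ?_)
          ((dist_pi_le_iff (by positivity)).2 fun l => ?_)
        · exact H.hodo.hold l x (H.sub (hsub hx)) y (H.sub (hsub hy))
        · have := H.hodo.hold l _ (H.sub hxs) _ (H.sub hys)
          rwa [show x + s • bas i - (y + s • bas i) = x - y by abel] at this
      calc L * _ ≤ L * (M * ‖x - y‖ ^ α) := mul_le_mul_of_nonneg_left hdist hL
        _ = L * M * ‖x - y‖ ^ α := by ring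
        _ ≤ _ := mul_le_mul_of_nonneg_right (by linarith) hd0)
    (fun s _ j x _ => by simp only [abs_zero]; positivity)
    (fun s _ j x _ y _ => by simp only [sub_self, abs_zero]; positivity)
    (fun s hs' x hx => by
      have hmem : ∀ τ ∈ Icc 0 s, x + τ • bas i ∈ hball t R₁ := fun τ hτ => shift_mem hi hx (by
        rw [abs_of_nonneg hτ.1]; simp only [hδ] at hs'; linarith [hs'.2, hτ.2])
      obtain ⟨τ, hτ, e⟩ := exists_hasDerivAt_eq_slope (fun τ : ℝ => h (x + τ • bas i))
        (fun τ => pd i h (x + τ • bas i)) hs'.1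
        (fun τ hτ => ((hasDerivAt_line_pd hs H.sub (hmem τ hτ))).continuousAt.continuousWithinAt)
        (fun τ hτ => hasDerivAt_line_pd hs H.sub (hmem τ (Ioo_subset_Icc_self hτ)))
      simp only [zero_smul, add_zero, sub_zero] at e
      simp only [hq]
      rw [← e]
      exact (H.abs_pd_le hα i (hmem τ (Ioo_subset_Icc_self hτ))).trans
        (by linarith [mul_nonneg hL hM]))
    (A₀ := hodoCoef t h) (F₀ := fun _ _ => 0) (dz₀ := fun k => pd i (pd k h))
    (fun j k x hx => by
      have hx1 := hsub hx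
      have hc : Tendsto (fun s : ℝ => grad h (x + s • bas i)) (𝓝[>] 0) (𝓝 (grad h x)) := by
        refine tendsto_pi_nhds.2 fun l => ?_
        refine ((hp x hx1 l).continuousAt.tendsto).comp (tendsto_nhdsWithin_of_tendsto_nhds ?_)
        have := (show Continuous fun s : ℝ => x + s • bas i by fun_prop).tendsto 0
        simpa using this
      refine tendsto_iff_norm_sub_tendsto_zero.2 (squeeze_zero' (Eventually.of_forall fun _ =>
        norm_nonneg _) ?_ (show Tendsto (fun s : ℝ => L * dist (grad h x, grad h (x + s • bas i))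
          (grad h x, grad h x)) (𝓝[>] 0) (𝓝 0) from ?_))
      · filter_upwards [Ioo_mem_nhdsGT hδ0] with s hs'
        exact H.lip j k (grad h x, grad h (x + s • bas i)) (grad h x, grad h x)
          (H.mem_box hα hx1 (shift_mem hi hx (hsh s hs'))) (H.mem_box hα hx1 hx1)
      · have := ((((tendsto_const_nhds (x := grad h x)).prodMk_nhds hc).dist
          (tendsto_const_nhds (x := (grad h x, grad h x))))).const_mul L
        simpa using this)
    (fun j x _ => tendsto_const_nhds) hlim
  have hcomm : ∀ k, ∀ x ∈ hball t R, pd i (pd k h) x = pd k (pd i h) x := fun k x hx =>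
    pd_pd_comm ((hs.contDiffAt (hU.mem_nhds hx)).of_le (WithTop.coe_le_coe.2 le_top)) i k
  have hsm : ∀ j k, ContDiffOn ℝ ∞ (hodoCoef t h j k) (hball t r) := fun j k x hx => by
    have hx' := hsR hx
    have hg : ∀ l, ContDiffAt ℝ ∞ (pd l h) x := fun l =>
      (contDiffAt_pd_of_contDiffOn hU hs l).contDiffAt (hU.mem_nhds hx')
    have hne : pd t h x ≠ 0 := by linarith [H.pd_t_ge hα (hball_mono t hrR.le hx)]
    refine ContDiffAt.contDiffWithinAt ?_
    unfold hodoCoef coef grad
    split_ifs
    · refine ContDiffAt.div ((contDiffAt_const.add (ContDiffAt.sum fun l _ => ?_)).mul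
        ((hg t).add (hg t))) ((contDiffAt_const.mul ((hg t).pow 2)).mul ((hg t).pow 2)) (by positivity)
      split_ifs
      · exact contDiffAt_const
      · exact (hg l).pow 2
    · exact ((hg k).add (hg k)).neg.div (contDiffAt_const.mul ((hg t).pow 2)) (by positivity)
    · exact (hg j).neg.div ((hg t).mul (hg t)) (mul_ne_zero hne hne)
    · exact contDiffAt_const.div (hg t) hne
    · exact contDiffAt_const
  refine ⟨⟨(H.grad_hol0 hα i).mono (hball_mono t hrR.le), fun x hx => (differentiableAt_of_smooth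
      (contDiffAt_pd_of_contDiffOn hU hs i) (hsR hx)).differentiableWithinAt,
      fun k => (hb k).congr fun x hx => (hcomm k x (hsR hx)).symm⟩,
    hsm, fun j => contDiffOn_const, (contDiffAt_pd_of_contDiffOn hU hs i).mono hsR,
    fun j k x hx => H.coef_close hα (hball_mono t hrR.le hx) (hball_mono t hrR.le hx) j k,
    fun φ hφ hφs => ?_⟩
  refine Eq.trans ?_ (heq φ hφ hφs)
  refine setIntegral_congr_fun (measurableSet_upper t) fun x hx => ?_
  refine Finset.sum_congr rfl fun j _ => ?_
  by_cases hxr : x ∈ hball t r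
  · simp only [linFlux, fun k => hcomm k x (hsR hxr)]
  · have hn : x ∉ tsupport φ := fun h' => hxr ⟨hφs h', hx⟩
    simp [pd_eq_zero_of_eventually (notMem_tsupport_iff_eventuallyEq.1 hn) j]
where
  hasDerivAt_line_pd {h : Euc d → ℝ} {R R₁ : ℝ} {x : Euc d} {τ : ℝ} {i : Fin d}
      (hs : ContDiffOn ℝ ∞ h (hball t R)) (hsub : hball t R₁ ⊆ hball t R)
      (hm : x + τ • bas i ∈ hball t R₁) :
      HasDerivAt (fun τ : ℝ => h (x + τ • bas i)) (pd i h (x + τ • bas i)) τ := by
    have := (differentiableAt_of_smooth hs (hsub hm)).hasFDerivAt.comp_hasDerivAt τ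
      (((hasDerivAt_id τ).smul_const (bas i)).const_add x)
    simpa [Function.comp_def, pd] using this

/-- The nonlinear equation, differentiated. -/
lemma second_order_eq {x : Euc d} (hx : x ∈ hball t R₁) :
    ∑ j, ∑ k, hodoCoef t h j k x * pd j (pd k h) x = 0 := by
  have hU := isOpen_hball t R₁
  have hs := H.hodo.smooth
  have hpd : ∀ k, ∀ y ∈ hball t R₁, DifferentiableAt ℝ (pd k h) y := fun k y hy =>
    differentiableAt_of_smooth (contDiffAt_pd_of_contDiffOn (isOpen_hball t R) hs k) (H.sub hy)
  have hne : ∀ y ∈ hball t R₁, grad h y t ≠ 0 := fun y hy => by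
    show pd t h y ≠ 0; linarith [H.pd_t_ge hα hy]
  have hdflux : ∀ j, DifferentiableAt ℝ (fun y => fluxFn t j (grad h y)) x := fun j => by
    have hg : ∀ k, DifferentiableAt ℝ (fun y => grad h y k) x := fun k => hpd k x hx
    unfold fluxFn
    split_ifs
    · refine (((differentiableAt_const 1).add (DifferentiableAt.fun_sum fun k _ => ?_)).mul
        (((hg t).pow 2).inv (pow_ne_zero 2 (hne x hx)))).const_sub 1 |>.mul_const (2 : ℝ)⁻¹
      split_ifs
      · exact differentiableAt_const 0
      · exact (hg k).pow 2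
    · exact (hg j).mul ((hg t).inv (hne x hx))
  rw [← H.hodo.div x (H.sub hx)]
  refine Finset.sum_congr rfl fun j _ => ?_
  have h1 : Tendsto (fun s : ℝ => (fluxFn t j (grad h (x + s • bas j)) - fluxFn t j (grad h x)) / s)
      (𝓝[>] 0) (𝓝 (pd j (fun y => fluxFn t j (grad h y)) x)) :=
    tendsto_dq (f := fun y => fluxFn t j (grad h y)) (v := bas j) (hdflux j)
  have hcont : Continuous fun s : ℝ => x + s • bas j := by fun_prop
  have hev : ∀ᶠ s in 𝓝[>] (0 : ℝ), x + s • bas j ∈ hball t R₁ :=
    tendsto_nhdsWithin_of_tendsto_nhds (by simpa using hcont.tendsto 0)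
      |>.eventually (hU.mem_nhds hx)
  have hc : Tendsto (fun s : ℝ => grad h (x + s • bas j)) (𝓝[>] 0) (𝓝 (grad h x)) := by
    refine tendsto_pi_nhds.2 fun l => ((hpd l x hx).continuousAt.tendsto).comp
      (tendsto_nhdsWithin_of_tendsto_nhds ?_)
    simpa using hcont.tendsto 0
  have h2 : Tendsto (fun s : ℝ => ∑ k, coef t j k (grad h x) (grad h (x + s • bas j))
      * ((pd k h (x + s • bas j) - pd k h x) / s))
      (𝓝[>] 0) (𝓝 (∑ k, hodoCoef t h j k x * pd j (pd k h) x)) := by
    refine tendsto_finsetSum _ fun k _ => Tendsto.mul ?_ (tendsto_dq (hpd k x hx))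
    refine tendsto_iff_norm_sub_tendsto_zero.2 (squeeze_zero' (Eventually.of_forall fun _ =>
      norm_nonneg _) ?_ (show Tendsto (fun s : ℝ => L * dist (grad h x, grad h (x + s • bas j))
        (grad h x, grad h x)) (𝓝[>] 0) (𝓝 0) from ?_))
    · filter_upwards [hev] with s hs'
      exact H.lip j k (grad h x, grad h (x + s • bas j)) (grad h x, grad h x)
        (H.mem_box hα hx hs') (H.mem_box hα hx hx)
    · have := ((((tendsto_const_nhds (x := grad h x)).prodMk_nhds hc).dist
        (tendsto_const_nhds (x := (grad h x, grad h x))))).const_mul L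
      simpa using this
  refine tendsto_nhds_unique (h2.congr' ?_) h1
  filter_upwards [hev] with s hs'
  rw [fluxFn_sub t j (hne x hx) (hne _ hs'), Finset.sum_div]
  exact Finset.sum_congr rfl fun k _ => by simp only [grad]; ring

/-- All derivatives of the gradient are Hölder on smaller half balls. -/
lemma grad_hol [NeZero d] (hε : GoodEps t α ε) :
    ∀ (k : ℕ) (r : ℝ), 0 < r → r < R₁ → ∀ j, Hol (hball t r) α k (pd j h) := by
  intro k
  induction k with
  | zero => exact fun r _ hrR j => (H.grad_hol0 hα j).mono (hball_mono t hrR.le)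
  | succ k ih =>
    intro r hr hrR j
    have hU := isOpen_hball t R
    have hs := H.hodo.smooth
    set r₁ := r + (R₁ - r) / 2 with hr₁
    set r₂ := r + (R₁ - r) / 4 with hr₂
    have h12 : r₂ < r₁ := by simp only [hr₁, hr₂]; linarith
    have h2 : r < r₂ := by simp only [hr₂]; linarith
    have h1R : r₁ < R₁ := by simp only [hr₁]; linarith
    have hR1 : R₁ ≤ 1 := H.R₁_le.trans H.hodo.R_le
    have hcoef : ∀ a b, Hol (hball t r₁) α k (hodoCoef t h a b) := fun a b =>
      hol_coef (isOpen_hball t r₁) (G := fun i => pd i h) (fun i => ih r₁ (by linarith) h1R i)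
        (fun x hx => H.pd_t_ge hα (hball_mono t h1R.le hx)) a b
    have hz : ∀ i, i ≠ t → Hol (hball t r₂) α (k + 1) (pd i h) := fun i hi => by
      obtain ⟨hz1, hzE⟩ := H.tangent hα hε (r := r₁) (by linarith) h1R hi
      exact linear_hol hα hε k (by linarith) h12 (by linarith) hzE hcoef
        (fun _ => hol_const k 0) hz1
    have hS := isOpen_hball t r
    have hsr : hball t r ⊆ hball t r₂ := hball_mono t h2.le
    have hs1 : hball t r ⊆ hball t R₁ := hball_mono t hrR.le
    have hsec : ∀ a b, Hol (hball t r) α k (pd a (pd b h)) := by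
      refine hol_normal (t := t) (A := hodoCoef t h) (rest := fun _ => 0) hS
        (hs.mono (hs1.trans H.sub)) (fun a b => (hcoef a b).mono (hball_mono t (by linarith)))
        (fun x hx => ?_) (fun i hi l => ((hz i hi).mono hsr).2.2 l) (hol_const k 0) fun x hx => ?_
      · have := (abs_le.1 (H.coef_close hα (hs1 hx) (hs1 hx) t t)).1
        simp only [if_true] at this
        show 1 / 2 ≤ coef t t t (grad h x) (grad h x)
        linarith [hε.2.1]
      · rw [add_zero]; exact H.second_order_eq hα (hs1 hx)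
    exact ⟨(ih r hr hrR j).hol0, fun x hx => (differentiableAt_of_smooth
      (contDiffAt_pd_of_contDiffOn hU hs j) (H.sub (hs1 hx))).differentiableWithinAt,
      fun i => hsec i j⟩

end IsSmallHodo

/-- The hodograph has Hölder derivatives of every order near the origin. -/
theorem IsHodo.exists_all_hol [NeZero d] (H : IsHodo u h t R α M) (hα : 0 < α) (hα1 : α < 1) :
    ∃ R'' : ℝ, 0 < R'' ∧ R'' ≤ R ∧ ∀ k, Hol (hball t R'') α k h := by
  obtain ⟨ε, hε⟩ := exists_goodEps t hα hα1
  obtain ⟨L, hL, hlip⟩ := exists_coef_lip t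
  have hM := H.M_nonneg
  set m := min (1 / 2 : ℝ) (ε / (L + 1)) / (M + 1) with hm
  have hm0 : 0 < m := div_pos (lt_min (by norm_num) (div_pos hε.1 (by linarith))) (by linarith)
  set R₁ := min R (m ^ (1 / α)) with hR₁
  have hR₁0 : 0 < R₁ := lt_min H.R_pos (by positivity)
  have hpow : M * R₁ ^ α ≤ min (1 / 2) (ε / (L + 1)) := by
    have h1 : R₁ ^ α ≤ m := by
      refine (Real.rpow_le_rpow hR₁0.le (min_le_right _ _) hα.le).trans (le_of_eq ?_)
      rw [← Real.rpow_mul hm0.le, one_div_mul_cancel hα.ne', Real.rpow_one]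
    refine (mul_le_mul_of_nonneg_left h1 hM).trans ?_
    rw [hm, mul_div_assoc', div_le_iff₀ (by linarith)]
    nlinarith [show 0 ≤ min (1 / 2 : ℝ) (ε / (L + 1)) from
      le_min (by norm_num) (div_nonneg hε.1.le (by linarith))]
  have G : IsSmallHodo u h t R α M L ε R₁ := by
    refine ⟨H, hR₁0, min_le_left _ _, hL, hlip, hpow.trans (min_le_left _ _), ?_⟩
    refine (mul_le_mul_of_nonneg_left (hpow.trans (min_le_right _ _)) hL).trans ?_
    rw [mul_div_assoc', div_le_iff₀ (by linarith)]
    nlinarith [hε.1]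
  refine ⟨R₁ / 2, by linarith, by linarith [G.R₁_le], fun k => ?_⟩
  have hsub : hball t (R₁ / 2) ⊆ hball t R₁ := hball_mono t (by linarith)
  have hd : ∀ x ∈ hball t R₁, DifferentiableAt ℝ h x := fun x hx =>
    differentiableAt_of_smooth H.smooth (G.sub hx)
  have h0 : Hol0 (hball t (R₁ / 2)) α h := by
    refine ⟨M + 4 * d, by positivity, fun x hx => ?_, fun x hx y hy => ?_⟩
    · refine (H.bdd x (G.sub (hsub hx))).trans ?_
      have := (mem_hball.1 hx).1
      have hR1 : R₁ ≤ 1 := G.R₁_le.trans H.R_le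
      calc M * ‖x‖ ≤ M * 1 := mul_le_mul_of_nonneg_left (by linarith) hM
        _ ≤ _ := by linarith [show (0 : ℝ) ≤ 4 * d by positivity]
    · have h1 : |h x - h y| ≤ d * 2 * ‖x - y‖ := by
        refine (convex_hball t (R₁ / 2)).norm_image_sub_le_of_norm_fderiv_le (f := h)
          (fun z hz => hd z (hsub hz)) (fun z hz => ?_) hy hx
        refine ContinuousLinearMap.opNorm_le_bound _ (by positivity) fun v => ?_
        rw [clm_apply_eq, Real.norm_eq_abs]
        refine (abs_sum_le_card (B := ‖v‖ * 2) fun j => ?_).trans (le_of_eq (by ring))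
        rw [abs_mul]
        exact mul_le_mul (abs_apply_le_norm v j) (G.abs_pd_le hα j (hsub hz)) (abs_nonneg _)
          (norm_nonneg _)
      have h2 : ‖x - y‖ ≤ 2 := by
        have hR1 : R₁ ≤ 1 := G.R₁_le.trans H.R_le
        linarith [norm_sub_le x y, (mem_hball.1 hx).1, (mem_hball.1 hy).1]
      calc |h x - h y| ≤ d * 2 * ‖x - y‖ := h1
        _ ≤ d * 2 * (2 * ‖x - y‖ ^ α) := mul_le_mul_of_nonneg_left
            (rpow_ge_of_le_two (norm_nonneg _) h2 hα hα1.le) (by positivity)
        _ ≤ _ := by nlinarith [Real.rpow_nonneg (norm_nonneg (x - y)) α]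
  cases k with
  | zero => exact h0
  | succ k => exact ⟨h0, fun x hx => (hd x (hsub hx)).differentiableWithinAt,
      fun i => G.grad_hol hα hε k _ (by linarith) (by linarith) i⟩

end Vale.Agent.P098.B5
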