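import Mathlib

/-!
P098, block B5: Seeley's reflection coefficients. Block `m` lives on `m + 1` nodes, corrects the
moment of order `m` and leaves the lower ones alone.
-/

open Finset

namespace Vale.Agent.P098.B5

/-- Coefficients on `-1, …, -(m+1)` with moments `0` below `m` and `1` at `m`. -/
lemma exists_moment_coeff (m : ℕ) :
    ∃ a : Fin (m + 1) → ℝ, ∀ j : Fin (m + 1),
      ∑ i, a i * (-((i : ℕ) + 1 : ℝ)) ^ (j : ℕ) = if (j : ℕ) = m then 1 else 0 := by
  set V : Matrix (Fin (m + 1)) (Fin (m + 1)) ℝ :=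
    Matrix.vandermonde fun i => -((i : ℕ) + 1 : ℝ) with hV
  have hinj : Function.Injective fun i : Fin (m + 1) => -((i : ℕ) + 1 : ℝ) := fun a b h => by
    simpa [Fin.ext_iff] using h
  have hdet : V.det ≠ 0 := Matrix.det_vandermonde_ne_zero_iff.2 hinj
  refine ⟨Matrix.vecMul (fun j : Fin (m + 1) => if (j : ℕ) = m then (1 : ℝ) else 0) V⁻¹, fun j => ?_⟩
  have h := congrFun (Matrix.vecMul_vecMul (fun j : Fin (m + 1) => if (j : ℕ) = m then (1 : ℝ) else 0)
    V⁻¹ V) j
  rw [Matrix.nonsing_inv_mul _ (isUnit_iff_ne_zero.2 hdet), Matrix.vecMul_one] at h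
  rw [← h]
  rfl

/-- A block with prescribed moment `Δ` of order `m` and small lower absolute moments. -/
lemma exists_block (m : ℕ) (Δ : ℝ) :
    ∃ c b : Fin (m + 1) → ℝ, (∀ i, 0 < b i) ∧
      (∀ j, j < m → ∑ i, c i * (-b i) ^ j = 0) ∧ ∑ i, c i * (-b i) ^ m = Δ ∧
      ∀ j, j < m → ∑ i, |c i| * b i ^ j ≤ (1 / 2 : ℝ) ^ m := by
  obtain ⟨a, ha⟩ := exists_moment_coeff m
  set S : ℝ := ∑ i : Fin (m + 1), |a i| * ((m : ℝ) + 1) ^ m with hS
  set R : ℝ := max 1 (2 ^ m * (|Δ| * S)) with hR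
  have hR1 : 1 ≤ R := le_max_left _ _
  have hR0 : R ≠ 0 := (zero_lt_one.trans_le hR1).ne'
  have hS0 : 0 ≤ S := Finset.sum_nonneg fun i _ => by positivity
  have key : ∀ j, ∑ i : Fin (m + 1), Δ / R ^ m * a i * (-(R * ((i : ℕ) + 1 : ℝ))) ^ j
      = Δ / R ^ m * R ^ j * ∑ i : Fin (m + 1), a i * (-((i : ℕ) + 1 : ℝ)) ^ j := fun j => by
    rw [Finset.mul_sum]
    refine Finset.sum_congr rfl fun i _ => ?_
    rw [← mul_neg, mul_pow]
    ring
  refine ⟨fun i => Δ / R ^ m * a i, fun i => R * ((i : ℕ) + 1 : ℝ),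
    fun i => by positivity, fun j hj => ?_, ?_, fun j hj => ?_⟩
  · rw [key, ha ⟨j, hj.trans (Nat.lt_succ_self m)⟩, if_neg (by simpa using hj.ne), mul_zero]
  · rw [key, ha ⟨m, Nat.lt_succ_self m⟩, if_pos rfl, mul_one, div_mul_cancel₀ _ (pow_ne_zero _ hR0)]
  · have hj1 : R ^ (j + 1) ≤ R ^ m := pow_le_pow_right₀ hR1 hj
    calc ∑ i : Fin (m + 1), |Δ / R ^ m * a i| * (R * ((i : ℕ) + 1 : ℝ)) ^ j
        ≤ ∑ i : Fin (m + 1), |Δ| / R * (|a i| * ((m : ℝ) + 1) ^ m) := by
          refine Finset.sum_le_sum fun i _ => ?_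
          have h1 : (((i : ℕ) + 1 : ℝ)) ^ j ≤ ((m : ℝ) + 1) ^ m := by
            refine (pow_le_pow_left₀ (by positivity) ?_ j).trans
              (pow_le_pow_right₀ (by linarith [(Nat.cast_nonneg m : (0 : ℝ) ≤ m)]) hj.le)
            have : (i : ℕ) ≤ m := Nat.lt_succ_iff.1 i.2
            have : ((i : ℕ) : ℝ) ≤ m := by exact_mod_cast this
            linarith
          have h2 : R ^ j / R ^ m ≤ 1 / R := by
            rw [div_le_div_iff₀ (by positivity) (by positivity), one_mul, ← pow_succ]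
            exact hj1
          rw [abs_mul, abs_div, abs_of_pos (by positivity : (0 : ℝ) < R ^ m), mul_pow]
          calc |Δ| / R ^ m * |a i| * (R ^ j * ((i : ℕ) + 1 : ℝ) ^ j)
              = |Δ| * |a i| * (R ^ j / R ^ m) * ((i : ℕ) + 1 : ℝ) ^ j := by ring
            _ ≤ |Δ| * |a i| * (1 / R) * ((m : ℝ) + 1) ^ m := by gcongr
            _ = |Δ| / R * (|a i| * ((m : ℝ) + 1) ^ m) := by ring
      _ = |Δ| * S / R := by rw [← Finset.mul_sum]; ring
      _ ≤ (1 / 2 : ℝ) ^ m := by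
          rw [div_le_iff₀ (by positivity), div_pow, one_pow, div_mul_eq_mul_div, one_mul,
            le_div_iff₀ (by positivity)]
          linarith [le_max_right 1 (2 ^ m * (|Δ| * S))]

/-- The node set. -/
abbrev SeeleyIdx := Σ m : ℕ, Fin (m + 1)

/-- The chosen block. -/
noncomputable def blockC (m : ℕ) (Δ : ℝ) : Fin (m + 1) → ℝ := (exists_block m Δ).choose

/-- The chosen nodes. -/
noncomputable def blockB (m : ℕ) (Δ : ℝ) : Fin (m + 1) → ℝ := (exists_block m Δ).choose_spec.choose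

lemma block_spec (m : ℕ) (Δ : ℝ) : (∀ i, 0 < blockB m Δ i) ∧
    (∀ j, j < m → ∑ i, blockC m Δ i * (-blockB m Δ i) ^ j = 0) ∧
    ∑ i, blockC m Δ i * (-blockB m Δ i) ^ m = Δ ∧
    ∀ j, j < m → ∑ i, |blockC m Δ i| * blockB m Δ i ^ j ≤ (1 / 2 : ℝ) ^ m :=
  (exists_block m Δ).choose_spec.choose_spec

/-- The moments reached by the blocks below `n`. -/
noncomputable def reached : ℕ → ℕ → ℝ
  | 0, _ => 0
  | n + 1, j => reached n j
      + ∑ i, blockC n (1 - reached n n) i * (-blockB n (1 - reached n n) i) ^ j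

/-- The coefficients. -/
noncomputable def seeleyC (k : SeeleyIdx) : ℝ := blockC k.1 (1 - reached k.1 k.1) k.2

/-- The nodes. -/
noncomputable def seeleyB (k : SeeleyIdx) : ℝ := blockB k.1 (1 - reached k.1 k.1) k.2

lemma seeleyB_pos (k : SeeleyIdx) : 0 < seeleyB k := (block_spec _ _).1 _

lemma summable_seeley (j : ℕ) : Summable fun k => |seeleyC k| * seeleyB k ^ j := by
  refine (summable_sigma_of_nonneg fun k => mul_nonneg (abs_nonneg _)
    (pow_nonneg (seeleyB_pos k).le j)).2 ⟨fun m => Summable.of_finite, ?_⟩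
  refine Summable.of_norm_bounded_eventually_nat (g := fun m => (1 / 2 : ℝ) ^ m)
    (summable_geometric_of_lt_one (by norm_num) (by norm_num)) ?_
  filter_upwards [Filter.eventually_gt_atTop j] with m hm
  rw [tsum_fintype, Real.norm_eq_abs, abs_of_nonneg (Finset.sum_nonneg fun i _ =>
    mul_nonneg (abs_nonneg _) (pow_nonneg (seeleyB_pos _).le j))]
  exact (block_spec m (1 - reached m m)).2.2.2 j hm

lemma summable_seeley' (j : ℕ) : Summable fun k => seeleyC k * (-seeleyB k) ^ j := by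
  refine Summable.of_norm ((summable_seeley j).congr fun k => ?_)
  rw [norm_mul, norm_pow, norm_neg, Real.norm_eq_abs, Real.norm_eq_abs,
    abs_of_pos (seeleyB_pos k)]

lemma tsum_seeley (j : ℕ) : ∑' k, seeleyC k * (-seeleyB k) ^ j = 1 := by
  have hr : ∀ n i, reached n i = ∑ m ∈ range n, ∑ l, blockC m (1 - reached m m) l
      * (-blockB m (1 - reached m m) l) ^ i := by
    intro n i
    induction n with
    | zero => simp [reached]
    | succ n ih => rw [reached, ih, sum_range_succ]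
  rw [(summable_seeley' j).tsum_sigma' fun m => Summable.of_finite, tsum_eq_sum (s := range (j + 1))
    fun m hm => ?_]
  · simp only [tsum_fintype]
    show ∑ m ∈ range (j + 1), ∑ l, blockC m (1 - reached m m) l
      * (-blockB m (1 - reached m m) l) ^ j = 1
    rw [← hr, reached, (block_spec j (1 - reached j j)).2.2.1, add_sub_cancel]
  · rw [tsum_fintype]
    exact (block_spec m (1 - reached m m)).2.1 j (by simpa using hm)

end Vale.Agent.P098.B5
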