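import Vale.Agent.P098.Regularity.B5.HolDef
import Vale.Agent.P098.Regularity.B5.Seeley

/-!
P098, block B5: smooth extension across a hyperplane by Seeley reflection, and the local inverse
of the coordinate change `hodo`.
-/

open Filter Set
open scoped Topology ContDiff

namespace Vale.Agent.P098.B5

variable {d : ℕ}

/-- Derivatives up to order `k` exist on the upper half space and are restrictions of bounded
continuous functions. -/
def Good (t : Fin d) : ℕ → (Euc d → ℝ) → Prop
  | 0, f => ∃ F : Euc d → ℝ, Continuous F ∧ (∃ M, ∀ x, |F x| ≤ M) ∧ EqOn f F (upper t)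
  | k + 1, f => (∃ F : Euc d → ℝ, Continuous F ∧ (∃ M, ∀ x, |F x| ≤ M) ∧ EqOn f F (upper t)) ∧
      DifferentiableOn ℝ f (upper t) ∧ ∀ i, Good t k (pd i f)

lemma Good.base {t : Fin d} : ∀ {k : ℕ} {f : Euc d → ℝ}, Good t k f →
    ∃ F : Euc d → ℝ, Continuous F ∧ (∃ M, ∀ x, |F x| ≤ M) ∧ EqOn f F (upper t)
  | 0, _, h => h
  | _ + 1, _, h => h.1

lemma Good.congr {t : Fin d} : ∀ {k : ℕ} {f g : Euc d → ℝ}, Good t k f → EqOn g f (upper t) →
    Good t k g
  | 0, _, _, ⟨F, h1, h2, h3⟩, e => ⟨F, h1, h2, e.trans h3⟩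
  | _ + 1, _, _, ⟨⟨F, h1, h2, h3⟩, hd, hp⟩, e =>
    ⟨⟨F, h1, h2, e.trans h3⟩, hd.congr e, fun i => (hp i).congr fun _ hx =>
      pd_congr (e.eventuallyEq_of_mem ((isOpen_upper t).mem_nhds hx)) i⟩

lemma Good.add {t : Fin d} : ∀ {k : ℕ} {f g : Euc d → ℝ}, Good t k f → Good t k g →
    Good t k fun x => f x + g x
  | 0, _, _, ⟨F, h1, ⟨M, h2⟩, h3⟩, ⟨G, g1, ⟨N, g2⟩, g3⟩ =>
    ⟨fun x => F x + G x, h1.add g1,
      ⟨M + N, fun x => (abs_add_le _ _).trans (add_le_add (h2 x) (g2 x))⟩,
      fun x hx => by simp only [h3 hx, g3 hx]⟩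
  | k + 1, f, g, ⟨⟨F, h1, ⟨M, h2⟩, h3⟩, hd, hp⟩, ⟨⟨G, g1, ⟨N, g2⟩, g3⟩, gd, gp⟩ =>
    ⟨⟨fun x => F x + G x, h1.add g1,
      ⟨M + N, fun x => (abs_add_le _ _).trans (add_le_add (h2 x) (g2 x))⟩,
      fun x hx => by simp only [h3 hx, g3 hx]⟩, hd.add gd, fun i =>
      ((hp i).add (gp i)).congr fun x hx => by
        simp [pd, fderiv_fun_add (hd.differentiableAt ((isOpen_upper t).mem_nhds hx))
          (gd.differentiableAt ((isOpen_upper t).mem_nhds hx))]⟩

/-- A cut-off times a function with Hölder derivatives on the half ball is good. -/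
lemma good_mul_cutoff {t : Fin d} {α R ρ : ℝ} (hα : 0 < α) (hρ : ρ < R) :
    ∀ (k : ℕ) {h χ : Euc d → ℝ}, Hol (hball t R) α k h → ContDiff ℝ ∞ χ →
      (∀ x : Euc d, ρ < ‖x‖ → χ x = 0) → Good t k fun x => χ x * h x := by
  have base : ∀ {h χ : Euc d → ℝ}, Hol0 (hball t R) α h → ContDiff ℝ ∞ χ →
      (∀ x : Euc d, ρ < ‖x‖ → χ x = 0) → ∃ F : Euc d → ℝ, Continuous F ∧ (∃ M, ∀ x, |F x| ≤ M) ∧
        EqOn (fun x => χ x * h x) F (upper t) := by
    intro h χ ⟨M, hM, hb, hh⟩ hχ hz
    have hα' : 0 < min α 1 := lt_min hα one_pos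
    obtain ⟨F, hF, hFb, hFe⟩ := exists_hold_extend (K := M * (2 * |R| + 1) ^ α) hα' (min_le_right _ _)
      (by positivity) hM hb fun x hx y hy => by
        refine (hh x hx y hy).trans ?_
        rw [mul_assoc]
        refine mul_le_mul_of_nonneg_left ?_ hM
        have hr : ‖x - y‖ ≤ 2 * |R| := by
          linarith [norm_sub_le x y, (mem_hball.1 hx).1, (mem_hball.1 hy).1, le_abs_self R]
        have h1 : (1 : ℝ) ≤ (2 * |R| + 1) ^ α :=
          Real.one_le_rpow (by linarith [abs_nonneg R]) hα.le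
        rcases le_total ‖x - y‖ 1 with hd | hd
        · refine le_trans ?_ (le_mul_of_one_le_left (Real.rpow_nonneg (norm_nonneg _) _) h1)
          exact Real.rpow_le_rpow_of_exponent_ge' (norm_nonneg _) hd hα'.le (min_le_left _ _)
        · exact (Real.rpow_le_rpow (norm_nonneg _) (hr.trans (le_add_of_nonneg_right zero_le_one))
            hα.le).trans (le_mul_of_one_le_right (by positivity) (Real.one_le_rpow hd hα'.le))
    obtain ⟨N, hN⟩ := hχ.continuous.bounded_above_of_compact_support
      (HasCompactSupport.intro (isCompact_closedBall (0 : Euc d) ρ) fun x hx => hz x (by simpa using hx))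
    refine ⟨fun x => χ x * F x, hχ.continuous.mul (hF.continuous hα'), ⟨N * M, fun x => ?_⟩,
      fun x hx => ?_⟩
    · rw [abs_mul]
      exact mul_le_mul (hN x) (hFb x) (abs_nonneg _) ((norm_nonneg _).trans (hN x))
    · by_cases hxr : ρ < ‖x‖
      · simp [hz x hxr]
      · have hxb : x ∈ hball t R := mem_hball.2 ⟨(not_lt.1 hxr).trans_lt hρ, hx⟩
        simp [hFe hxb]
  intro k
  induction k with
  | zero => exact fun hh hχ hz => base hh hχ hz
  | succ k ih =>
    intro h χ hh hχ hz
    have hzp : ∀ i, ∀ x : Euc d, ρ < ‖x‖ → pd i χ x = 0 := fun i x hx =>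
      pd_eq_zero_of_eventually (by
        filter_upwards [(isOpen_lt continuous_const continuous_norm).mem_nhds
          (show x ∈ {y : Euc d | ρ < ‖y‖} from hx)] with y hy
        exact hz y hy) i
    have hk : ∀ (k : ℕ) {f : Euc d → ℝ}, Hol (hball t R) α (k + 1) f → Hol (hball t R) α k f := by
      intro k
      induction k with
      | zero => exact fun hf => hf.1
      | succ k ihk => exact fun hf => ⟨hf.1, hf.2.1, fun i => ihk (hf.2.2 i)⟩
    refine ⟨base hh.1 hχ hz, fun x hx => ?_, fun i => ?_⟩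
    · by_cases hxr : ρ < ‖x‖
      · have e : (fun x => χ x * h x) =ᶠ[𝓝 x] fun _ => 0 := by
          filter_upwards [(isOpen_lt continuous_const continuous_norm).mem_nhds
            (show x ∈ {y : Euc d | ρ < ‖y‖} from hxr)] with y hy
          simp [hz y hy]
        exact ((differentiableAt_const (0 : ℝ)).congr_of_eventuallyEq e).differentiableWithinAt
      · have hxb : x ∈ hball t R := mem_hball.2 ⟨(not_lt.1 hxr).trans_lt hρ, hx⟩
        exact ((hχ.differentiable (by simp) x).mul
          (hh.2.1.differentiableAt ((isOpen_hball t R).mem_nhds hxb))).differentiableWithinAt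
    · refine (Good.add (ih (hk k hh) (contDiff_pd (n := ∞) hχ i) (hzp i))
        (ih (hh.2.2 i) hχ hz)).congr fun x hx => ?_
      by_cases hxr : ρ < ‖x‖
      · rw [pd_eq_zero_of_eventually (i := i) (f := fun x => χ x * h x) (by
          filter_upwards [(isOpen_lt continuous_const continuous_norm).mem_nhds
            (show x ∈ {y : Euc d | ρ < ‖y‖} from hxr)] with y hy
          simp [hz y hy])]
        simp [hz x hxr, hzp i x hxr]
      · have hxb : x ∈ hball t R := mem_hball.2 ⟨(not_lt.1 hxr).trans_lt hρ, hx⟩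
        exact pd_mul i (hχ.differentiable (by simp) x)
          (hh.2.1.differentiableAt ((isOpen_hball t R).mem_nhds hxb))

/-- The reflection `x ↦ flat x - b x_t e_t`. -/
noncomputable def dilRefl (t : Fin d) (b : ℝ) : Euc d →L[ℝ] Euc d :=
  ContinuousLinearMap.id ℝ (Euc d) -
    (1 + b) • (EuclideanSpace.proj (𝕜 := ℝ) t).smulRight (bas t)

lemma dilRefl_apply (t : Fin d) (b : ℝ) (x : Euc d) (j : Fin d) :
    dilRefl t b x j = if j = t then -b * x t else x j := by
  simp [dilRefl]
  split_ifs with h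
  · subst h; ring
  · simp

lemma dilRefl_mem {t : Fin d} {b : ℝ} (hb : 0 < b) {x : Euc d} (hx : x t < 0) :
    dilRefl t b x ∈ upper t := by
  show 0 < dilRefl t b x t
  rw [dilRefl_apply, if_pos rfl]
  nlinarith

lemma mem_closure_upper {t : Fin d} {x : Euc d} (hx : 0 ≤ x t) : x ∈ closure (upper t) := by
  have h : Tendsto (fun s : ℝ => x + s • bas t) (𝓝[>] 0) (𝓝 x) := by
    have h1 : Tendsto (fun s : ℝ => x + s • bas t) (𝓝 0) (𝓝 (x + (0 : ℝ) • bas t)) :=
      (continuous_const.add (continuous_id.smul continuous_const)).tendsto 0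
    rw [zero_smul, add_zero] at h1
    exact h1.mono_left nhdsWithin_le_nhds
  refine mem_closure_of_tendsto h ?_
  filter_upwards [self_mem_nhdsWithin] with s (hs : 0 < s)
  show 0 < (x + s • bas t) t
  simp
  linarith

lemma norm_dilRefl_le (t : Fin d) {b : ℝ} (hb : 0 < b) : ‖dilRefl t b‖ ≤ 2 + b := by
  refine ContinuousLinearMap.opNorm_le_bound _ (by linarith) fun x => ?_
  have e : dilRefl t b x = x - (1 + b) • (x t • bas t) := by simp [dilRefl]
  rw [e]
  refine (norm_sub_le _ _).trans ?_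
  rw [norm_smul, norm_smul, Real.norm_eq_abs, Real.norm_eq_abs,
    abs_of_pos (by linarith : (0 : ℝ) < 1 + b), show ‖bas t‖ = 1 by simp [bas], mul_one]
  nlinarith [abs_apply_le_norm x t, norm_nonneg x]

/-- Weights with all moments one. -/
structure IsWeight (c : SeeleyIdx → ℝ) : Prop where
  summable : ∀ j : ℕ, Summable fun k => |c k| * seeleyB k ^ j
  moment : ∀ j : ℕ, ∑' k, c k * (-seeleyB k) ^ j = 1

lemma isWeight_seeley : IsWeight seeleyC := ⟨summable_seeley, tsum_seeley⟩

lemma IsWeight.shift {c : SeeleyIdx → ℝ} (hc : IsWeight c) :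
    IsWeight fun k => c k * (-seeleyB k) := by
  refine ⟨fun j => (hc.summable (j + 1)).congr fun k => ?_, fun j => ?_⟩
  · rw [abs_mul, abs_neg, abs_of_pos (seeleyB_pos k)]; ring
  · rw [← hc.moment (j + 1)]
    exact tsum_congr fun k => by ring

/-- The weights seen by the derivative in direction `i`. -/
noncomputable def dirWeight (t i : Fin d) (c : SeeleyIdx → ℝ) (k : SeeleyIdx) : ℝ :=
  if i = t then c k * (-seeleyB k) else c k

lemma IsWeight.dir {c : SeeleyIdx → ℝ} (hc : IsWeight c) (t i : Fin d) :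
    IsWeight (dirWeight t i c) := by
  by_cases h : i = t
  · rw [show dirWeight t i c = fun k => c k * (-seeleyB k) from funext fun k => by simp [dirWeight, h]]
    exact hc.shift
  · rw [show dirWeight t i c = c from funext fun k => by simp [dirWeight, h]]
    exact hc

/-- The reflected extension. -/
noncomputable def sExt (t : Fin d) (c : SeeleyIdx → ℝ) (f : Euc d → ℝ) (x : Euc d) : ℝ :=
  if 0 < x t then f x
  else ∑' k, c k * extendFrom (upper t) f (dilRefl t (seeleyB k) x)

variable {t : Fin d} {c : SeeleyIdx → ℝ} {f : Euc d → ℝ}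

lemma extendFrom_upper {F : Euc d → ℝ} (hF : Continuous F) (he : EqOn f F (upper t)) {x : Euc d}
    (hx : 0 ≤ x t) : extendFrom (upper t) f x = F x := by
  refine extendFrom_eq (mem_closure_upper hx) ?_
  refine ((hF.tendsto x).mono_left nhdsWithin_le_nhds).congr' ?_
  filter_upwards [self_mem_nhdsWithin] with y hy
  exact (he hy).symm

lemma continuous_sExt (hc : IsWeight c) (hf : Good t 0 f) : Continuous (sExt t c f) := by
  obtain ⟨F, hF, ⟨M, hM⟩, he⟩ := hf
  have hcl : ∀ k : SeeleyIdx, ∀ x : Euc d, x t ≤ 0 → 0 ≤ dilRefl t (seeleyB k) x t := fun k x hx => by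
    rw [dilRefl_apply, if_pos rfl]
    nlinarith [seeleyB_pos k]
  have hs : Continuous fun x => ∑' k, c k * F (dilRefl t (seeleyB k) x) := by
    refine continuous_tsum (fun k => continuous_const.mul (hF.comp (dilRefl t _).continuous))
      ((hc.summable 0).mul_right M) fun k x => ?_
    rw [norm_mul, pow_zero, mul_one]
    exact mul_le_mul_of_nonneg_left (hM _) (abs_nonneg _)
  have heq : sExt t c f = fun x =>
      if 0 ≤ x t then F x else ∑' k, c k * F (dilRefl t (seeleyB k) x) := by
    funext x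
    rcases lt_trichotomy (x t) 0 with h | h | h
    · rw [sExt, if_neg (not_lt.2 h.le), if_neg (not_le.2 h)]
      exact tsum_congr fun k => by rw [extendFrom_upper hF he (hcl k x h.le)]
    · rw [sExt, if_neg h.not_gt, if_pos h.ge]
      have hfix : ∀ k : SeeleyIdx, dilRefl t (seeleyB k) x = x := fun k => by
        ext j
        rw [dilRefl_apply]
        split_ifs with hj
        · subst hj; simp [h]
        · rfl
      rw [show (∑' k, c k * extendFrom (upper t) f (dilRefl t (seeleyB k) x)) = ∑' k, c k * F x from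
        tsum_congr fun k => by rw [hfix, extendFrom_upper hF he h.ge], tsum_mul_right,
        show ∑' k, c k = 1 by simpa using hc.moment 0, one_mul]
    · rw [sExt, if_pos h, if_pos h.le]
      exact he h
  rw [heq]
  refine continuous_if_le continuous_const (EuclideanSpace.proj (𝕜 := ℝ) t).continuous
    hF.continuousOn hs.continuousOn fun x (hx : (0 : ℝ) = x t) => ?_
  have hfix : ∀ k : SeeleyIdx, dilRefl t (seeleyB k) x = x := fun k => by
    ext j
    rw [dilRefl_apply]
    split_ifs with hj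
    · subst hj; simp [← hx]
    · rfl
  simp only [hfix]
  rw [tsum_mul_right, show ∑' k, c k = 1 by simpa using hc.moment 0, one_mul]

/-- The candidate derivative. -/
noncomputable def sExtDeriv (t : Fin d) (c : SeeleyIdx → ℝ) (f : Euc d → ℝ) (x : Euc d) :
    Euc d →L[ℝ] ℝ :=
  ∑ i, sExt t (dirWeight t i c) (pd i f) x • EuclideanSpace.proj (𝕜 := ℝ) i

lemma sExtDeriv_apply (x : Euc d) (j : Fin d) :
    sExtDeriv t c f x (bas j) = sExt t (dirWeight t j c) (pd j f) x := by
  simp [sExtDeriv]

lemma hasFDerivAt_sExt_lower (hc : IsWeight c) (hf : Good t 1 f) {x : Euc d} (hx : x t < 0) :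
    HasFDerivAt (sExt t c f) (sExtDeriv t c f x) x := by
  obtain ⟨⟨F, hF, ⟨M, hM⟩, he⟩, hd, hp⟩ := hf
  set U : Set (Euc d) := {y | y t < 0} with hU
  have hUo : IsOpen U := isOpen_lt (EuclideanSpace.proj (𝕜 := ℝ) t).continuous continuous_const
  have hUc : IsPreconnected U :=
    (convex_halfSpace_lt (f := fun a : Euc d => a t) ⟨fun _ _ => by simp, fun _ _ => by simp⟩
      0).isPreconnected
  choose P hP hPb hPe using fun i => (hp i : Good t 0 (pd i f))
  choose N hN using hPb
  set B : ℝ := ∑ i, N i with hB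
  have hN0 : ∀ i, 0 ≤ N i := fun i => (abs_nonneg _).trans (hN i 0)
  have hfd : ∀ y ∈ upper t, ‖fderiv ℝ f y‖ ≤ B := fun y hy => by
    refine ContinuousLinearMap.opNorm_le_bound _ (Finset.sum_nonneg fun i _ => hN0 i) fun z => ?_
    rw [clm_apply_eq, Finset.sum_mul]
    refine (norm_sum_le _ _).trans (Finset.sum_le_sum fun i _ => ?_)
    rw [norm_mul, mul_comm]
    refine mul_le_mul ?_ (abs_apply_le_norm z i) (norm_nonneg _) (hN0 i)
    show |pd i f y| ≤ N i
    rw [hPe i hy]
    exact hN i y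
  set D : SeeleyIdx → Euc d → (Euc d →L[ℝ] ℝ) := fun k y =>
    c k • (fderiv ℝ f (dilRefl t (seeleyB k) y)).comp (dilRefl t (seeleyB k)) with hD
  have hder : ∀ k, ∀ y ∈ U,
      HasFDerivAt (fun y => c k * f (dilRefl t (seeleyB k) y)) (D k y) y := fun k y hy =>
    ((hd.differentiableAt ((isOpen_upper t).mem_nhds
      (dilRefl_mem (seeleyB_pos k) hy))).hasFDerivAt.comp y (dilRefl t _).hasFDerivAt).const_mul _
  have hbd : ∀ k, ∀ y ∈ U, ‖D k y‖ ≤ 2 * B * (|c k| * seeleyB k ^ 0) + B * (|c k| * seeleyB k ^ 1) :=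
    fun k y hy => by
    rw [hD, norm_smul, Real.norm_eq_abs, pow_zero, pow_one, mul_one]
    calc |c k| * ‖(fderiv ℝ f (dilRefl t (seeleyB k) y)).comp (dilRefl t (seeleyB k))‖
        ≤ |c k| * (B * (2 + seeleyB k)) :=
          mul_le_mul_of_nonneg_left ((ContinuousLinearMap.opNorm_comp_le _ _).trans
            (mul_le_mul (hfd _ (dilRefl_mem (seeleyB_pos k) hy)) (norm_dilRefl_le t (seeleyB_pos k))
              (norm_nonneg _) (Finset.sum_nonneg fun i _ => hN0 i))) (abs_nonneg _)
      _ = 2 * B * |c k| + B * (|c k| * seeleyB k) := by ring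
  have hu : Summable fun k => 2 * B * (|c k| * seeleyB k ^ 0) + B * (|c k| * seeleyB k ^ 1) :=
    ((hc.summable 0).mul_left _).add ((hc.summable 1).mul_left _)
  have hs0 : Summable fun k => c k * f (dilRefl t (seeleyB k) x) := by
    refine Summable.of_norm_bounded ((hc.summable 0).mul_right M) fun k => ?_
    rw [norm_mul, pow_zero, mul_one, he (dilRefl_mem (seeleyB_pos k) hx)]
    exact mul_le_mul_of_nonneg_left (hM _) (abs_nonneg _)
  have hS := hasFDerivAt_tsum_of_isPreconnected hu hUo hUc hder hbd (show x ∈ U from hx) hs0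
    (show x ∈ U from hx)
  have hloc : sExt t c f =ᶠ[𝓝 x] fun y => ∑' k, c k * f (dilRefl t (seeleyB k) y) := by
    filter_upwards [hUo.mem_nhds hx] with y (hy : y t < 0)
    rw [sExt, if_neg (not_lt.2 hy.le)]
    refine tsum_congr fun k => ?_
    rw [extendFrom_upper hF he (dilRefl_mem (seeleyB_pos k) hy).le,
      he (dilRefl_mem (seeleyB_pos k) hy)]
  have hDs : Summable fun k => D k x :=
    Summable.of_norm_bounded hu fun k => hbd k x hx
  have e : sExtDeriv t c f x = ∑' k, D k x := by
    refine ContinuousLinearMap.ext fun z => ?_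
    rw [clm_apply_eq, clm_apply_eq (∑' k, D k x)]
    refine Finset.sum_congr rfl fun j _ => congrArg _ ?_
    have hev := (ContinuousLinearMap.apply ℝ ℝ (bas j)).map_tsum hDs
    simp only [ContinuousLinearMap.apply_apply] at hev
    rw [sExtDeriv_apply, hev, sExt, if_neg (not_lt.2 hx.le)]
    refine tsum_congr fun k => ?_
    have hk := dilRefl_mem (t := t) (seeleyB_pos k) hx
    rw [extendFrom_upper (hP j) (hPe j) hk.le, ← hPe j hk]
    have hb : dilRefl t (seeleyB k) (bas j)
        = (if j = t then -seeleyB k else 1) • bas j := by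
      ext l
      rw [dilRefl_apply]
      simp only [PiLp.smul_apply, smul_eq_mul, bas_apply]
      by_cases hl : l = t
      · rw [if_pos hl, hl]
        by_cases hj : j = t
        · rw [hj, if_pos rfl, if_pos rfl]
        · rw [if_neg hj, if_neg (Ne.symm hj)]
          ring
      · rw [if_neg hl]
        by_cases hlj : l = j
        · rw [if_pos hlj, if_neg (hlj ▸ hl)]
          ring
        · rw [if_neg hlj, mul_zero]
    simp only [hD, _root_.smul_apply, ContinuousLinearMap.coe_comp, Function.comp_apply, hb,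
      map_smul, smul_eq_mul, dirWeight]
    rw [show fderiv ℝ f (dilRefl t (seeleyB k) x) (bas j) = pd j f (dilRefl t (seeleyB k) x) from rfl]
    split_ifs <;> ring
  rw [e]
  exact hS.congr_of_eventuallyEq hloc

lemma hasFDerivAt_sExt (hc : IsWeight c) (hf : Good t 1 f) (x : Euc d) :
    HasFDerivAt (sExt t c f) (sExtDeriv t c f x) x := by
  set U : Set (Euc d) := {y | y t < 0} with hU
  have hproj : Continuous fun y : Euc d => y t := (EuclideanSpace.proj (𝕜 := ℝ) t).continuous
  have hUo : IsOpen U := isOpen_lt hproj continuous_const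
  have hS : Continuous (sExt t c f) := continuous_sExt hc hf.1
  have hL : Continuous (sExtDeriv t c f) := continuous_finsetSum _ fun i _ =>
    (continuous_sExt (hc.dir t i) (hf.2.2 i)).smul continuous_const
  have hup : ∀ y ∈ upper t, HasFDerivAt (sExt t c f) (sExtDeriv t c f y) y := fun y hy => by
    have e : sExt t c f =ᶠ[𝓝 y] f := by
      filter_upwards [(isOpen_upper t).mem_nhds hy] with z hz
      exact if_pos hz
    have h := (hf.2.1.differentiableAt ((isOpen_upper t).mem_nhds hy)).hasFDerivAt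
    have e2 : sExtDeriv t c f y = fderiv ℝ f y := by
      refine ContinuousLinearMap.ext fun z => ?_
      rw [clm_apply_eq, clm_apply_eq (fderiv ℝ f y)]
      exact Finset.sum_congr rfl fun j _ => congrArg _ (by rw [sExtDeriv_apply]; exact if_pos hy)
    rw [e2]
    exact h.congr_of_eventuallyEq e
  have hlow : ∀ y ∈ U, HasFDerivAt (sExt t c f) (sExtDeriv t c f y) y := fun y hy =>
    hasFDerivAt_sExt_lower hc hf hy
  rcases lt_trichotomy (x t) 0 with h | h | h
  · exact hlow x h
  swap
  · exact hup x h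
  have key : ∀ s : Set (Euc d), IsOpen s → Convex ℝ s →
      (∀ y ∈ s, HasFDerivAt (sExt t c f) (sExtDeriv t c f y) y) →
      HasFDerivWithinAt (sExt t c f) (sExtDeriv t c f x) (closure s) x := by
    intro s hs hconv hd
    refine hasFDerivWithinAt_closure_of_tendsto_fderiv
      (fun y hy => (hd y hy).differentiableAt.differentiableWithinAt) hconv hs
      (fun y _ => hS.continuousWithinAt) ?_
    refine ((hL.tendsto x).mono_left nhdsWithin_le_nhds).congr' ?_
    filter_upwards [self_mem_nhdsWithin] with y hy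
    exact (hd y hy).fderiv.symm
  have hlin : IsLinearMap ℝ fun a : Euc d => a t := ⟨fun _ _ => by simp, fun _ _ => by simp⟩
  have h2 := (key (upper t) (isOpen_upper t) (convex_halfSpace_gt hlin 0) hup).union
    (key U hUo (convex_halfSpace_lt hlin 0) hlow)
  refine h2.hasFDerivAt (Filter.mem_of_superset Filter.univ_mem fun y _ => ?_)
  rcases le_or_gt 0 (y t) with hy | hy
  · exact Or.inl (mem_closure_upper hy)
  · exact Or.inr (subset_closure hy)

lemma contDiff_sExt : ∀ (n : ℕ) {c : SeeleyIdx → ℝ} {f : Euc d → ℝ}, IsWeight c →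
    (∀ k, Good t k f) → ContDiff ℝ n (sExt t c f)
  | 0, c, f, hc, hf => by
    rw [Nat.cast_zero, contDiff_zero]
    exact continuous_sExt hc (hf 0)
  | n + 1, c, f, hc, hf => by
    have hd := hasFDerivAt_sExt hc (hf 1)
    rw [Nat.cast_succ]
    refine contDiff_succ_iff_fderiv.2 ⟨fun x => (hd x).differentiableAt, by simp, ?_⟩
    rw [show fderiv ℝ (sExt t c f) = sExtDeriv t c f from funext fun x => (hd x).fderiv]
    exact ContDiff.sum fun i _ =>
      (contDiff_sExt n (hc.dir t i) fun k => (hf (k + 1)).2.2 i).smul contDiff_const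

/-- A function with bounded Hölder derivatives of all orders on the half ball extends smoothly. -/
theorem exists_contDiff_extension {d : ℕ} [NeZero d] (t : Fin d) {α r R : ℝ} (hα : 0 < α)
    (hr : r < R) {h : Euc d → ℝ} (hsm : ContDiffOn ℝ ∞ h (hball t R))
    (hh : ∀ k, Hol (hball t R) α k h) :
    ∃ g : Euc d → ℝ, ContDiff ℝ ∞ g ∧ EqOn g h (hball t r) := by
  rcases le_or_gt r 0 with hr0 | hr0
  · refine ⟨fun _ => 0, contDiff_const, fun x hx => ?_⟩
    linarith [norm_nonneg x, (mem_hball.1 hx).1]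
  have := hsm
  set b : ContDiffBump (0 : Euc d) := ⟨r, (r + R) / 2, hr0, by linarith⟩ with hb
  have hz : ∀ x : Euc d, (r + R) / 2 < ‖x‖ → b x = 0 := fun x hx =>
    b.zero_of_le_dist (by rw [dist_zero_right]; exact hx.le)
  have hG : ∀ k, Good t k fun x => b x * h x := fun k =>
    good_mul_cutoff hα (show (r + R) / 2 < R by linarith) k (hh k) b.contDiff hz
  refine ⟨sExt t seeleyC fun x => b x * h x,
    contDiff_infty.2 fun n => contDiff_sExt n isWeight_seeley hG, fun x hx => ?_⟩
  obtain ⟨h1, h2⟩ := mem_hball.1 hx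
  rw [sExt, if_pos h2, b.one_of_mem_closedBall (mem_closedBall_zero_iff.2 h1.le), one_mul]

/-- Near the origin `hodo t g` has a smooth inverse; `v` is the `t`-coordinate of the inverse. -/
theorem exists_inverse_coord {d : ℕ} (t : Fin d) {g : Euc d → ℝ} (hg : ContDiff ℝ ∞ g)
    (hq : pd t g 0 ≠ 0) :
    ∃ (W : Set (Euc d)) (v : Euc d → ℝ) (δ : ℝ), 0 < δ ∧ IsOpen W ∧ hodo t g 0 ∈ W ∧
      ContDiffOn ℝ ∞ v W ∧
      ∀ y ∈ Metric.ball (0 : Euc d) δ, hodo t g y ∈ W ∧ v (hodo t g y) = y t := by
  have hH : ContDiff ℝ ∞ (hodo t g) :=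
    (contDiff_id.sub (((EuclideanSpace.proj (𝕜 := ℝ) t).contDiff).smul contDiff_const)).add
      (hg.smul contDiff_const)
  have hder : ∀ y, HasFDerivAt (hodo t g)
      (ContinuousLinearMap.id ℝ (Euc d) - (EuclideanSpace.proj (𝕜 := ℝ) t).smulRight (bas t)
        + (fderiv ℝ g y).smulRight (bas t)) y := fun y =>
    ((hasFDerivAt_id y).sub ((EuclideanSpace.proj (𝕜 := ℝ) t).hasFDerivAt.smul_const (bas t))).add
      ((hg.differentiable (by simp) y).hasFDerivAt.smul_const (bas t))
  have hinj : ∀ y, pd t g y ≠ 0 → Function.Injective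
      (ContinuousLinearMap.id ℝ (Euc d) - (EuclideanSpace.proj (𝕜 := ℝ) t).smulRight (bas t)
        + (fderiv ℝ g y).smulRight (bas t)).toLinearMap := by
    intro y hy
    refine (injective_iff_map_eq_zero _).2 fun z hz => ?_
    have hz' : ∀ j, (z j - z t * bas t j) + fderiv ℝ g y z * bas t j = 0 := fun j => by
      have := congrArg (fun w : Euc d => w j) hz
      simpa using this
    have h1 : ∀ j, j ≠ t → z j = 0 := fun j hj => by simpa [bas_apply, hj] using hz' j
    have h2 : fderiv ℝ g y z = 0 := by simpa [bas_apply] using hz' t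
    rw [clm_apply_eq, Finset.sum_eq_single t (fun j _ hj => by rw [h1 j hj, zero_mul])
      (fun h => absurd (Finset.mem_univ t) h)] at h2
    ext j
    by_cases hj : j = t
    · rw [hj]
      simpa using (mul_eq_zero.1 h2).resolve_right hy
    · simpa using h1 j hj
  set L : ∀ y, pd t g y ≠ 0 → (Euc d ≃L[ℝ] Euc d) := fun y hy =>
    (LinearEquiv.ofBijective _ ⟨hinj y hy,
      LinearMap.injective_iff_surjective.1 (hinj y hy)⟩).toContinuousLinearEquiv with hL
  have hLd : ∀ y (hy : pd t g y ≠ 0),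
      HasFDerivAt (hodo t g) (L y hy : Euc d →L[ℝ] Euc d) y := fun y hy => hder y
  set e := (hH.contDiffAt (x := 0)).toOpenPartialHomeomorph (hodo t g) (hLd 0 hq) (by simp) with he
  set S : Set (Euc d) := e.source ∩ {y | pd t g y ≠ 0} with hS
  have hSo : IsOpen S := e.open_source.inter
    (isOpen_ne_fun (continuous_pd (hg.of_le (by simp)) t) continuous_const)
  have h0 : (0 : Euc d) ∈ S :=
    ⟨(hH.contDiffAt (x := 0)).mem_toOpenPartialHomeomorph_source (hLd 0 hq) (by simp), hq⟩
  obtain ⟨δ, hδ, hball⟩ := Metric.isOpen_iff.1 hSo 0 h0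
  refine ⟨e '' S, fun x => e.symm x t, δ, hδ, e.isOpen_image_of_subset_source hSo inter_subset_left,
    ⟨0, h0, rfl⟩, ?_, fun y hy => ⟨⟨y, hball hy, rfl⟩, ?_⟩⟩
  · rintro x ⟨y, ⟨hys, hyq⟩, rfl⟩
    refine ContDiffAt.contDiffWithinAt ?_
    have hsymm : e.symm (e y) = y := e.left_inv hys
    have h := e.contDiffAt_symm (n := ∞) (e.map_source hys) (f₀' := L y hyq)
      (by rw [hsymm]; exact hLd y hyq) (by rw [hsymm]; exact hH.contDiffAt)
    exact (EuclideanSpace.proj (𝕜 := ℝ) t).contDiff.contDiffAt.comp _ h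
  · show e.symm (hodo t g y) t = y t
    rw [show hodo t g y = e y from rfl, e.left_inv (hball hy).1]

end Vale.Agent.P098.B5
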