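import Vale.Agent.P098.Regularity.B5.Kernel

/-!
P098, block B5: the constant coefficient estimate on the whole space. A bounded curl-free field
`V` with `div (V - G) = g` weakly, `G` Hölder and `g` bounded, is Hölder at its continuity points.
-/

open MeasureTheory Filter Set
open scoped Topology ContDiff

namespace Vale.Agent.P098.B5

variable {d : ℕ}

lemma abs_sub_le_of_deriv_bound {f f' : ℝ → ℝ} {a b c β : ℝ} (ha : 0 < a) (hab : a ≤ b)
    (hβ : β ≠ 0) (hf : ∀ s ∈ Icc a b, HasDerivAt f (f' s) s)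
    (hb : ∀ s ∈ Icc a b, |f' s| ≤ c * s ^ (β - 1)) :
    |f b - f a| ≤ c * (b ^ β - a ^ β) / β := by
  have hg : ∀ s ∈ Icc a b, HasDerivAt (fun s => c * s ^ β / β) (c * s ^ (β - 1)) s := fun s hs => by
    refine (((Real.hasDerivAt_rpow_const (p := β)
      (Or.inl (lt_of_lt_of_le ha hs.1).ne')).const_mul c).div_const β).congr_deriv ?_
    field_simp
  have key : ∀ σ : ℝ, (σ = 1 ∨ σ = -1) → σ * (f b - f a) ≤ c * (b ^ β - a ^ β) / β := by
    intro σ hσ
    have hd : ∀ s ∈ Icc a b, HasDerivAt (fun s => c * s ^ β / β - σ * f s)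
        (c * s ^ (β - 1) - σ * f' s) s := fun s hs => (hg s hs).sub ((hf s hs).const_mul σ)
    have hm := monotoneOn_of_deriv_nonneg (convex_Icc a b)
      (fun s hs => (hd s hs).continuousAt.continuousWithinAt)
      (fun s hs => (hd s (interior_subset hs)).differentiableAt.differentiableWithinAt)
      (fun s hs => by
        have h1 := abs_le.1 (hb s (interior_subset hs))
        rw [(hd s (interior_subset hs)).deriv]
        rcases hσ with rfl | rfl <;> linarith [h1.1, h1.2])
    have := hm (left_mem_Icc.2 hab) (right_mem_Icc.2 hab) hab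
    simp only at this
    rw [mul_sub, mul_sub, sub_div]
    linarith
  refine abs_le.2 ⟨?_, ?_⟩
  · linarith [key (-1) (Or.inr rfl)]
  · linarith [key 1 (Or.inl rfl)]

lemma avg_pd_eq {k f : Euc d → ℝ} (h1 : ContDiff ℝ 1 k) {τ : ℝ} (hτ : 0 < τ) (x : Euc d)
    (i : Fin d) : avg (pd i k) f τ x
      = -(τ * (τ ^ d)⁻¹) * ∫ y, pd i (fun y => k (τ⁻¹ • (x - y))) y * f y := by
  have e : ∀ y, pd i (fun y => k (τ⁻¹ • (x - y))) y = -τ⁻¹ * pd i k (τ⁻¹ • (x - y)) := fun y => by
    have hin : HasFDerivAt (fun y : Euc d => τ⁻¹ • (x - y))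
        (τ⁻¹ • (-(ContinuousLinearMap.id ℝ (Euc d)))) y :=
      ((hasFDerivAt_id y).const_sub x).fun_const_smul τ⁻¹
    have := ((h1.differentiable one_ne_zero _).hasFDerivAt.comp y hin).fderiv
    rw [pd, show (fun y : Euc d => k (τ⁻¹ • (x - y))) = k ∘ fun y => τ⁻¹ • (x - y) from rfl, this]
    simp [pd]
  rw [avg_eq_scaled _ _ hτ]
  simp only [e, mul_assoc, integral_const_mul]
  field_simp

lemma tendsto_avg {k f : Euc d → ℝ} (hk : IsKernel k) (hf : Measurable f) {N : ℝ}
    (hN : ∀ y, |f y| ≤ N) {x : Euc d} (hc : ContinuousAt f x) :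
    Tendsto (fun τ => avg k f τ x) (𝓝 0) (𝓝 ((∫ z, k z) * f x)) := by
  have hdef : ∀ τ, avg k f τ x - (∫ z, k z) * f x = avg k (fun y => f y - f x) τ x := fun τ => by
    simp only [avg, mul_sub]
    rw [integral_sub (integrable_avg hk hf hN τ x)
      ((hk.cont.integrable_of_hasCompactSupport hk.hasCompactSupport).mul_const _),
      integral_mul_const]
  rw [Metric.tendsto_nhds_nhds]
  intro ε hε
  obtain ⟨δ, hδ, hd⟩ := Metric.continuousAt_iff.1 hc (ε / ((∫ z, |k z|) + 1)) (by positivity)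
  refine ⟨δ, hδ, fun τ hτ => ?_⟩
  rw [Real.dist_eq, hdef]
  refine lt_of_le_of_lt (abs_avg_le hk (M := ε / ((∫ z, |k z|) + 1)) fun z hz => ?_) ?_
  · refine (le_of_lt ?_)
    rw [← Real.dist_eq]
    refine hd (lt_of_le_of_lt ?_ hτ)
    rw [dist_eq_norm, sub_sub_cancel_left, norm_neg, norm_smul, Real.dist_eq, sub_zero,
      Real.norm_eq_abs]
    exact mul_le_of_le_one_right (abs_nonneg _) hz
  · rw [mul_div_assoc', div_lt_iff₀ (by positivity)]
    nlinarith

/-- The `τ`-derivative of the mollification of the `i`-th component. -/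
noncomputable def flow (G : Fin d → Euc d → ℝ) (g : Euc d → ℝ) (i : Fin d) (τ : ℝ) (x : Euc d) :
    ℝ :=
  τ⁻¹ * (∑ j, avg (pd j (pd i sig)) (G j) τ x) - avg (pd i sig) g τ x

lemma contDiff_pd_sig (i : Fin d) : ContDiff ℝ ∞ (pd i (sig : Euc d → ℝ)) :=
  contDiff_pd (n := ∞) (contDiff_sig.of_le le_rfl) i

lemma contDiff_pd_pd_sig (i j : Fin d) : ContDiff ℝ ∞ (pd j (pd i (sig : Euc d → ℝ))) :=
  contDiff_pd (n := ∞) ((contDiff_pd_sig i).of_le le_rfl) j

lemma isKernel_pd_sig (i : Fin d) : IsKernel (pd i (sig : Euc d → ℝ)) :=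
  isKernel_sig.pd (contDiff_sig.of_le (WithTop.coe_le_coe.2 le_top)) i

lemma isKernel_pd_pd_sig (i j : Fin d) : IsKernel (pd j (pd i (sig : Euc d → ℝ))) :=
  (isKernel_pd_sig i).pd ((contDiff_pd_sig i).of_le (WithTop.coe_le_coe.2 le_top)) j

lemma pd_pd_comm {f : Euc d → ℝ} {x : Euc d} (hf : ContDiffAt ℝ 2 f x) (i j : Fin d) :
    pd i (pd j f) x = pd j (pd i f) x := by
  have hd : DifferentiableAt ℝ (fderiv ℝ f) x :=
    (hf.fderiv_right (m := 1) le_rfl).differentiableAt one_ne_zero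
  have e : ∀ a b : Fin d, pd a (pd b f) x = fderiv ℝ (fderiv ℝ f) x (bas a) (bas b) := fun a b => by
    show fderiv ℝ (fun y => fderiv ℝ f y (bas b)) x (bas a) = _
    rw [fderiv_clm_apply hd (differentiableAt_const _)]
    simp
  rw [e, e]
  exact (hf.isSymmSndFDerivAt (by simp)) _ _

/-- A test function. -/
def IsTestFn (φ : Euc d → ℝ) : Prop := ContDiff ℝ ∞ φ ∧ HasCompactSupport φ

lemma isTestFn_kernel {k : Euc d → ℝ} (hk : IsKernel k) (h : ContDiff ℝ ∞ k) {τ : ℝ} (hτ : 0 < τ)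
    (x : Euc d) : IsTestFn fun y => k (τ⁻¹ • (x - y)) := by
  refine ⟨h.comp (by fun_prop), HasCompactSupport.intro (isCompact_closedBall x τ) fun y hy => ?_⟩
  refine hk.supp _ ?_
  rw [norm_smul, Real.norm_eq_abs, abs_of_pos (inv_pos.2 hτ), lt_inv_mul_iff₀ hτ, mul_one]
  simpa [dist_eq_norm, norm_sub_rev] using hy

lemma continuous_pd_test {φ : Euc d → ℝ} (hφ : IsTestFn φ) (i : Fin d) : Continuous (pd i φ) :=
  continuous_pd (hφ.1.of_le (WithTop.coe_le_coe.2 le_top)) i

lemma integrable_pd_test_mul {φ f : Euc d → ℝ} (hφ : IsTestFn φ) (hf : Measurable f) {N : ℝ}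
    (hN : ∀ y, |f y| ≤ N) (i : Fin d) : Integrable fun y => pd i φ y * f y :=
  ((continuous_pd_test hφ i).integrable_of_hasCompactSupport
    (hasCompactSupport_pd hφ.2 i)).mul_bdd (c := N) hf.aestronglyMeasurable
    (Eventually.of_forall fun y => by simpa using hN y)

variable {V G : Fin d → Euc d → ℝ} {g : Euc d → ℝ} {α N : ℝ}

/-- A bounded curl-free field solving `div (V - G) = g` weakly. -/
structure IsWeakSol (V G : Fin d → Euc d → ℝ) (g : Euc d → ℝ) (α N : ℝ) : Prop where
  measV : ∀ i, Measurable (V i)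
  measg : Measurable g
  bddV : ∀ i y, |V i y| ≤ N
  bddg : ∀ y, |g y| ≤ N
  holdG : ∀ i, Hold α N (G i)
  curl : ∀ φ, IsTestFn φ → ∀ i j, ∫ y, pd i φ y * V j y = ∫ y, pd j φ y * V i y
  eqn : ∀ φ, IsTestFn φ → ∫ y, (∑ j, (V j y - G j y) * pd j φ y) - g y * φ y = 0

lemma IsWeakSol.hasDerivAt [NeZero d] (h : IsWeakSol V G g α N) (hα : 0 < α) {τ : ℝ} (hτ : 0 < τ)
    (x : Euc d) (i : Fin d) :
    HasDerivAt (fun s => avg rho (V i) s x) (flow G g i τ x) τ := by
  refine (hasDerivAt_avg isKernel_rho (contDiff_rho.of_le (WithTop.coe_le_coe.2 le_top))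
    (h.measV i) (h.bddV i) hτ x).congr_deriv ?_
  have hle : ∀ {k : Euc d → ℝ}, ContDiff ℝ ∞ k → ContDiff ℝ 1 k := fun hk =>
    hk.of_le (WithTop.coe_le_coe.2 le_top)
  set φ : Fin d → Euc d → ℝ := fun j y => pd j sig (τ⁻¹ • (x - y)) with hφ
  have hT : ∀ j, IsTestFn (φ j) := fun j =>
    isTestFn_kernel (isKernel_pd_sig j) (contDiff_pd_sig j) hτ x
  have hsum : avg (euler rho) (V i) τ x = ∑ j, avg (pd j (pd j sig)) (V i) τ x := by
    simp only [avg, euler_rho, Finset.sum_mul]
    exact integral_finsetSum _ fun j _ =>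
      integrable_avg (isKernel_pd_pd_sig j j) (h.measV i) (h.bddV i) τ x
  have hswap : ∀ j, avg (pd j (pd j sig)) (V i) τ x = avg (pd j (pd i sig)) (V j) τ x := fun j => by
    have e : (pd j (pd i sig) : Euc d → ℝ) = pd i (pd j sig) := funext fun y =>
      pd_pd_comm ((contDiff_sig.of_le (WithTop.coe_le_coe.2 le_top)).contDiffAt) j i
    rw [e, avg_pd_eq (hle (contDiff_pd_sig j)) hτ x, avg_pd_eq (hle (contDiff_pd_sig j)) hτ x]
    congr 1
    exact h.curl _ (hT j) j i
  have hG : ∀ j, Integrable fun y => pd j (φ i) y * G j y := fun j =>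
    ((continuous_pd_test (hT i) j).mul ((h.holdG j).continuous hα)).integrable_of_hasCompactSupport
      ((hasCompactSupport_pd (hT i).2 j).mul_right)
  have hV : ∀ j, Integrable fun y => pd j (φ i) y * V j y := fun j =>
    integrable_pd_test_mul (hT i) (h.measV j) (h.bddV j) j
  have hg : Integrable fun y => g y * φ i y :=
    ((hT i).1.continuous.integrable_of_hasCompactSupport (hT i).2).bdd_mul (c := N)
      h.measg.aestronglyMeasurable (Eventually.of_forall fun y => by simpa using h.bddg y)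
  have heq : (∑ j, ∫ y, pd j (φ i) y * V j y) - (∑ j, ∫ y, pd j (φ i) y * G j y)
      - (∫ y, g y * φ i y) = 0 := by
    rw [← integral_finsetSum _ fun j _ => hV j, ← integral_finsetSum _ fun j _ => hG j,
      ← integral_sub (integrable_finsetSum _ fun j _ => hV j)
        (integrable_finsetSum _ fun j _ => hG j),
      ← integral_sub (f := fun y => (∑ j, pd j (φ i) y * V j y) - ∑ j, pd j (φ i) y * G j y)
        ((integrable_finsetSum _ fun j _ => hV j).sub
          (integrable_finsetSum _ fun j _ => hG j)) hg, ← h.eqn _ (hT i)]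
    refine integral_congr_ae (Eventually.of_forall fun y => ?_)
    simp only [sub_mul, Finset.sum_sub_distrib]
    simp only [mul_comm]
  have e2 : avg (pd i sig) g τ x = (τ ^ d)⁻¹ * ∫ y, g y * φ i y := by
    rw [avg_eq_scaled _ _ hτ]
    simp only [hφ, mul_comm]
  have e3 : ∀ f : Fin d → Euc d → ℝ, ∑ j, avg (pd j (pd i sig)) (f j) τ x
      = -(τ * (τ ^ d)⁻¹) * ∑ j, ∫ y, pd j (φ i) y * f j y := fun f => by
    rw [Finset.mul_sum]
    exact Finset.sum_congr rfl fun j _ => avg_pd_eq (hle (contDiff_pd_sig i)) hτ x j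
  rw [hsum, Finset.sum_congr rfl fun j _ => hswap j, flow, e3, e3, e2]
  have heq' : (∑ j, ∫ y, pd j (φ i) y * V j y)
      = (∑ j, ∫ y, pd j (φ i) y * G j y) + ∫ y, g y * φ i y := by linarith
  rw [heq']
  field_simp
  ring

theorem exists_grad_hold_bound [NeZero d] (hα : 0 < α) (hα1 : α < 1) :
    ∃ C : ℝ, 0 ≤ C ∧ ∀ (V G : Fin d → Euc d → ℝ) (g : Euc d → ℝ) (N : ℝ),
      IsWeakSol V G g α N → ∀ i x y, ContinuousAt (V i) x → ContinuousAt (V i) y →
        |V i x - V i y| ≤ C * N * ‖x - y‖ ^ α := by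
  have hle : ∀ {k : Euc d → ℝ}, ContDiff ℝ ∞ k → ContDiff ℝ 1 k := fun hk =>
    hk.of_le (WithTop.coe_le_coe.2 le_top)
  choose L hL0 hL using fun i j : Fin d =>
    exists_avg_shift (isKernel_pd_pd_sig i j) (hle (contDiff_pd_pd_sig i j))
  choose M hM0 hM using fun i : Fin d =>
    exists_avg_shift (isKernel_pd_sig i) (hle (contDiff_pd_sig i))
  obtain ⟨S, hS0, hS⟩ := exists_avg_shift (d := d) isKernel_rho (hle contDiff_rho)
  set A : Fin d → ℝ := fun i => (∑ j, ∫ z : Euc d, |pd j (pd i sig) z|)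
    + ∫ z : Euc d, |pd i sig z| with hA
  set B : Fin d → ℝ := fun i => 2 * ∑ j, L i j + 2 * M i with hB
  have hA0 : ∀ i, 0 ≤ A i := fun i => by
    refine add_nonneg (Finset.sum_nonneg fun j _ => ?_) ?_ <;>
      exact integral_nonneg fun z => abs_nonneg _
  have hB0 : ∀ i, 0 ≤ B i := fun i => by
    have := Finset.sum_nonneg fun j (_ : j ∈ Finset.univ) => hL0 i j
    have := hM0 i
    simp only [hB]; positivity
  set C := ∑ i, (2 * (A i / α) + B i / (1 - α)) + 2 * S + 2 with hC
  have hα1' : 0 < 1 - α := by linarith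
  have hterm : ∀ i, 2 * (A i / α) + B i / (1 - α) + 2 * S ≤ C := fun i => by
    have := Finset.single_le_sum (f := fun i => 2 * (A i / α) + B i / (1 - α))
      (fun j _ => by have := hA0 j; have := hB0 j; positivity) (Finset.mem_univ i)
    linarith
  have hC2 : 2 ≤ C := by
    have := Finset.sum_nonneg fun i (_ : i ∈ Finset.univ) =>
      (show 0 ≤ 2 * (A i / α) + B i / (1 - α) by have := hA0 i; have := hB0 i; positivity)
    linarith
  refine ⟨C, by linarith, fun V G g N h i x y hx hy => ?_⟩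
  have hN : 0 ≤ N := (abs_nonneg _).trans (h.bddg 0)
  set δ := ‖x - y‖ with hδ
  rcases eq_or_lt_of_le (norm_nonneg (x - y)) with hd | hd
  · rw [sub_eq_zero.1 (norm_eq_zero.1 hd.symm), sub_self, abs_zero]
    positivity
  rcases le_or_gt 1 δ with h1 | h1
  · calc |V i x - V i y| ≤ |V i x| + |V i y| := abs_sub _ _
      _ ≤ 2 * N := by linarith [h.bddV i x, h.bddV i y]
      _ ≤ C * N * δ ^ α := by
        refine le_trans ?_ (le_mul_of_one_le_right (by positivity) (Real.one_le_rpow h1 hα.le))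
        nlinarith
  have hflow : ∀ s, 0 < s → s ≤ 1 → ∀ z, |flow G g i s z| ≤ A i * N * s ^ (α - 1) := by
    intro s hs hs1 z
    have h1s : 1 ≤ s ^ (α - 1) := Real.one_le_rpow_of_pos_of_le_one_of_nonpos hs hs1 (by linarith)
    have e : ∀ j, |avg (pd j (pd i sig)) (G j) s z|
        ≤ (∫ w : Euc d, |pd j (pd i sig) w|) * (N * s ^ α) := fun j =>
      abs_avg_le_hold (isKernel_pd_pd_sig i j)
        (integral_pd_kernel (isKernel_pd_sig i) (hle (contDiff_pd_sig i)) j) hα hN (h.holdG j)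
        hs.le z
    have e' : |avg (pd i sig) g s z| ≤ (∫ w : Euc d, |pd i sig w|) * N :=
      abs_avg_le (isKernel_pd_sig i) fun w _ => h.bddg _
    calc |flow G g i s z| ≤ |s⁻¹ * ∑ j, avg (pd j (pd i sig)) (G j) s z|
          + |avg (pd i sig) g s z| := abs_sub _ _
      _ ≤ s⁻¹ * ((∑ j, ∫ w : Euc d, |pd j (pd i sig) w|) * (N * s ^ α))
          + (∫ w : Euc d, |pd i sig w|) * N * s ^ (α - 1) := by
        refine add_le_add ?_ (e'.trans (le_mul_of_one_le_right
          (mul_nonneg (integral_nonneg fun w => abs_nonneg _) hN) h1s))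
        rw [abs_mul, abs_of_pos (inv_pos.2 hs), Finset.sum_mul]
        exact mul_le_mul_of_nonneg_left
          ((Finset.abs_sum_le_sum_abs _ _).trans (Finset.sum_le_sum fun j _ => e j))
          (inv_nonneg.2 hs.le)
      _ = A i * N * s ^ (α - 1) := by
        rw [Real.rpow_sub_one hs.ne']
        simp only [hA]
        field_simp
  have hshift : ∀ s, δ ≤ s → s ≤ 1 →
      |flow G g i s x - flow G g i s y| ≤ B i * N * δ * s ^ (α - 1 - 1) := by
    intro s hs hs1
    have hs0 : 0 < s := lt_of_lt_of_le hd hs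
    set a : Euc d := s⁻¹ • (x - y) with ha
    have hx' : x = y + s • a := by simp [ha, smul_smul, mul_inv_cancel₀ hs0.ne']
    have han : ‖a‖ = s⁻¹ * δ := by
      rw [ha, norm_smul, Real.norm_eq_abs, abs_of_pos (inv_pos.2 hs0)]
    have ha1 : ‖a‖ ≤ 1 := by
      rw [han, inv_mul_le_iff₀ hs0, mul_one]
      exact hs
    have hbG : ∀ j z, ‖z‖ ≤ 2 → |G j (y - s • z) - G j y| ≤ 2 * N * s ^ α := fun j z hz => by
      refine (h.holdG j _ _).trans ?_
      rw [sub_sub_cancel_left, norm_neg, norm_smul, Real.norm_eq_abs, abs_of_pos hs0,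
        mul_comm 2 N, mul_assoc]
      refine mul_le_mul_of_nonneg_left ?_ hN
      rw [Real.mul_rpow hs0.le (norm_nonneg _), mul_comm]
      refine mul_le_mul_of_nonneg_right ?_ (by positivity)
      calc ‖z‖ ^ α ≤ (2 : ℝ) ^ α := Real.rpow_le_rpow (norm_nonneg _) hz hα.le
        _ ≤ (2 : ℝ) ^ (1 : ℝ) := Real.rpow_le_rpow_of_exponent_le one_le_two hα1.le
        _ = 2 := Real.rpow_one 2
    have hbg : ∀ z, ‖z‖ ≤ 2 → |g (y - s • z) - g y| ≤ 2 * N := fun z _ =>
      (abs_sub _ _).trans (by linarith [h.bddg (y - s • z), h.bddg y])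
    have e : ∀ j, |avg (pd j (pd i sig)) (G j) s x - avg (pd j (pd i sig)) (G j) s y|
        ≤ L i j * (2 * N * s ^ α) * ‖a‖ := fun j => by
      rw [hx']
      exact hL i j (G j) s _ y a ((h.holdG j).continuous hα).measurable ha1 (hbG j)
    have e' : |avg (pd i sig) g s x - avg (pd i sig) g s y| ≤ M i * (2 * N) * ‖a‖ := by
      rw [hx']
      exact hM i g s _ y a h.measg ha1 hbg
    have h1s : 1 ≤ s ^ (α - 1) :=
      Real.one_le_rpow_of_pos_of_le_one_of_nonpos hs0 hs1 (by linarith)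
    calc |flow G g i s x - flow G g i s y|
        = |s⁻¹ * (∑ j, (avg (pd j (pd i sig)) (G j) s x - avg (pd j (pd i sig)) (G j) s y))
            - (avg (pd i sig) g s x - avg (pd i sig) g s y)| := by
          simp only [flow, Finset.sum_sub_distrib]; ring_nf
      _ ≤ s⁻¹ * ((∑ j, L i j) * (2 * N * s ^ α) * ‖a‖)
          + M i * (2 * N) * ‖a‖ * s ^ (α - 1) := by
        refine (abs_sub _ _).trans (add_le_add ?_ (e'.trans (le_mul_of_one_le_right (by
          have := hM0 i; positivity) h1s)))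
        rw [abs_mul, abs_of_pos (inv_pos.2 hs0), Finset.sum_mul, Finset.sum_mul]
        exact mul_le_mul_of_nonneg_left
          ((Finset.abs_sum_le_sum_abs _ _).trans (Finset.sum_le_sum fun j _ => e j))
          (inv_nonneg.2 hs0.le)
      _ = B i * N * δ * s ^ (α - 1 - 1) := by
        rw [han, Real.rpow_sub_one hs0.ne' (α - 1), Real.rpow_sub_one hs0.ne' α]
        simp only [hB]
        field_simp
  have hI : ∀ z, ContinuousAt (V i) z →
      |avg rho (V i) δ z - V i z| ≤ A i / α * N * δ ^ α := by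
    intro z hz
    have hl : Tendsto (fun s => |avg rho (V i) δ z - avg rho (V i) s z|) (𝓝[>] 0)
        (𝓝 |avg rho (V i) δ z - V i z|) := by
      have h0 : Tendsto (fun s => avg rho (V i) s z) (𝓝[>] 0) (𝓝 (V i z)) := by
        have := tendsto_avg isKernel_rho (h.measV i) (h.bddV i) hz
        rw [integral_rho, one_mul] at this
        exact tendsto_nhdsWithin_of_tendsto_nhds this
      exact ((tendsto_const_nhds).sub h0).abs
    refine le_of_tendsto hl ?_
    filter_upwards [Ioo_mem_nhdsGT hd] with s hs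
    refine (abs_sub_le_of_deriv_bound hs.1 hs.2.le hα.ne'
      (fun r hr => h.hasDerivAt hα (lt_of_lt_of_le hs.1 hr.1) z i)
      (fun r hr => hflow r (lt_of_lt_of_le hs.1 hr.1) (hr.2.trans h1.le) z)).trans ?_
    rw [show A i * N * (δ ^ α - s ^ α) / α = A i / α * N * (δ ^ α - s ^ α) by ring]
    refine mul_le_mul_of_nonneg_left ?_ (by have := hA0 i; positivity)
    linarith [Real.rpow_nonneg hs.1.le α]
  have hII : |(avg rho (V i) 1 x - avg rho (V i) 1 y)
      - (avg rho (V i) δ x - avg rho (V i) δ y)| ≤ B i / (1 - α) * N * δ ^ α := by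
    refine (abs_sub_le_of_deriv_bound (f := fun s => avg rho (V i) s x - avg rho (V i) s y)
      (β := α - 1) (c := B i * N * δ) hd h1.le (by linarith)
      (fun r hr => (h.hasDerivAt hα (lt_of_lt_of_le hd hr.1) x i).sub
        (h.hasDerivAt hα (lt_of_lt_of_le hd hr.1) y i))
      (fun r hr => hshift r hr.1 hr.2)).trans ?_
    rw [Real.one_rpow, show B i * N * δ * (1 - δ ^ (α - 1)) / (α - 1)
      = B i / (1 - α) * N * (δ * δ ^ (α - 1) - δ) by
        rw [show α - 1 = -(1 - α) by ring, div_neg]; field_simp; ring]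
    refine mul_le_mul_of_nonneg_left ?_ (by have := hB0 i; positivity)
    rw [Real.rpow_sub_one hd.ne', mul_div_cancel₀ _ hd.ne']
    linarith
  have hIII : |avg rho (V i) 1 x - avg rho (V i) 1 y| ≤ 2 * S * N * δ ^ α := by
    have hx' : x = y + (1 : ℝ) • (x - y) := by simp
    have := hS (V i) 1 (2 * N) y (x - y) (h.measV i) h1.le fun z _ =>
      (abs_sub _ _).trans (by linarith [h.bddV i (y - (1 : ℝ) • z), h.bddV i y])
    rw [← hx'] at this
    refine this.trans ?_
    rw [show S * (2 * N) * ‖x - y‖ = 2 * S * N * δ by ring]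
    exact mul_le_mul_of_nonneg_left (Real.self_le_rpow_of_le_one hd.le h1.le hα1.le)
      (by positivity)
  have h2 := hterm i
  have hδα : 0 ≤ N * δ ^ α := by positivity
  calc |V i x - V i y| ≤ (2 * (A i / α) + B i / (1 - α) + 2 * S) * (N * δ ^ α) := by
        have a1 := abs_le.1 (hI x hx)
        have a2 := abs_le.1 (hI y hy)
        have a3 := abs_le.1 hII
        have a4 := abs_le.1 hIII
        exact abs_le.2 ⟨by linarith [a1.1, a2.2, a3.1, a4.1, a1.2, a2.1, a3.2, a4.2],
          by linarith [a1.1, a2.2, a3.1, a4.1, a1.2, a2.1, a3.2, a4.2]⟩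
    _ ≤ C * N * δ ^ α := by
        rw [mul_assoc C]
        exact mul_le_mul_of_nonneg_right h2 hδα

end Vale.Agent.P098.B5
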