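import Vale.Agent.P098.Regularity.B5.FullSpace

/-!
P098, block B5: the estimate for the weak Neumann problem on a half space, by a corrector for the
normal datum and even reflection.
-/

open MeasureTheory Filter Set
open scoped Topology ContDiff

namespace Vale.Agent.P098.B5

variable {d : ℕ}

/-- The upper half space in the direction `t`. -/
def upper (t : Fin d) : Set (Euc d) := {x | 0 < x t}

lemma isOpen_upper (t : Fin d) : IsOpen (upper t) :=
  isOpen_lt continuous_const (EuclideanSpace.proj (𝕜 := ℝ) t).continuous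

lemma measurableSet_upper (t : Fin d) : MeasurableSet (upper t) :=
  (isOpen_upper t).measurableSet

lemma bas_apply (i j : Fin d) : bas i j = if j = i then 1 else 0 := by
  simp [bas]

lemma norm_sq_sum (x : Euc d) : ‖x‖ ^ 2 = ∑ i, x i ^ 2 := by
  rw [EuclideanSpace.norm_sq_eq]; simp [sq_abs]

lemma norm_le_of_sq_le {x y : Euc d} (h : ∀ i, x i ^ 2 ≤ y i ^ 2) : ‖x‖ ≤ ‖y‖ := by
  have : ‖x‖ ^ 2 ≤ ‖y‖ ^ 2 := by
    rw [norm_sq_sum, norm_sq_sum]; exact Finset.sum_le_sum fun i _ => h i
  nlinarith [norm_nonneg x, norm_nonneg y]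

lemma abs_apply_le_norm (x : Euc d) (i : Fin d) : |x i| ≤ ‖x‖ := by
  simpa using PiLp.norm_apply_le x i

/-- The projection onto the boundary hyperplane. -/
noncomputable def flat (t : Fin d) (x : Euc d) : Euc d := x - x t • bas t

/-- The folding onto the upper half space. -/
noncomputable def fold (t : Fin d) (x : Euc d) : Euc d := x + (|x t| - x t) • bas t

/-- The reflection in the boundary hyperplane. -/
noncomputable def refl (t : Fin d) : Euc d ≃ₗᵢ[ℝ] Euc d where
  toFun x := x - (2 * x t) • bas t
  invFun x := x - (2 * x t) • bas t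
  map_add' x y := by simp [mul_add, add_smul]; abel
  map_smul' r x := by simp [smul_sub, smul_smul]; ring_nf
  left_inv x := by
    ext j
    simp only [PiLp.sub_apply, PiLp.smul_apply, smul_eq_mul, bas_apply, ite_true]
    split_ifs with h <;> [subst h; skip] <;> ring
  right_inv x := by
    ext j
    simp only [PiLp.sub_apply, PiLp.smul_apply, smul_eq_mul, bas_apply, ite_true]
    split_ifs with h <;> [subst h; skip] <;> ring
  norm_map' x := by
    refine le_antisymm (norm_le_of_sq_le fun i => ?_) (norm_le_of_sq_le fun i => ?_) <;>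
    · show _ ≤ _
      simp
      split_ifs with h
      · subst h; nlinarith
      · simp

lemma refl_apply (t : Fin d) (x : Euc d) (j : Fin d) :
    refl t x j = if j = t then -x t else x j := by
  show (x - (2 * x t) • bas t) j = _
  simp
  split_ifs with h
  · subst h; ring
  · simp

lemma flat_apply (t : Fin d) (x : Euc d) (j : Fin d) :
    flat t x j = if j = t then 0 else x j := by
  simp [flat]
  split_ifs with h
  · subst h; ring
  · simp

lemma fold_apply (t : Fin d) (x : Euc d) (j : Fin d) :
    fold t x j = if j = t then |x t| else x j := by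
  simp [fold]
  split_ifs with h
  · subst h; ring
  · simp

lemma norm_flat_sub (t : Fin d) (x y : Euc d) : ‖flat t x - flat t y‖ ≤ ‖x - y‖ := by
  refine norm_le_of_sq_le fun i => ?_
  simp only [PiLp.sub_apply, flat_apply]
  split_ifs with h
  · simpa using sq_nonneg _
  · rfl

lemma norm_fold_sub (t : Fin d) (x y : Euc d) : ‖fold t x - fold t y‖ ≤ ‖x - y‖ := by
  refine norm_le_of_sq_le fun i => ?_
  simp only [PiLp.sub_apply, fold_apply]
  split_ifs with h
  · subst h
    exact sq_le_sq.2 (abs_abs_sub_abs_le_abs_sub _ _)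
  · rfl

lemma continuous_flat (t : Fin d) : Continuous (flat t) :=
  continuous_id.sub ((EuclideanSpace.proj (𝕜 := ℝ) t).continuous.smul continuous_const)

lemma continuous_fold (t : Fin d) : Continuous (fold t) :=
  continuous_id.add (((EuclideanSpace.proj (𝕜 := ℝ) t).continuous.abs.sub
    (EuclideanSpace.proj (𝕜 := ℝ) t).continuous).smul continuous_const)

lemma fold_of_nonneg {t : Fin d} {x : Euc d} (h : 0 ≤ x t) : fold t x = x := by
  simp [fold, abs_of_nonneg h]

lemma fold_of_neg {t : Fin d} {x : Euc d} (h : x t < 0) : fold t x = refl t x := by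
  ext j; simp [fold_apply, refl_apply, abs_of_neg h]

lemma refl_refl (t : Fin d) (x : Euc d) : refl t (refl t x) = x := (refl t).left_inv x

/-- The sign of the `i`-th component of a reflected gradient. -/
noncomputable def sgnAt (t i : Fin d) (x : Euc d) : ℝ := if i = t ∧ x t < 0 then -1 else 1

lemma measurable_sgnAt (t i : Fin d) : Measurable (sgnAt t i) := by
  unfold sgnAt
  by_cases h : i = t
  · simp only [h, true_and]
    exact Measurable.ite (isOpen_lt (EuclideanSpace.proj (𝕜 := ℝ) t).continuous
      continuous_const).measurableSet measurable_const measurable_const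
  · simp [h]

lemma abs_sgnAt (t i : Fin d) (x : Euc d) : |sgnAt t i x| = 1 := by
  unfold sgnAt; split_ifs <;> simp

lemma sgnAt_of_nonneg {t : Fin d} {x : Euc d} (h : 0 ≤ x t) (i : Fin d) : sgnAt t i x = 1 := by
  simp [sgnAt, not_lt.2 h]

lemma sgnAt_refl {t : Fin d} {x : Euc d} (h : 0 < x t) (i : Fin d) :
    sgnAt t i (refl t x) = if i = t then -1 else 1 := by
  simp [sgnAt, refl_apply, h]

lemma pd_comp_refl {φ : Euc d → ℝ} {x : Euc d} (t i : Fin d)
    (hφ : DifferentiableAt ℝ φ (refl t x)) :
    pd i (fun y => φ (refl t y)) x = (if i = t then -1 else 1) * pd i φ (refl t x) := by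
  have e : refl t (bas i) = (if i = t then (-1 : ℝ) else 1) • bas i := by
    ext j
    simp only [refl_apply, bas_apply, PiLp.smul_apply, smul_eq_mul]
    by_cases hi : i = t
    · subst hi; by_cases hj : j = i <;> simp [hj]
    · by_cases hj : j = t
      · subst hj; simp [hi, Ne.symm hi]
      · simp [hi, hj]
  have h : fderiv ℝ (fun y => φ (refl t y)) x = (fderiv ℝ φ (refl t x)).comp
      (refl t).toContinuousLinearEquiv.toContinuousLinearMap :=
    (hφ.hasFDerivAt.comp x (refl t).toContinuousLinearEquiv.hasFDerivAt).fderiv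
  rw [pd, h]
  simp only [ContinuousLinearMap.comp_apply]
  show fderiv ℝ φ (refl t x) (refl t (bas i)) = _
  rw [e, map_smul]
  rfl

lemma hyperplane_null (t : Fin d) : volume {x : Euc d | x t = 0} = 0 := by
  refine Measure.addHaar_submodule volume
    (LinearMap.ker (EuclideanSpace.proj (𝕜 := ℝ) t).toLinearMap) fun h => ?_
  have : bas t ∈ LinearMap.ker (EuclideanSpace.proj (𝕜 := ℝ) t).toLinearMap := h ▸ Submodule.mem_top
  simp [bas] at this

/-- An integral over the space as an integral over the upper half space. -/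
lemma integral_fold {F : Euc d → ℝ} (hF : Integrable F) (t : Fin d) :
    ∫ x, F x = ∫ x in upper t, (F x + F (refl t x)) := by
  have hm := (refl t).measurePreserving
  have hR : MeasurableEmbedding (refl t) :=
    (refl t).toHomeomorph.measurableEmbedding
  have hpre : refl t ⁻¹' (upper t)ᶜ =ᵐ[volume] upper t := by
    have h0 : ∀ᵐ x : Euc d, x t ≠ 0 := by
      rw [ae_iff]; simpa using hyperplane_null t
    filter_upwards [h0] with x hx
    refine propext ⟨fun h => ?_, fun h => ?_⟩
    · have : 0 ≤ x t := by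
        have h' : ¬ 0 < refl t x t := h
        simpa [refl_apply] using h'
      exact lt_of_le_of_ne this (Ne.symm hx)
    · show ¬ 0 < refl t x t
      have h' : 0 < x t := h
      simp [refl_apply]; linarith
  have e : ∫ x in (upper t)ᶜ, F x = ∫ x in upper t, F (refl t x) := by
    rw [← hm.setIntegral_preimage_emb hR F (upper t)ᶜ]
    exact setIntegral_congr_set hpre
  rw [← integral_add_compl (measurableSet_upper t) hF, e,
    ← integral_add (f := fun x => F x) (g := fun x => F (refl t x)) hF.integrableOn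
      ((hm.integrable_comp_emb hR).2 hF).integrableOn]

lemma abs_avg_sub_le {k f : Euc d → ℝ} (hk : IsKernel k) {α K : ℝ} (hα : 0 < α) (hK : 0 ≤ K)
    (hf : Hold α K f) (τ τ' : ℝ) (x x' : Euc d) :
    |avg k f τ x - avg k f τ' x'| ≤ (∫ z, |k z|) * (K * (‖x - x'‖ + |τ - τ'|) ^ α) := by
  have hint : ∀ (s : ℝ) (y : Euc d), Integrable fun z => k z * f (y - s • z) := fun s y =>
    (hk.cont.mul ((hf.continuous hα).comp (by fun_prop))).integrable_of_hasCompactSupport
      hk.hasCompactSupport.mul_right
  rw [avg, avg, ← integral_sub (hint τ x) (hint τ' x'), ← integral_mul_const]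
  refine norm_integral_le_of_norm_le
    (f := fun z => k z * f (x - τ • z) - k z * f (x' - τ' • z))
    ((hk.cont.abs.integrable_of_hasCompactSupport hk.hasCompactSupport.norm).mul_const _)
    (Eventually.of_forall fun z => ?_)
  rw [← mul_sub, norm_mul, Real.norm_eq_abs, Real.norm_eq_abs]
  by_cases hz : ‖z‖ ≤ 1
  · refine mul_le_mul_of_nonneg_left ((hf _ _).trans (mul_le_mul_of_nonneg_left
      (Real.rpow_le_rpow (norm_nonneg _) ?_ hα.le) hK)) (abs_nonneg _)
    rw [show x - τ • z - (x' - τ' • z) = (x - x') - (τ - τ') • z by rw [sub_smul]; abel]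
    refine (norm_sub_le _ _).trans (add_le_add le_rfl ?_)
    rw [norm_smul, Real.norm_eq_abs]
    exact mul_le_of_le_one_right (abs_nonneg _) hz
  · simp [hk.supp z (not_le.1 hz)]

/-- The gradient of the corrector `x_t ρ_{x_t} * g₀`. -/
noncomputable def corrGrad (t : Fin d) (g₀ : Euc d → ℝ) (i : Fin d) (x : Euc d) : ℝ :=
  avg (pd i rho) g₀ (x t) x
    + (if i = t then avg rho g₀ (x t) x + avg (euler rho) g₀ (x t) x else 0)

/-- The corrector. -/
noncomputable def corr (t : Fin d) (g₀ : Euc d → ℝ) (x : Euc d) : ℝ :=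
  x t * avg rho g₀ (x t) x

lemma pd_corr (t : Fin d) {g₀ : Euc d → ℝ} (hm : Measurable g₀) {N : ℝ} (hN : ∀ y, |g₀ y| ≤ N)
    {x : Euc d} (hx : 0 < x t) :
    DifferentiableAt ℝ (corr t g₀) x ∧ ∀ i, pd i (corr t g₀) x = corrGrad t g₀ i x := by
  obtain ⟨L, hL, hap⟩ := hasFDerivAt_avg isKernel_rho
    (contDiff_rho.of_le (WithTop.coe_le_coe.2 le_top)) hm hN hx x
  set P := EuclideanSpace.proj (𝕜 := ℝ) t with hP
  have hc : HasFDerivAt (fun y : Euc d => (y t, y)) (P.prod (ContinuousLinearMap.id ℝ (Euc d))) x :=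
    P.hasFDerivAt.prodMk (hasFDerivAt_id x)
  have hA := HasFDerivAt.comp (f := fun y : Euc d => (y t, y))
    (g := fun p : ℝ × Euc d => avg rho g₀ p.1 p.2) x hL hc
  have h := P.hasFDerivAt (x := x) |>.mul hA
  refine ⟨h.differentiableAt, fun i => ?_⟩
  have e : fderiv ℝ (corr t g₀) x = _ := h.fderiv
  rw [pd, e]
  have hp : ∀ y : Euc d, P y = y t := fun _ => rfl
  simp only [add_apply, smul_apply, ContinuousLinearMap.comp_apply, ContinuousLinearMap.prod_apply,
    ContinuousLinearMap.id_apply, hap, hp, Function.comp_apply, smul_eq_mul, bas_apply,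
    ite_mul, one_mul, zero_mul, Finset.sum_ite_eq', Finset.mem_univ, if_true, corrGrad]
  by_cases hti : i = t
  · subst hti; simp only [if_true]; field_simp; ring
  · simp only [hti, Ne.symm hti, if_false]; field_simp; ring

lemma hold_corrGrad (t i : Fin d) {g₀ : Euc d → ℝ} {α N : ℝ} (hα : 0 < α) (hα1 : α ≤ 1)
    (hN : 0 ≤ N) (h : Hold α N g₀) :
    Hold α (2 * ((∫ z : Euc d, |pd i rho z|) + (∫ z : Euc d, |rho z|)
      + ∫ z : Euc d, |euler rho z|) * N) (corrGrad t g₀ i) := by
  intro x y
  set r := ‖x - y‖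
  have hd : |x t - y t| ≤ r := by simpa using abs_apply_le_norm (x - y) t
  have h2 : (r + |x t - y t|) ^ α ≤ 2 * r ^ α := by
    calc (r + |x t - y t|) ^ α ≤ (2 * r) ^ α :=
          Real.rpow_le_rpow (by positivity) (by linarith) hα.le
      _ = (2 : ℝ) ^ α * r ^ α := Real.mul_rpow (by norm_num) (norm_nonneg _)
      _ ≤ 2 * r ^ α := by
          refine mul_le_mul_of_nonneg_right ?_ (by positivity)
          simpa using Real.rpow_le_rpow_of_exponent_le one_le_two hα1
  have hb : ∀ k : Euc d → ℝ, IsKernel k →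
      |avg k g₀ (x t) x - avg k g₀ (y t) y| ≤ (∫ z, |k z|) * (N * (2 * r ^ α)) := fun k hk =>
    (abs_avg_sub_le hk hα hN h _ _ _ _).trans (mul_le_mul_of_nonneg_left
      (mul_le_mul_of_nonneg_left h2 hN) (integral_nonneg fun z => abs_nonneg _))
  have h1 := hb _ (isKernel_rho.pd (contDiff_rho.of_le (WithTop.coe_le_coe.2 le_top)) i)
  have h3 := hb _ isKernel_rho
  have h4 := hb _ (isKernel_rho.euler (contDiff_rho.of_le (WithTop.coe_le_coe.2 le_top)))
  simp only [corrGrad]
  have a1 := abs_le.1 h1
  have a3 := abs_le.1 h3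
  have a4 := abs_le.1 h4
  split_ifs with hi
  · exact abs_le.2 ⟨by linarith [a1.1, a3.1, a4.1], by linarith [a1.2, a3.2, a4.2]⟩
  · exact abs_le.2 ⟨by linarith [a1.1, a3.2, a4.2, a3.1, a4.1],
      by linarith [a1.2, a3.1, a4.1, a3.2, a4.2]⟩

lemma abs_corrGrad_le (t i : Fin d) {g₀ : Euc d → ℝ} {N : ℝ} (hN : ∀ y, |g₀ y| ≤ N) (x : Euc d) :
    |corrGrad t g₀ i x| ≤ ((∫ z : Euc d, |pd i rho z|) + (∫ z : Euc d, |rho z|)
      + ∫ z : Euc d, |euler rho z|) * N := by
  have hN0 : 0 ≤ N := (abs_nonneg _).trans (hN x)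
  have h1 : |avg (pd i rho) g₀ (x t) x| ≤ _ := abs_avg_le
    (isKernel_rho.pd (contDiff_rho.of_le (WithTop.coe_le_coe.2 le_top)) i) fun z _ => hN _
  have h2 : |avg rho g₀ (x t) x| ≤ _ := abs_avg_le isKernel_rho fun z _ => hN _
  have h3 : |avg (euler rho) g₀ (x t) x| ≤ _ := abs_avg_le
    (isKernel_rho.euler (contDiff_rho.of_le (WithTop.coe_le_coe.2 le_top))) fun z _ => hN _
  have a1 := abs_le.1 h1
  have a2 := abs_le.1 h2
  have a3 := abs_le.1 h3
  simp only [corrGrad]
  split_ifs with hi
  · exact abs_le.2 ⟨by linarith, by linarith⟩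
  · exact abs_le.2 ⟨by linarith, by linarith⟩

lemma corrGrad_flat [NeZero d] (t : Fin d) (g₀ : Euc d → ℝ) {x : Euc d} (hx : x t = 0) :
    corrGrad t g₀ t x = g₀ x := by
  have e : ∀ k : Euc d → ℝ, avg k g₀ (x t) x = (∫ z, k z) * g₀ x := fun k => by
    simp [avg, hx, integral_mul_const]
  simp [corrGrad, e, integral_rho, integral_euler_rho,
    integral_pd_kernel isKernel_rho (contDiff_rho.of_le (WithTop.coe_le_coe.2 le_top))]

/-- Data of a weak Neumann problem on the upper half space with bound `N`. -/
structure IsNeumann (t : Fin d) (u : Euc d → ℝ) (du G : Fin d → Euc d → ℝ) (g : Euc d → ℝ)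
    (α N : ℝ) : Prop where
  lip : ∀ x y, 0 ≤ x t → 0 ≤ y t → |u x - u y| ≤ N * ‖x - y‖
  diff : ∀ x ∈ upper t, DifferentiableAt ℝ u x ∧ ∀ i, pd i u x = du i x
  contdu : ∀ i, Continuous (du i)
  bdddu : ∀ i x, |du i x| ≤ N
  measg : Measurable g
  bddg : ∀ x, |g x| ≤ N
  holdG : ∀ i, Hold α N (G i)
  bddG : ∀ i x, |G i x| ≤ N
  eqn : ∀ φ, IsTestFn φ →
    ∫ x in upper t, (∑ j, (du j x - G j x) * pd j φ x) - g x * φ x = 0

theorem exists_neumann_bound [NeZero d] (t : Fin d) {α : ℝ} (hα : 0 < α) (hα1 : α < 1) :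
    ∃ C : ℝ, 0 ≤ C ∧ ∀ u du G g N, IsNeumann t u du G g α N →
      ∀ i, ∀ x ∈ upper t, ∀ y ∈ upper t, |du i x - du i y| ≤ C * N * ‖x - y‖ ^ α := by
  obtain ⟨C₀, hC₀, hfull⟩ := exists_grad_hold_bound (d := d) hα hα1
  set S : Fin d → ℝ := fun i => (∫ z : Euc d, |pd i rho z|) + (∫ z : Euc d, |rho z|)
    + ∫ z : Euc d, |euler rho z| with hS
  have hS0 : ∀ i, 0 ≤ S i := fun i => by
    simp only [hS]
    exact add_nonneg (add_nonneg (integral_nonneg fun z => abs_nonneg _)
      (integral_nonneg fun z => abs_nonneg _)) (integral_nonneg fun z => abs_nonneg _)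
  set T := ∑ i, S i with hT
  have hT0 : 0 ≤ T := Finset.sum_nonneg fun i _ => hS0 i
  have hST : ∀ i, S i ≤ T := fun i => Finset.single_le_sum (fun j _ => hS0 j) (Finset.mem_univ i)
  refine ⟨C₀ * (4 * T + 2) + 2 * T, by positivity, fun u du G g N h i x hx y hy => ?_⟩
  have hN : 0 ≤ N := (abs_nonneg _).trans (h.bddg 0)
  set g₀ : Euc d → ℝ := fun z => G t (flat t z) with hg₀
  have hg₀h : Hold α N g₀ := fun a b => (h.holdG t _ _).trans
    (mul_le_mul_of_nonneg_left (Real.rpow_le_rpow (norm_nonneg _) (norm_flat_sub t a b) hα.le) hN)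
  have hg₀b : ∀ z, |g₀ z| ≤ N := fun z => h.bddG t _
  have hg₀m : Measurable g₀ := (hg₀h.continuous hα).measurable
  set Φ := corrGrad t g₀ with hΦ
  have hΦh : ∀ j, Hold α (2 * T * N) (Φ j) := fun j a b =>
    (hold_corrGrad t j hα hα1.le hN hg₀h a b).trans
      (mul_le_mul_of_nonneg_right (mul_le_mul_of_nonneg_right
        (mul_le_mul_of_nonneg_left (hST j) (by norm_num)) hN) (by positivity))
  have hΦb : ∀ j a, |Φ j a| ≤ T * N := fun j a =>
    (abs_corrGrad_le t j hg₀b a).trans (mul_le_mul_of_nonneg_right (hST j) hN)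
  set v : Euc d → ℝ := fun a => u a - corr t g₀ a with hv
  set W : Fin d → Euc d → ℝ := fun j a =>
    sgnAt t j a * (du j (fold t a) - Φ j (fold t a)) with hW
  set G' : Fin d → Euc d → ℝ := fun j a =>
    sgnAt t j a * (G j (fold t a) - Φ j (fold t a)) with hG'
  -- the reflected function is Lipschitz
  set L : ℝ := N + d * (T * N) with hL
  have hL0 : 0 ≤ L := by positivity
  have hcorr : ∀ a b, 0 ≤ a t → 0 ≤ b t →
      |corr t g₀ a - corr t g₀ b| ≤ d * (T * N) * ‖a - b‖ := by
    have hcont : Continuous (corr t g₀) := by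
      refine (EuclideanSpace.proj (𝕜 := ℝ) t).continuous.mul
        ((show Hold α (2 * (∫ z : Euc d, |rho z|) * N) fun a => avg rho g₀ (a t) a from
          fun a b => ?_).continuous hα)
      refine (abs_avg_sub_le isKernel_rho hα hN hg₀h _ _ _ _).trans ?_
      rw [show 2 * (∫ z : Euc d, |rho z|) * N * ‖a - b‖ ^ α
          = (∫ z : Euc d, |rho z|) * (N * (2 * ‖a - b‖ ^ α)) by ring]
      refine mul_le_mul_of_nonneg_left (mul_le_mul_of_nonneg_left ?_ hN)
        (integral_nonneg fun z => abs_nonneg _)
      have hd : |a t - b t| ≤ ‖a - b‖ := by simpa using abs_apply_le_norm (a - b) t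
      calc (‖a - b‖ + |a t - b t|) ^ α ≤ (2 * ‖a - b‖) ^ α :=
            Real.rpow_le_rpow (by positivity) (by linarith) hα.le
        _ = (2 : ℝ) ^ α * ‖a - b‖ ^ α := Real.mul_rpow (by norm_num) (norm_nonneg _)
        _ ≤ 2 * ‖a - b‖ ^ α := by
            refine mul_le_mul_of_nonneg_right ?_ (by positivity)
            simpa using Real.rpow_le_rpow_of_exponent_le one_le_two hα1.le
    have hconv : Convex ℝ (upper t) := by
      exact convex_halfSpace_gt (f := fun a : Euc d => a t)
        ⟨fun _ _ => by simp, fun _ _ => by simp⟩ 0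
    have hin : ∀ a ∈ upper t, ∀ b ∈ upper t,
        |corr t g₀ a - corr t g₀ b| ≤ d * (T * N) * ‖a - b‖ := by
      intro a ha b hb
      refine hconv.norm_image_sub_le_of_norm_fderiv_le (f := corr t g₀) (fun z hz =>
        (pd_corr t hg₀m hg₀b hz).1) (fun z hz => ?_) hb ha
      refine ContinuousLinearMap.opNorm_le_bound _ (by positivity) fun w => ?_
      rw [clm_apply_eq, Real.norm_eq_abs]
      refine (Finset.abs_sum_le_sum_abs _ _).trans ?_
      calc ∑ j, |w j * fderiv ℝ (corr t g₀) z (bas j)| ≤ ∑ _j : Fin d, ‖w‖ * (T * N) := by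
            refine Finset.sum_le_sum fun j _ => ?_
            rw [abs_mul]
            refine mul_le_mul (abs_apply_le_norm w j) ?_ (abs_nonneg _) (norm_nonneg _)
            have := (pd_corr t hg₀m hg₀b hz).2 j
            rw [pd] at this
            rw [show fderiv ℝ (corr t g₀) z (bas j) = Φ j z from this]
            exact hΦb j z
        _ = d * (T * N) * ‖w‖ := by simp; ring
    intro a b ha hb
    have ht : Tendsto (fun ε : ℝ => |corr t g₀ (a + ε • bas t) - corr t g₀ (b + ε • bas t)|)
        (𝓝[>] 0) (𝓝 |corr t g₀ a - corr t g₀ b|) := by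
      refine tendsto_nhdsWithin_of_tendsto_nhds ?_
      have := (show Continuous fun ε : ℝ =>
        |corr t g₀ (a + ε • bas t) - corr t g₀ (b + ε • bas t)| by fun_prop).tendsto 0
      simpa using this
    refine le_of_tendsto ht ?_
    filter_upwards [self_mem_nhdsWithin] with ε hε
    have hε' : (0 : ℝ) < ε := hε
    have hm : ∀ c : Euc d, 0 ≤ c t → c + ε • bas t ∈ upper t := fun c hc => by
      show 0 < (c + ε • bas t) t
      simp; linarith
    simpa using hin _ (hm a ha) _ (hm b hb)
  have hvl : ∀ a b, |v (fold t a) - v (fold t b)| ≤ L * ‖a - b‖ := fun a b => by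
    have hnn : ∀ c, 0 ≤ fold t c t := fun c => by rw [fold_apply, if_pos rfl]; exact abs_nonneg _
    have h1 := h.lip _ _ (hnn a) (hnn b)
    have h2 := hcorr _ _ (hnn a) (hnn b)
    have h3 := norm_fold_sub t a b
    calc |v (fold t a) - v (fold t b)| ≤ |u (fold t a) - u (fold t b)|
          + |corr t g₀ (fold t a) - corr t g₀ (fold t b)| := by
          simp only [hv]; exact abs_le.2 ⟨by
            linarith [neg_abs_le (u (fold t a) - u (fold t b)),
              le_abs_self (corr t g₀ (fold t a) - corr t g₀ (fold t b))], by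
            linarith [le_abs_self (u (fold t a) - u (fold t b)),
              neg_abs_le (corr t g₀ (fold t a) - corr t g₀ (fold t b))]⟩
      _ ≤ L * ‖fold t a - fold t b‖ := by linarith
      _ ≤ L * ‖a - b‖ := mul_le_mul_of_nonneg_left h3 hL0
  have hlip : LipschitzWith L.toNNReal fun a => v (fold t a) :=
    LipschitzWith.of_dist_le_mul fun a b => by
      rw [Real.dist_eq, dist_eq_norm, Real.coe_toNNReal _ hL0]
      exact hvl a b
  have hderiv : ∀ j a, a t ≠ 0 → lineDeriv ℝ (fun z => v (fold t z)) a (bas j) = W j a := by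
    intro j a ha
    rcases lt_or_gt_of_ne ha with hneg | hpos
    · have hmem : refl t a ∈ upper t := by
        show 0 < refl t a t
        rw [refl_apply, if_pos rfl]; linarith
      have hdv : DifferentiableAt ℝ v (refl t a) :=
        (h.diff _ hmem).1.sub (pd_corr t hg₀m hg₀b hmem).1
      have heq : (fun z => v (fold t z)) =ᶠ[𝓝 a] fun z => v (refl t z) := by
        filter_upwards [(isOpen_lt (EuclideanSpace.proj (𝕜 := ℝ) t).continuous
          continuous_const).mem_nhds hneg] with z hz
        rw [fold_of_neg hz]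
      have hdc : DifferentiableAt ℝ (fun z => v (refl t z)) a :=
        hdv.comp a (refl t).toContinuousLinearEquiv.differentiableAt
      rw [heq.lineDeriv_eq, hdc.lineDeriv_eq_fderiv]
      show pd j (fun z => v (refl t z)) a = _
      rw [pd_comp_refl t j hdv, pd]
      simp only [hW, fold_of_neg hneg, sgnAt, hneg, and_true]
      congr 1
      rw [show v = fun z => u z - corr t g₀ z from rfl,
        fderiv_fun_sub (h.diff _ hmem).1 (pd_corr t hg₀m hg₀b hmem).1, sub_apply]
      exact congrArg₂ (· - ·) ((h.diff _ hmem).2 j) ((pd_corr t hg₀m hg₀b hmem).2 j)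
    · have heq : (fun z => v (fold t z)) =ᶠ[𝓝 a] v := by
        filter_upwards [(isOpen_upper t).mem_nhds hpos] with z hz
        rw [fold_of_nonneg (le_of_lt hz)]
      have hdv : DifferentiableAt ℝ v a := (h.diff _ hpos).1.sub (pd_corr t hg₀m hg₀b hpos).1
      rw [heq.lineDeriv_eq, hdv.lineDeriv_eq_fderiv, show v = fun z => u z - corr t g₀ z from rfl,
        fderiv_fun_sub (h.diff _ hpos).1 (pd_corr t hg₀m hg₀b hpos).1, sub_apply]
      simp only [hW, sgnAt_of_nonneg hpos.le, one_mul, fold_of_nonneg hpos.le]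
      exact congrArg₂ (· - ·) ((h.diff _ hpos).2 j) ((pd_corr t hg₀m hg₀b hpos).2 j)
  have hN' : ∀ {q : ℝ}, q ≤ N + T * N → q ≤ (4 * T + 2) * N := fun hq => by
    nlinarith [mul_nonneg hT0 hN]
  have hsol : IsWeakSol W G' (fun a => g (fold t a)) α ((4 * T + 2) * N) := by
    refine ⟨fun j => ?_, h.measg.comp (continuous_fold t).measurable, fun j a => ?_,
      fun a => hN' (by linarith [h.bddg (fold t a), mul_nonneg hT0 hN]), fun j a b => ?_, ?_, ?_⟩
    · exact (measurable_sgnAt t j).mul (((h.contdu j).comp (continuous_fold t)).sub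
        (((hΦh j).continuous hα).comp (continuous_fold t))).measurable
    · refine hN' ?_
      simp only [hW, abs_mul, abs_sgnAt, one_mul]
      exact (abs_sub _ _).trans (by linarith [h.bdddu j (fold t a), hΦb j (fold t a)])
    · have hbase : ∀ p q : Euc d, |(G j p - Φ j p) - (G j q - Φ j q)|
          ≤ (2 * T + 1) * N * ‖p - q‖ ^ α := fun p q => by
        have a1 := abs_le.1 (h.holdG j p q)
        have a2 := abs_le.1 (hΦh j p q)
        exact abs_le.2 ⟨by linarith [a1.1, a2.2], by linarith [a1.2, a2.1]⟩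
      by_cases hs : sgnAt t j a = sgnAt t j b
      · simp only [hG', hs, ← mul_sub, abs_mul, abs_sgnAt, one_mul]
        refine (hbase _ _).trans (mul_le_mul ?_ (Real.rpow_le_rpow (norm_nonneg _)
          (norm_fold_sub t a b) hα.le) (by positivity) (by positivity))
        nlinarith [mul_nonneg hT0 hN]
      · have hjt : j = t := by
          by_contra hne
          simp [sgnAt, hne] at hs
        subst j
        have hab : |a t| ≤ ‖a - b‖ ∧ |b t| ≤ ‖a - b‖ := by
          have hd : |a t - b t| ≤ ‖a - b‖ := by simpa using abs_apply_le_norm (a - b) t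
          have hd' := abs_le.1 hd
          simp only [sgnAt, true_and] at hs
          by_cases ha : a t < 0 <;> by_cases hb : b t < 0 <;> simp [ha, hb] at hs
          · exact ⟨abs_le.2 ⟨by linarith [not_lt.1 hb], by linarith⟩,
              abs_le.2 ⟨by linarith [not_lt.1 hb], by linarith [not_lt.1 hb]⟩⟩
          · exact ⟨abs_le.2 ⟨by linarith [not_lt.1 ha], by linarith [not_lt.1 ha]⟩,
              abs_le.2 ⟨by linarith [not_lt.1 ha], by linarith⟩⟩
        have hz : ∀ c : Euc d, |sgnAt t t c * (G t (fold t c) - Φ t (fold t c))|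
            ≤ (2 * T + 1) * N * |c t| ^ α := fun c => by
          have e0 : flat t c t = 0 := by simp [flat_apply]
          have e1 : G t (flat t c) - Φ t (flat t c) = 0 := by
            have ef : flat t (flat t c) = flat t c := by
              ext k; simp only [flat_apply]; split_ifs <;> rfl
            rw [hΦ, corrGrad_flat t g₀ e0, hg₀]
            simp [ef]
          have := hbase (fold t c) (flat t c)
          rw [e1, sub_zero] at this
          rw [abs_mul, abs_sgnAt, one_mul]
          refine this.trans (mul_le_mul_of_nonneg_left (Real.rpow_le_rpow (norm_nonneg _) ?_ hα.le)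
            (by positivity))
          rw [fold, flat, show c + (|c t| - c t) • bas t - (c - c t • bas t) = |c t| • bas t by
            rw [sub_smul]; abel, norm_smul, PiLp.norm_single, norm_one, mul_one, Real.norm_eq_abs,
            abs_abs]
        simp only [hG']
        refine (abs_sub _ _).trans ((add_le_add (hz a) (hz b)).trans ?_)
        have ha' := Real.rpow_le_rpow (abs_nonneg _) hab.1 hα.le
        have hb' := Real.rpow_le_rpow (abs_nonneg _) hab.2 hα.le
        have hP : 0 ≤ ‖a - b‖ ^ α := by positivity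
        have hTN : 0 ≤ (2 * T + 1) * N := by positivity
        nlinarith [mul_le_mul_of_nonneg_left ha' hTN, mul_le_mul_of_nonneg_left hb' hTN]
    · intro φ hφ i' j'
      have hφ1 : ∀ k, ContDiff ℝ 1 (pd k φ) := fun k =>
        contDiff_pd (hφ.1.of_le (WithTop.coe_le_coe.2 le_top)) k
      have key : ∀ p q, ∫ a, pd p φ a * W q a
          = ∫ a, -pd q (pd p φ) a * v (fold t a) := fun p q => by
        obtain ⟨D, hD⟩ := (hφ1 p).lipschitzWith_of_hasCompactSupport
          (hasCompactSupport_pd hφ.2 p) one_ne_zero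
        have hI := hlip.integral_lineDeriv_mul_eq (μ := volume) hD (hasCompactSupport_pd hφ.2 p)
          (bas q)
        have e : ∀ a, lineDeriv ℝ (pd p φ) a (-bas q) = -pd q (pd p φ) a := fun a => by
          rw [((hφ1 p).differentiable one_ne_zero a).lineDeriv_eq_fderiv, map_neg]
          rfl
        simp only [e] at hI
        rw [← hI]
        refine integral_congr_ae ?_
        have h0 : ∀ᵐ a : Euc d, a t ≠ 0 := by rw [ae_iff]; simpa using hyperplane_null t
        filter_upwards [h0] with a ha
        rw [hderiv q a ha, mul_comm]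
      rw [key i' j', key j' i']
      refine integral_congr_ae (Eventually.of_forall fun a => ?_)
      simp only [pd_pd_comm ((hφ.1.of_le (WithTop.coe_le_coe.2 le_top)).contDiffAt) j' i']
    · intro φ hφ
      set F : Euc d → ℝ :=
        fun a => (∑ j, (W j a - G' j a) * pd j φ a) - g (fold t a) * φ a with hF
      have hF' : ∀ a, F a = (∑ j, sgnAt t j a * (du j (fold t a) - G j (fold t a)) * pd j φ a)
          - g (fold t a) * φ a := fun a => by
        simp only [hF, hW, hG']
        congr 1
        exact Finset.sum_congr rfl fun j _ => by ring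
      have hFi : Integrable F := by
        rw [funext hF']
        refine Integrable.sub (integrable_finsetSum _ fun j _ => ?_) ?_
        · refine ((continuous_pd_test hφ j).integrable_of_hasCompactSupport
            (hasCompactSupport_pd hφ.2 j)).bdd_mul (c := 2 * N) ?_ (Eventually.of_forall fun a => ?_)
          · exact ((measurable_sgnAt t j).mul (((h.contdu j).sub
              ((h.holdG j).continuous hα)).comp (continuous_fold t)).measurable).aestronglyMeasurable
          · rw [norm_mul, Real.norm_eq_abs, abs_sgnAt, one_mul, Real.norm_eq_abs]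
            exact (abs_sub _ _).trans (by linarith [h.bdddu j (fold t a), h.bddG j (fold t a)])
        · exact (hφ.1.continuous.integrable_of_hasCompactSupport hφ.2).bdd_mul (c := N)
            (h.measg.comp (continuous_fold t).measurable).aestronglyMeasurable
            (Eventually.of_forall fun a => by simpa using h.bddg (fold t a))
      rw [integral_fold hFi t]
      have hφR : IsTestFn fun a => φ (refl t a) :=
        ⟨hφ.1.comp (refl t).toContinuousLinearEquiv.contDiff,
          hφ.2.comp_homeomorph (refl t).toHomeomorph⟩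
      have hsum : IsTestFn fun a => φ a + φ (refl t a) :=
        ⟨hφ.1.add hφR.1, hφ.2.add hφR.2⟩
      rw [← h.eqn _ hsum]
      refine setIntegral_congr_fun (measurableSet_upper t) fun a ha => ?_
      have ha' : 0 < a t := ha
      have hr : refl t a t < 0 := by rw [refl_apply, if_pos rfl]; linarith
      have hpd : ∀ j, pd j (fun z => φ z + φ (refl t z)) a
          = pd j φ a + (if j = t then -1 else 1) * pd j φ (refl t a) := fun j => by
        rw [← pd_comp_refl t j (hφ.1.differentiable (by simp) _), pd,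
          fderiv_fun_add (hφ.1.differentiable (by simp) a)
            (hφR.1.differentiable (by simp) a)]
        rfl
      simp only [hF', hpd, fold_of_nonneg ha'.le, fold_of_neg hr, refl_refl,
        sgnAt_of_nonneg ha'.le, sgnAt_refl ha', mul_add, Finset.sum_add_distrib, one_mul]
      have e : ∀ j, (if j = t then (-1 : ℝ) else 1) * (du j a - G j a) * pd j φ (refl t a)
          = (du j a - G j a) * ((if j = t then -1 else 1) * pd j φ (refl t a)) := fun j => by ring
      simp only [e]
      ring
  have hcW : ∀ a ∈ upper t, ContinuousAt (W i) a := fun a ha => by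
    have heq : (fun z => du i z - Φ i z) =ᶠ[𝓝 a] W i := by
      filter_upwards [(isOpen_upper t).mem_nhds ha] with z hz
      simp [hW, sgnAt_of_nonneg (le_of_lt hz), fold_of_nonneg (le_of_lt hz)]
    exact (((h.contdu i).sub ((hΦh i).continuous hα)).continuousAt).congr heq
  have hmain := hfull W G' _ _ hsol i x y (hcW x hx) (hcW y hy)
  have hWx : W i x = du i x - Φ i x := by
    simp [hW, sgnAt_of_nonneg (le_of_lt hx), fold_of_nonneg (le_of_lt hx)]
  have hWy : W i y = du i y - Φ i y := by
    simp [hW, sgnAt_of_nonneg (le_of_lt hy), fold_of_nonneg (le_of_lt hy)]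
  rw [hWx, hWy] at hmain
  have a1 := abs_le.1 hmain
  have a2 := abs_le.1 (hΦh i x y)
  exact abs_le.2 ⟨by linarith [a1.1, a2.1], by linarith [a1.2, a2.2]⟩

end Vale.Agent.P098.B5
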