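import Vale.Agent.P098.Regularity.B5.FullSpace

/-!
P098, block B5: the mean value identity of the mollifier for harmonic functions and the bounds on
their first and second derivatives.
-/

open MeasureTheory Filter Set
open scoped Topology ContDiff

namespace Vale.Agent.P098.B5

variable {d : ℕ}

lemma contDiffAt_pd_of_contDiffOn {U : Set (Euc d)} {u : Euc d → ℝ} (hU : IsOpen U)
    (hu : ContDiffOn ℝ ∞ u U) (i : Fin d) : ContDiffOn ℝ ∞ (pd i u) U :=
  ((hu.fderiv_of_isOpen hU (m := ∞) le_rfl).clm_apply contDiffOn_const)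

lemma contDiff_mul_of_tsupport {U : Set (Euc d)} {ψ f : Euc d → ℝ} (hU : IsOpen U)
    (hψ : ContDiff ℝ 1 ψ) (hs : tsupport ψ ⊆ U) (hf : ContDiffOn ℝ 1 f U) :
    ContDiff ℝ 1 fun y => ψ y * f y := by
  refine contDiff_iff_contDiffAt.2 fun y => ?_
  by_cases hy : y ∈ U
  · exact hψ.contDiffAt.mul (hf.contDiffAt (hU.mem_nhds hy))
  · refine (contDiffAt_const (c := (0 : ℝ))).congr_of_eventuallyEq ?_
    filter_upwards [notMem_tsupport_iff_eventuallyEq.1 fun h => hy (hs h)] with z hz
    simp [hz]

lemma integral_mul_lap_eq_zero {U : Set (Euc d)} {ψ u : Euc d → ℝ} (hU : IsOpen U)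
    (hψ : IsTestFn ψ) (hs : tsupport ψ ⊆ U) (hu : ContDiffOn ℝ ∞ u U)
    (hh : ∀ y ∈ U, ∑ i, pd i (pd i u) y = 0) :
    ∫ y, (∑ i, pd i (pd i ψ) y) * u y = 0 := by
  have h1 : ∀ i, ContDiff ℝ 1 (pd i ψ) := fun i =>
    contDiff_pd (hψ.1.of_le (WithTop.coe_le_coe.2 le_top)) i
  have hps : ∀ i, tsupport (pd i ψ) ⊆ U := fun i =>
    ((tsupport_fderiv_apply_subset ℝ _)).trans hs
  have hu1 : ContDiffOn ℝ 1 u U := hu.of_le (WithTop.coe_le_coe.2 le_top)
  have hψ1 : ContDiff ℝ 1 ψ := hψ.1.of_le (WithTop.coe_le_coe.2 le_top)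
  have hf : ∀ i, ContDiff ℝ 1 fun y => pd i ψ y * u y - ψ y * pd i u y := fun i =>
    (contDiff_mul_of_tsupport hU (h1 i) (hps i) hu1).sub
      (contDiff_mul_of_tsupport hU hψ1 hs
        ((contDiffAt_pd_of_contDiffOn hU hu i).of_le (WithTop.coe_le_coe.2 le_top)))
  have hfs : ∀ i, HasCompactSupport fun y => pd i ψ y * u y - ψ y * pd i u y := fun i =>
    ((hasCompactSupport_pd hψ.2 i).mul_right).sub hψ.2.mul_right
  have hint : ∀ i, Integrable (pd i fun y => pd i ψ y * u y - ψ y * pd i u y) := fun i =>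
    (continuous_pd (hf i) i).integrable_of_hasCompactSupport (hasCompactSupport_pd (hfs i) i)
  calc ∫ y, (∑ i, pd i (pd i ψ) y) * u y
      = ∫ y, ∑ i, pd i (fun y => pd i ψ y * u y - ψ y * pd i u y) y := by
        refine integral_congr_ae (Eventually.of_forall fun y => ?_)
        by_cases hy : y ∈ U
        · have hud : DifferentiableAt ℝ u y :=
            (hu1.contDiffAt (hU.mem_nhds hy)).differentiableAt one_ne_zero
          have hpd : ∀ i, DifferentiableAt ℝ (pd i u) y := fun i =>
            ((contDiffAt_pd_of_contDiffOn hU hu i).contDiffAt (hU.mem_nhds hy)).differentiableAt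
              (by simp)
          have e : ∀ i, pd i (fun y => pd i ψ y * u y - ψ y * pd i u y) y
              = pd i (pd i ψ) y * u y - ψ y * pd i (pd i u) y := fun i => by
            have hd1 : DifferentiableAt ℝ (pd i ψ) y := (h1 i).differentiable one_ne_zero y
            have hd2 : DifferentiableAt ℝ ψ y := hψ1.differentiable one_ne_zero y
            have := pd_mul i hd1 hud
            have := pd_mul i hd2 (hpd i)
            rw [pd, fderiv_fun_sub (hd1.fun_mul hud) (hd2.fun_mul (hpd i)), sub_apply]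
            show pd i (fun y => pd i ψ y * u y) y - pd i (fun y => ψ y * pd i u y) y = _
            rw [pd_mul i hd1 hud, pd_mul i hd2 (hpd i)]
            ring
          simp only [e, Finset.sum_sub_distrib, ← Finset.mul_sum, hh y hy, mul_zero, sub_zero,
            Finset.sum_mul]
        · have hz : ψ =ᶠ[𝓝 y] fun _ => 0 :=
            notMem_tsupport_iff_eventuallyEq.1 fun h => hy (hs h)
          have hzi : ∀ i, pd i ψ =ᶠ[𝓝 y] fun _ => 0 := fun i => by
            filter_upwards [hz.eventuallyEq_nhds] with z hz'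
            exact pd_eq_zero_of_eventually hz' i
          have e : ∀ i, pd i (fun y => pd i ψ y * u y - ψ y * pd i u y) y = 0 := fun i => by
            refine pd_eq_zero_of_eventually ?_ i
            filter_upwards [hz, hzi i] with z h1 h2
            simp [h1, h2]
          simp [e, fun i => pd_eq_zero_of_eventually (hzi i) i]
    _ = 0 := by
        rw [integral_finsetSum _ fun i _ => hint i]
        exact Finset.sum_eq_zero fun i _ => integral_pd_eq_zero (hf i) (hfs i) i

lemma measurable_indicator_ball {u : Euc d → ℝ} {x : Euc d} {τ : ℝ}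
    (hu : ContinuousOn u (Metric.closedBall x τ)) :
    Measurable ((Metric.closedBall x τ).indicator u) := by
  classical
  rw [← Set.piecewise_eq_indicator]
  exact hu.measurable_piecewise continuousOn_const measurableSet_closedBall

/-- The mean value identity. -/
theorem avg_rho_eq [NeZero d] {U : Set (Euc d)} {u : Euc d → ℝ} (hU : IsOpen U)
    (hu : ContDiffOn ℝ ∞ u U) (hh : ∀ y ∈ U, ∑ i, pd i (pd i u) y = 0) {x : Euc d} {τ : ℝ}
    (hτ : 0 < τ) (hb : Metric.closedBall x τ ⊆ U) : avg rho u τ x = u x := by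
  obtain ⟨M, hM⟩ := (isCompact_closedBall x τ).exists_bound_of_continuousOn (hu.continuousOn.mono hb)
  set f := (Metric.closedBall x τ).indicator u with hf
  have hfm : Measurable f := measurable_indicator_ball (hu.continuousOn.mono hb)
  have hfb : ∀ y, |f y| ≤ |M| := fun y => by
    by_cases hy : y ∈ Metric.closedBall x τ
    · rw [hf, indicator_of_mem hy]
      exact (hM y hy).trans (le_abs_self M)
    · simp [hf, indicator_of_notMem hy]
  have hsame : ∀ s, 0 ≤ s → s ≤ τ → avg rho f s x = avg rho u s x := fun s hs hsτ => by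
    refine integral_congr_ae (Eventually.of_forall fun z => ?_)
    show rho z * f (x - s • z) = rho z * u (x - s • z)
    by_cases hz : ‖z‖ ≤ 1
    · rw [hf, indicator_of_mem]
      rw [Metric.mem_closedBall, dist_eq_norm, sub_sub_cancel_left, norm_neg, norm_smul,
        Real.norm_eq_abs, abs_of_nonneg hs]
      exact (mul_le_of_le_one_right hs hz).trans hsτ
    · simp [isKernel_rho.supp z (not_le.1 hz)]
  have hd : ∀ s, 0 < s → s ≤ τ → HasDerivAt (fun s => avg rho f s x) 0 s := by
    intro s hs hsτ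
    refine (hasDerivAt_avg isKernel_rho (contDiff_rho.of_le (WithTop.coe_le_coe.2 le_top))
      hfm hfb hs x).congr_deriv ?_
    set ψ : Euc d → ℝ := fun y => sig (s⁻¹ • (x - y)) with hψ
    have hT : IsTestFn ψ := isTestFn_kernel isKernel_sig contDiff_sig hs x
    have hts : tsupport ψ ⊆ Metric.closedBall x s := by
      refine closure_minimal (fun y hy => ?_) Metric.isClosed_closedBall
      by_contra h
      refine hy (isKernel_sig.supp _ ?_)
      rw [norm_smul, Real.norm_eq_abs, abs_of_pos (inv_pos.2 hs), lt_inv_mul_iff₀ hs, mul_one,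
        ← dist_eq_norm, dist_comm]
      exact not_le.1 h
    have hsub : Metric.closedBall x s ⊆ Metric.closedBall x τ := Metric.closedBall_subset_closedBall hsτ
    have h0 := integral_mul_lap_eq_zero hU hT (hts.trans (hsub.trans hb)) hu hh
    have e : ∀ i y, pd i (pd i ψ) y = s⁻¹ ^ 2 * pd i (pd i sig) (s⁻¹ • (x - y)) := fun i y => by
      have h1 : ∀ (k : Euc d → ℝ) (z : Euc d), ContDiff ℝ 1 k →
          pd i (fun y => k (s⁻¹ • (x - y))) z = -s⁻¹ * pd i k (s⁻¹ • (x - z)) := fun k z hk => by
        have hin : HasFDerivAt (fun y : Euc d => s⁻¹ • (x - y))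
            (s⁻¹ • (-(ContinuousLinearMap.id ℝ (Euc d)))) z :=
          ((hasFDerivAt_id z).const_sub x).fun_const_smul s⁻¹
        have h2 : fderiv ℝ (fun y => k (s⁻¹ • (x - y))) z = _ :=
          ((hk.differentiable one_ne_zero _).hasFDerivAt.comp z hin).fderiv
        rw [pd, h2]
        simp [pd]
      have hp : pd i ψ = fun z => -s⁻¹ * pd i sig (s⁻¹ • (x - z)) :=
        funext fun z => h1 sig z (contDiff_sig.of_le (WithTop.coe_le_coe.2 le_top))
      have hk1 : ContDiff ℝ 1 fun z => -s⁻¹ * pd i (sig : Euc d → ℝ) z :=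
        contDiff_const.mul ((contDiff_pd_sig i).of_le (WithTop.coe_le_coe.2 le_top))
      rw [hp, h1 (fun z => -s⁻¹ * pd i sig z) y hk1, pd, fderiv_const_mul
        ((contDiff_pd_sig i).differentiable (by simp) _)]
      simp [pd]
      ring
    have e2 : avg (euler rho) f s x = (s ^ d)⁻¹ * (s ^ 2 * ∫ y, (∑ i, pd i (pd i ψ) y) * u y) := by
      rw [avg_eq_scaled _ _ hs, ← integral_const_mul (s ^ 2)]
      congr 1
      refine integral_congr_ae (Eventually.of_forall fun y => ?_)
      simp only [euler_rho, e, ← Finset.mul_sum]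
      by_cases hy : y ∈ Metric.closedBall x τ
      · rw [hf, indicator_of_mem hy]; field_simp
      · have hz : ∀ i, pd i (pd i ψ) y = 0 := fun i => by
          refine pd_eq_zero_of_eventually ?_ i
          filter_upwards [(notMem_tsupport_iff_eventuallyEq.1
            (fun h => hy (hsub (hts h)))).eventuallyEq_nhds] with z hz'
          exact pd_eq_zero_of_eventually hz' i
        have hz' : ∀ i, pd i (pd i sig) (s⁻¹ • (x - y)) = 0 := fun i => by
          have := hz i
          rw [e] at this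
          exact (mul_eq_zero.1 this).resolve_left (by positivity)
        simp [hf, indicator_of_notMem hy, hz']
    rw [e2, h0]
    simp
  have hconst : ∀ s ∈ Ioc 0 τ, avg rho f s x = avg rho f τ x := fun s hs => by
    refine (constant_of_derivWithin_zero (f := fun s => avg rho f s x) (a := s) (b := τ)
      (fun r hr => (hd r (hs.1.trans_le hr.1) hr.2).differentiableAt.differentiableWithinAt)
      (fun r hr => ?_) τ (right_mem_Icc.2 hs.2)).symm
    exact (hd r (hs.1.trans_le hr.1) hr.2.le).hasDerivWithinAt.derivWithin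
      ((uniqueDiffOn_Icc (hr.1.trans_lt hr.2)).uniqueDiffWithinAt (Ico_subset_Icc_self hr))
  have hc : ContinuousAt f x := by
    refine ((hu.continuousOn.continuousAt (hU.mem_nhds (hb (Metric.mem_closedBall_self hτ.le))))).congr ?_
    filter_upwards [Metric.closedBall_mem_nhds x hτ] with y hy
    rw [hf, indicator_of_mem hy]
  have hlim := tendsto_nhdsWithin_of_tendsto_nhds (s := Ioi 0) (tendsto_avg isKernel_rho hfm hfb hc)
  rw [integral_rho, one_mul, hf, indicator_of_mem (Metric.mem_closedBall_self hτ.le)] at hlim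
  rw [← hsame τ hτ.le le_rfl]
  refine tendsto_nhds_unique ?_ hlim
  refine tendsto_const_nhds.congr' ?_
  filter_upwards [Ioc_mem_nhdsGT hτ] with s hs
  exact (hconst s hs).symm

/-- The gradient bound for harmonic functions. -/
theorem exists_harmonic_bound (d : ℕ) [NeZero d] : ∃ C : ℝ, 0 ≤ C ∧
    ∀ (U : Set (Euc d)) (u : Euc d → ℝ) (x : Euc d) (τ M : ℝ), IsOpen U →
      ContDiffOn ℝ ∞ u U → (∀ y ∈ U, ∑ i, pd i (pd i u) y = 0) → 0 < τ →
      Metric.closedBall x (2 * τ) ⊆ U → (∀ y ∈ Metric.closedBall x τ, |u y| ≤ M) →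
      ∀ i, |pd i u x| ≤ C / τ * M := by
  refine ⟨∑ i : Fin d, ∫ z : Euc d, |pd i rho z|,
    Finset.sum_nonneg fun i _ => integral_nonneg fun z => abs_nonneg _, ?_⟩
  intro U u x τ M hU hu hh hτ hb hM i
  set f := (Metric.closedBall x (2 * τ)).indicator u with hf
  obtain ⟨B, hB⟩ := (isCompact_closedBall x (2 * τ)).exists_bound_of_continuousOn
    (hu.continuousOn.mono hb)
  have hfm : Measurable f := measurable_indicator_ball (hu.continuousOn.mono hb)
  have hfb : ∀ y, |f y| ≤ |B| := fun y => by
    by_cases hy : y ∈ Metric.closedBall x (2 * τ)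
    · rw [hf, indicator_of_mem hy]
      exact (hB y hy).trans (le_abs_self B)
    · simp [hf, indicator_of_notMem hy]
  have heq : u =ᶠ[𝓝 x] fun y => avg rho f τ y := by
    filter_upwards [Metric.closedBall_mem_nhds x hτ] with y hy
    have hsub : Metric.closedBall y τ ⊆ Metric.closedBall x (2 * τ) :=
      Metric.closedBall_subset_closedBall' (by rw [Metric.mem_closedBall] at hy; linarith)
    rw [← avg_rho_eq hU hu hh hτ (hsub.trans hb)]
    refine integral_congr_ae (Eventually.of_forall fun z => ?_)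
    show rho z * u (y - τ • z) = rho z * f (y - τ • z)
    by_cases hz : ‖z‖ ≤ 1
    · rw [hf, indicator_of_mem]
      refine hsub ?_
      rw [Metric.mem_closedBall, dist_eq_norm, sub_sub_cancel_left, norm_neg, norm_smul,
        Real.norm_eq_abs, abs_of_pos hτ]
      exact mul_le_of_le_one_right hτ.le hz
    · simp [isKernel_rho.supp z (not_le.1 hz)]
  obtain ⟨L, hL, hap⟩ := hasFDerivAt_avg isKernel_rho
    (contDiff_rho.of_le (WithTop.coe_le_coe.2 le_top)) hfm hfb hτ x
  have hy : HasFDerivAt (fun y => avg rho f τ y)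
      (L.comp ((0 : Euc d →L[ℝ] ℝ).prod (ContinuousLinearMap.id ℝ (Euc d)))) x :=
    HasFDerivAt.comp (f := fun y : Euc d => (τ, y))
      (g := fun p : ℝ × Euc d => avg rho f p.1 p.2) x hL
      ((hasFDerivAt_const τ x).prodMk (hasFDerivAt_id x))
  have e : pd i u x = τ⁻¹ * avg (pd i rho) f τ x := by
    rw [pd_congr heq, pd, hy.fderiv]
    simp [hap]
  rw [e, abs_mul, abs_of_pos (inv_pos.2 hτ), div_mul_eq_mul_div, inv_mul_eq_div]
  refine div_le_div_of_nonneg_right ?_ hτ.le
  have hM0 : 0 ≤ M := (abs_nonneg _).trans (hM x (Metric.mem_closedBall_self hτ.le))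
  refine (abs_avg_le (isKernel_rho.pd (contDiff_rho.of_le (WithTop.coe_le_coe.2 le_top)) i)
    fun z hz => ?_).trans (mul_le_mul_of_nonneg_right
      (Finset.single_le_sum (f := fun i : Fin d => ∫ z : Euc d, |pd i rho z|)
        (fun j _ => integral_nonneg fun z => abs_nonneg _) (Finset.mem_univ i)) hM0)
  have hmem : x - τ • z ∈ Metric.closedBall x τ := by
    rw [Metric.mem_closedBall, dist_eq_norm, sub_sub_cancel_left, norm_neg, norm_smul,
      Real.norm_eq_abs, abs_of_pos hτ]
    exact mul_le_of_le_one_right hτ.le hz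
  rw [hf, indicator_of_mem (Metric.closedBall_subset_closedBall (by linarith) hmem)]
  exact hM _ hmem

lemma harmonic_pd {U : Set (Euc d)} {u : Euc d → ℝ} (hU : IsOpen U) (hu : ContDiffOn ℝ ∞ u U)
    (hh : ∀ y ∈ U, ∑ i, pd i (pd i u) y = 0) (j : Fin d) :
    ∀ y ∈ U, ∑ i, pd i (pd i (pd j u)) y = 0 := by
  intro y hy
  have hs : ∀ i, ContDiffOn ℝ ∞ (pd i u) U := fun i => contDiffAt_pd_of_contDiffOn hU hu i
  have hs2 : ∀ i k, ContDiffOn ℝ ∞ (pd i (pd k u)) U := fun i k =>
    contDiffAt_pd_of_contDiffOn hU (hs k) i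
  have hat : ∀ {f : Euc d → ℝ}, ContDiffOn ℝ ∞ f U → ∀ z ∈ U, ContDiffAt ℝ 2 f z :=
    fun hf z hz => ((hf.contDiffAt (hU.mem_nhds hz))).of_le (WithTop.coe_le_coe.2 le_top)
  have e : ∀ i, pd i (pd i (pd j u)) y = pd j (pd i (pd i u)) y := fun i => by
    have h1 : pd i (pd j u) =ᶠ[𝓝 y] pd j (pd i u) := by
      filter_upwards [hU.mem_nhds hy] with z hz
      exact pd_pd_comm (hat hu z hz) i j
    rw [pd_congr h1, pd_pd_comm (hat (hs i) y hy) i j]
  have hsum : (fun z => ∑ i, pd i (pd i u) z) =ᶠ[𝓝 y] fun _ => 0 := by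
    filter_upwards [hU.mem_nhds hy] with z hz using hh z hz
  have hd : ∀ i, DifferentiableAt ℝ (pd i (pd i u)) y := fun i =>
    ((hs2 i i).contDiffAt (hU.mem_nhds hy)).differentiableAt (by simp)
  simp only [e]
  rw [← pd_eq_zero_of_eventually hsum j, pd, fderiv_fun_sum fun i _ => hd i]
  simp [pd]

end Vale.Agent.P098.B5
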