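import Vale.Agent.P098.Regularity.B5.HolDef
import Vale.Agent.P098.Regularity.B5.Harmonic

/-!
P098, block B5: algebra of functions with Hölder derivatives up to a given order.
-/

open MeasureTheory Filter Set
open scoped Topology ContDiff

namespace Vale.Agent.P098.B5

variable {d : ℕ} {S : Set (Euc d)} {α : ℝ} {f g : Euc d → ℝ}

lemma Hol0.mono {S' : Set (Euc d)} (h : Hol0 S α f) (hS : S' ⊆ S) : Hol0 S' α f := by
  obtain ⟨M, hM, hb, hh⟩ := h
  exact ⟨M, hM, fun x hx => hb x (hS hx), fun x hx y hy => hh x (hS hx) y (hS hy)⟩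

lemma Hol0.congr (h : Hol0 S α f) (e : EqOn g f S) : Hol0 S α g := by
  obtain ⟨M, hM, hb, hh⟩ := h
  exact ⟨M, hM, fun x hx => (e hx).symm ▸ hb x hx, fun x hx y hy => by rw [e hx, e hy]; exact hh x hx y hy⟩

lemma hol0_const (c : ℝ) : Hol0 S α fun _ => c :=
  ⟨|c|, abs_nonneg c, fun _ _ => le_rfl, fun x _ y _ => by
    simp only [sub_self, abs_zero]; positivity⟩

lemma Hol0.add (hf : Hol0 S α f) (hg : Hol0 S α g) : Hol0 S α fun x => f x + g x := by
  obtain ⟨M, hM, hb, hh⟩ := hf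
  obtain ⟨N, hN, gb, gh⟩ := hg
  refine ⟨M + N, by linarith, fun x hx => (abs_add_le _ _).trans (add_le_add (hb x hx) (gb x hx)),
    fun x hx y hy => ?_⟩
  rw [show f x + g x - (f y + g y) = (f x - f y) + (g x - g y) by ring, add_mul]
  exact (abs_add_le _ _).trans (add_le_add (hh x hx y hy) (gh x hx y hy))

lemma Hol0.mul (hf : Hol0 S α f) (hg : Hol0 S α g) : Hol0 S α fun x => f x * g x := by
  obtain ⟨M, hM, hb, hh⟩ := hf
  obtain ⟨N, hN, gb, gh⟩ := hg
  refine ⟨2 * (M * N), by positivity, fun x hx => ?_, fun x hx y hy => ?_⟩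
  · rw [abs_mul]
    exact (mul_le_mul (hb x hx) (gb x hx) (abs_nonneg _) hM).trans
      (by linarith [mul_nonneg hM hN])
  · rw [show f x * g x - f y * g y = f x * (g x - g y) + g y * (f x - f y) by ring]
    refine (abs_add_le _ _).trans ?_
    rw [abs_mul, abs_mul]
    calc |f x| * |g x - g y| + |g y| * |f x - f y|
        ≤ M * (N * ‖x - y‖ ^ α) + N * (M * ‖x - y‖ ^ α) :=
          add_le_add (mul_le_mul (hb x hx) (gh x hx y hy) (abs_nonneg _) hM)
            (mul_le_mul (gb y hy) (hh x hx y hy) (abs_nonneg _) hN)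
      _ = _ := by ring

lemma Hol0.inv {c : ℝ} (hc : 0 < c) (hf : Hol0 S α f) (hp : ∀ x ∈ S, c ≤ f x) :
    Hol0 S α fun x => 1 / f x := by
  obtain ⟨M, hM, hb, hh⟩ := hf
  refine ⟨1 / c + M / c ^ 2, by positivity, fun x hx => ?_, fun x hx y hy => ?_⟩
  · rw [abs_of_pos (one_div_pos.2 (hc.trans_le (hp x hx)))]
    exact (one_div_le_one_div_of_le hc (hp x hx)).trans (le_add_of_nonneg_right (by positivity))
  · have hx0 := hc.trans_le (hp x hx)
    have hy0 := hc.trans_le (hp y hy)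
    rw [div_sub_div _ _ hx0.ne' hy0.ne', abs_div, abs_of_pos (mul_pos hx0 hy0), one_mul, mul_one,
      abs_sub_comm]
    calc |f x - f y| / (f x * f y) ≤ M * ‖x - y‖ ^ α / c ^ 2 :=
          div_le_div₀ (by positivity) (hh x hx y hy) (by positivity)
            (by rw [sq]; exact mul_le_mul (hp x hx) (hp y hy) hc.le hx0.le)
      _ = M / c ^ 2 * ‖x - y‖ ^ α := by ring
      _ ≤ _ := mul_le_mul_of_nonneg_right (le_add_of_nonneg_left (by positivity))
          (Real.rpow_nonneg (norm_nonneg _) _)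

lemma Hol.hol0 : ∀ {k : ℕ}, Hol S α k f → Hol0 S α f
  | 0, h => h
  | _ + 1, h => h.1

lemma Hol.of_succ : ∀ {k : ℕ} {f : Euc d → ℝ}, Hol S α (k + 1) f → Hol S α k f
  | 0, _, h => h.1
  | _ + 1, _, h => ⟨h.1, h.2.1, fun i => Hol.of_succ (h.2.2 i)⟩

lemma Hol.mono {S' : Set (Euc d)} (hS : S' ⊆ S) :
    ∀ {k : ℕ} {f : Euc d → ℝ}, Hol S α k f → Hol S' α k f
  | 0, _, h => Hol0.mono h hS
  | _ + 1, _, h => ⟨Hol0.mono h.1 hS, h.2.1.mono hS, fun i => Hol.mono hS (h.2.2 i)⟩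

lemma Hol.congr (hS : IsOpen S) :
    ∀ {k : ℕ} {f g : Euc d → ℝ}, Hol S α k f → EqOn g f S → Hol S α k g
  | 0, _, _, h, e => Hol0.congr h e
  | _ + 1, _, _, h, e => ⟨Hol0.congr h.1 e, h.2.1.congr e, fun i => Hol.congr hS (h.2.2 i) fun _ hx =>
      pd_congr (eventually_of_mem (hS.mem_nhds hx) e) i⟩

lemma hol_const : ∀ (k : ℕ) (c : ℝ), Hol S α k fun _ => c
  | 0, c => hol0_const c
  | k + 1, c => ⟨hol0_const c, differentiableOn_const c, fun i => by
      have e : pd i (fun _ : Euc d => c) = fun _ => (0 : ℝ) := by funext x; simp [pd]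
      rw [e]; exact hol_const k 0⟩

variable (hS : IsOpen S)
include hS

lemma Hol.add : ∀ {k : ℕ} {f g : Euc d → ℝ}, Hol S α k f → Hol S α k g →
    Hol S α k fun x => f x + g x
  | 0, _, _, hf, hg => Hol0.add hf hg
  | _ + 1, _, _, hf, hg => ⟨hf.1.add hg.1, hf.2.1.add hg.2.1, fun i =>
      (Hol.add (hf.2.2 i) (hg.2.2 i)).congr hS fun _ hx => by
        rw [pd, fderiv_fun_add (hf.2.1.differentiableAt (hS.mem_nhds hx))
          (hg.2.1.differentiableAt (hS.mem_nhds hx))]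
        rfl⟩

lemma Hol.mul : ∀ {k : ℕ} {f g : Euc d → ℝ}, Hol S α k f → Hol S α k g →
    Hol S α k fun x => f x * g x
  | 0, _, _, hf, hg => Hol0.mul hf hg
  | _ + 1, _, _, hf, hg => ⟨hf.1.mul hg.1, hf.2.1.mul hg.2.1, fun i =>
      (Hol.add hS (Hol.mul (hf.2.2 i) hg.of_succ) (Hol.mul hf.of_succ (hg.2.2 i))).congr hS
        fun _ hx => pd_mul i (hf.2.1.differentiableAt (hS.mem_nhds hx))
          (hg.2.1.differentiableAt (hS.mem_nhds hx))⟩

lemma Hol.neg {k : ℕ} (hf : Hol S α k f) : Hol S α k fun x => -f x :=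
  ((hol_const k (-1)).mul hS hf).congr hS fun x _ => by ring

lemma Hol.sub {k : ℕ} (hf : Hol S α k f) (hg : Hol S α k g) : Hol S α k fun x => f x - g x :=
  (hf.add hS (hg.neg hS)).congr hS fun _ _ => sub_eq_add_neg _ _

lemma Hol.sum {ι : Type*} {k : ℕ} {F : ι → Euc d → ℝ} (s : Finset ι)
    (h : ∀ i ∈ s, Hol S α k (F i)) : Hol S α k fun x => ∑ i ∈ s, F i x := by
  classical
  induction s using Finset.induction with
  | empty => simpa using hol_const (S := S) (α := α) k 0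
  | insert a s ha ih =>
    refine ((h a (Finset.mem_insert_self a s)).add hS
      (ih fun i hi => h i (Finset.mem_insert_of_mem hi))).congr hS fun x _ => ?_
    simp [ha]

lemma Hol.inv {c : ℝ} (hc : 0 < c) :
    ∀ {k : ℕ} {f : Euc d → ℝ}, Hol S α k f → (∀ x ∈ S, c ≤ f x) → Hol S α k fun x => 1 / f x
  | 0, _, hf, hp => Hol0.inv hc hf hp
  | k + 1, f, hf, hp => by
    have hne : ∀ x ∈ S, f x ≠ 0 := fun x hx => (hc.trans_le (hp x hx)).ne'
    refine ⟨hf.1.inv hc hp, (hf.2.1.inv hne).congr fun x _ => one_div (f x), fun i => ?_⟩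
    have hi := Hol.inv hc hf.of_succ hp
    refine (((hf.2.2 i).mul hS (hi.mul hS hi)).neg hS).congr hS fun x hx => ?_
    have hd := hf.2.1.differentiableAt (hS.mem_nhds hx)
    have h : fderiv ℝ (fun y => 1 / f y) x = _ :=
      (HasFDerivAt.congr_of_eventuallyEq
        ((hasDerivAt_inv (hne x hx)).comp_hasFDerivAt x hd.hasFDerivAt)
        (Eventually.of_forall fun y => one_div (f y))).fderiv
    rw [pd, h]
    simp [pd]
    field_simp

omit hS

/-- Bounded and Hölder derivative in direction `v` controls the difference quotient. -/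
lemma dq_bounds {U : Set (Euc d)} {v : Euc d} {s M α : ℝ} (hs : 0 < s)
    (hd : ∀ x ∈ U, DifferentiableAt ℝ f x) (hb : ∀ x ∈ U, |fderiv ℝ f x v| ≤ M)
    (hh : ∀ x ∈ U, ∀ y ∈ U, |fderiv ℝ f x v - fderiv ℝ f y v| ≤ M * ‖x - y‖ ^ α) :
    (∀ x, (∀ τ ∈ Icc 0 s, x + τ • v ∈ U) → |(f (x + s • v) - f x) / s| ≤ M) ∧
    ∀ x y, (∀ τ ∈ Icc 0 s, x + τ • v ∈ U) → (∀ τ ∈ Icc 0 s, y + τ • v ∈ U) →
      |(f (x + s • v) - f x) / s - (f (y + s • v) - f y) / s| ≤ M * ‖x - y‖ ^ α := by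
  have hline : ∀ x, (∀ τ ∈ Icc 0 s, x + τ • v ∈ U) → ∀ τ ∈ Icc 0 s,
      HasDerivAt (fun τ : ℝ => f (x + τ • v)) (fderiv ℝ f (x + τ • v) v) τ := fun x hx τ hτ => by
    have := (hd _ (hx τ hτ)).hasFDerivAt.comp_hasDerivAt τ
      (((hasDerivAt_id τ).smul_const v).const_add x)
    simpa [Function.comp_def] using this
  refine ⟨fun x hx => ?_, fun x y hx hy => ?_⟩
  · obtain ⟨τ, hτ, e⟩ := exists_hasDerivAt_eq_slope (fun τ : ℝ => f (x + τ • v))
      (fun τ => fderiv ℝ f (x + τ • v) v) hs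
      (fun τ hτ => (hline x hx τ hτ).continuousAt.continuousWithinAt)
      fun τ hτ => hline x hx τ (Ioo_subset_Icc_self hτ)
    simp only [zero_smul, add_zero, sub_zero] at e
    rw [← e]
    exact hb _ (hx τ (Ioo_subset_Icc_self hτ))
  · obtain ⟨τ, hτ, e⟩ := exists_hasDerivAt_eq_slope
      (fun τ : ℝ => f (x + τ • v) - f (y + τ • v))
      (fun τ => fderiv ℝ f (x + τ • v) v - fderiv ℝ f (y + τ • v) v) hs
      (fun τ hτ => ((hline x hx τ hτ).sub (hline y hy τ hτ)).continuousAt.continuousWithinAt)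
      fun τ hτ => (hline x hx τ (Ioo_subset_Icc_self hτ)).sub (hline y hy τ (Ioo_subset_Icc_self hτ))
    simp only [zero_smul, add_zero, sub_zero] at e
    rw [← sub_div, show f (x + s • v) - f x - (f (y + s • v) - f y)
      = f (x + s • v) - f (y + s • v) - (f x - f y) by ring, ← e]
    have h := hh _ (hx τ (Ioo_subset_Icc_self hτ)) _ (hy τ (Ioo_subset_Icc_self hτ))
    rwa [show x + τ • v - (y + τ • v) = x - y by abel] at h

/-- The difference quotient tends to the derivative. -/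
lemma tendsto_dq {x v : Euc d} (hf : DifferentiableAt ℝ f x) :
    Tendsto (fun s : ℝ => (f (x + s • v) - f x) / s) (𝓝[>] 0) (𝓝 (fderiv ℝ f x v)) := by
  have h : HasDerivAt (fun s : ℝ => f (x + s • v)) (fderiv ℝ f x v) 0 := by
    have h0 : HasFDerivAt f (fderiv ℝ f x) (x + (0 : ℝ) • v) := by simpa using hf.hasFDerivAt
    have := h0.comp_hasDerivAt (0 : ℝ) (((hasDerivAt_id (0 : ℝ)).smul_const v).const_add x)
    simpa [Function.comp_def] using this
  have h2 := hasDerivAt_iff_tendsto_slope.1 h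
  have hsub : (Ioi (0 : ℝ)) ⊆ {0}ᶜ := fun s hs => ne_of_gt hs
  refine (h2.mono_left (nhdsWithin_mono _ hsub)).congr fun s => ?_
  simp [slope_def_field, sub_zero]

end Vale.Agent.P098.B5
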