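import Vale.Agent.P098.Regularity.B5.Kernel

/-!
P098, block B5: extension of Hölder functions with the same bounds, and the iteration lemma that
absorbs half of an unknown on shrinking balls.
-/

open MeasureTheory Filter Set
open scoped Topology

namespace Vale.Agent.P098.B5

variable {d : ℕ}

/-- Hölder extension with the same constant and the same bound. -/
lemma exists_hold_extend {α K M : ℝ} (hα : 0 < α) (hα1 : α ≤ 1) (hK : 0 ≤ K) (hM : 0 ≤ M)
    {s : Set (Euc d)} {f : Euc d → ℝ} (hb : ∀ x ∈ s, |f x| ≤ M)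
    (hh : ∀ x ∈ s, ∀ y ∈ s, |f x - f y| ≤ K * ‖x - y‖ ^ α) :
    ∃ F : Euc d → ℝ, Hold α K F ∧ (∀ x, |F x| ≤ M) ∧ EqOn F f s := by
  rcases s.eq_empty_or_nonempty with rfl | hs
  · exact ⟨fun _ => 0, fun x y => by simpa using mul_nonneg hK (Real.rpow_nonneg (norm_nonneg _) _),
      fun x => by simpa using hM, fun x hx => absurd hx (notMem_empty x)⟩
  have : Nonempty s := hs.to_subtype
  set F : Euc d → ℝ := fun x => ⨅ y : s, f y + K * ‖x - (y : Euc d)‖ ^ α with hF
  have hbd : ∀ x, BddBelow (range fun y : s => f y + K * ‖x - (y : Euc d)‖ ^ α) := fun x =>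
    ⟨-M, by
      rintro _ ⟨y, rfl⟩
      have h0 : 0 ≤ K * ‖x - (y : Euc d)‖ ^ α := mul_nonneg hK (Real.rpow_nonneg (norm_nonneg _) _)
      simp only
      linarith [(abs_le.1 (hb y y.2)).1]⟩
  have htri : ∀ x y z : Euc d, K * ‖x - z‖ ^ α ≤ K * ‖x - y‖ ^ α + K * ‖y - z‖ ^ α := by
    intro x y z
    rw [← mul_add]
    refine mul_le_mul_of_nonneg_left (le_trans (Real.rpow_le_rpow (norm_nonneg _) ?_ hα.le)
      (Real.rpow_add_le_add_rpow (norm_nonneg _) (norm_nonneg _) hα.le hα1)) hK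
    exact norm_sub_le_norm_sub_add_norm_sub x y z
  have hFh : Hold α K F := by
    have key : ∀ x y, F x ≤ F y + K * ‖x - y‖ ^ α := fun x y => by
      rw [← sub_le_iff_le_add]
      refine le_ciInf fun z => ?_
      rw [sub_le_iff_le_add]
      refine (ciInf_le (hbd x) z).trans ?_
      linarith [htri x y z]
    intro x y
    have h1 := key x y
    have h2 := key y x
    rw [norm_sub_rev y x] at h2
    exact abs_le.2 ⟨by linarith, by linarith⟩
  have hFs : EqOn F f s := fun x hx => by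
    refine le_antisymm ((ciInf_le (hbd x) ⟨x, hx⟩).trans ?_) (le_ciInf fun y => ?_)
    · simp [Real.zero_rpow hα.ne']
    · linarith [(abs_le.1 (hh x hx y y.2)).2]
  refine ⟨fun x => max (-M) (min M (F x)), fun x y => ?_, fun x => ?_, fun x hx => ?_⟩
  · exact ((abs_max_sub_max_le_max _ _ _ _).trans
      (by simpa using abs_min_sub_min_le_max M (F x) M (F y))).trans (hFh x y)
  · exact abs_le.2 ⟨le_max_left _ _, max_le (by linarith) (min_le_left _ _)⟩
  · have := abs_le.1 (hb x hx)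
    simp [hFs hx, this.1, this.2]

/-- If `P b K` implies `P a (K / 2 + c / (b - a) ^ m)` for all radii in `[r, R]`, then
`P r (D c / (R - r) ^ m)` with `D` depending on `m` only. -/
lemma exists_iteration (m : ℕ) : ∃ D : ℝ, 0 ≤ D ∧ ∀ (r R c : ℝ) (P : ℝ → ℝ → Prop),
    r < R → 0 ≤ c →
    (∀ a K K', P a K → K ≤ K' → P a K') →
    (∀ a b K, a ≤ b → P b K → P a K) →
    (∀ a K, (∀ ε : ℝ, 0 < ε → P a (K + ε)) → P a K) →
    (∀ a b K, r ≤ a → a < b → b ≤ R → 0 ≤ K → P b K → P a (K / 2 + c / (b - a) ^ m)) →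
    (∃ K, 0 ≤ K ∧ P R K) → P r (D * c / (R - r) ^ m) := by
  set l : ℝ := 1 - 1 / (4 * (m + 1)) with hl
  have hl0 : 0 < l := by
    have : 1 / (4 * ((m : ℝ) + 1)) ≤ 1 / 4 :=
      one_div_le_one_div_of_le (by norm_num) (by linarith [Nat.cast_nonneg (α := ℝ) m])
    simp only [hl]; linarith
  have hl1 : l < 1 := by simp only [hl]; linarith [show 0 < 1 / (4 * ((m : ℝ) + 1)) by positivity]
  have hlm : 3 / 4 ≤ l ^ m := by
    have h := one_add_mul_le_pow (show -2 ≤ l - 1 by linarith) m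
    have h2 : (m : ℝ) * (l - 1) ≥ -(1 / 4) := by
      have e : (m : ℝ) * (l - 1) = -((m : ℝ) / (4 * (m + 1))) := by simp only [hl]; ring
      rw [e]
      have : (m : ℝ) / (4 * (m + 1)) ≤ 1 / 4 := by
        rw [div_le_div_iff₀ (by positivity) (by norm_num)]; linarith
      linarith
    rw [show 1 + (l - 1) = l by ring] at h
    linarith
  refine ⟨3 / (1 - l) ^ m, by have : 0 < 1 - l := (by linarith); positivity, ?_⟩
  intro r R c P hrR hc hmono hrad hlim hstep ⟨K₀, hK₀, hR⟩
  have hl1' : 0 < 1 - l := by linarith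
  set c' := c / ((R - r) * (1 - l)) ^ m with hc'
  have hRr : 0 < R - r := by linarith
  have hc'0 : 0 ≤ c' := by positivity
  set a : ℕ → ℝ := fun k => R - (R - r) * l ^ k with ha
  have har : ∀ k, r ≤ a k ∧ a k ≤ R := fun k => by
    have h1 : l ^ k ≤ 1 := pow_le_one₀ hl0.le hl1.le
    have h2 : 0 ≤ l ^ k := by positivity
    constructor <;> simp only [ha] <;> nlinarith
  have hQ : ∀ n k, P (a k) (K₀ / 2 ^ n + 3 * c' / (l ^ m) ^ k) := by
    intro n
    induction n with
    | zero =>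
      intro k
      refine hmono _ K₀ _ (hrad _ R _ (har k).2 hR) ?_
      simpa using (show 0 ≤ 3 * c' / (l ^ m) ^ k by positivity)
    | succ n ih =>
      intro k
      have hlt : a k < a (k + 1) := by
        simp only [ha, pow_succ]
        nlinarith [show 0 < (R - r) * l ^ k by positivity]
      refine hmono _ _ _ (hstep _ _ _ (har k).1 hlt (har (k + 1)).2 (by positivity) (ih (k + 1))) ?_
      have e1 : c / (a (k + 1) - a k) ^ m = c' / (l ^ m) ^ k := by
        rw [show a (k + 1) - a k = (R - r) * (1 - l) * l ^ k by simp only [ha, pow_succ]; ring,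
          mul_pow ((R - r) * (1 - l)), ← pow_mul, mul_comm k m, pow_mul, hc', div_div]
      have hq : 3 * c' / (l ^ m) ^ (k + 1) / 2 + c' / (l ^ m) ^ k ≤ 3 * c' / (l ^ m) ^ k := by
        have e : 3 * c' / (l ^ m) ^ (k + 1) / 2 = (3 / (2 * l ^ m)) * (c' / (l ^ m) ^ k) := by
          rw [pow_succ]; field_simp
        have h3 : 3 / (2 * l ^ m) ≤ 2 := by rw [div_le_iff₀ (by positivity)]; linarith
        rw [e, show 3 * c' / (l ^ m) ^ k = 3 * (c' / (l ^ m) ^ k) by ring]
        nlinarith [show 0 ≤ c' / (l ^ m) ^ k by positivity]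
      rw [e1]
      have e2 : K₀ / 2 ^ (n + 1) = K₀ / 2 ^ n / 2 := by rw [pow_succ, div_div]
      rw [e2]
      linarith
  have e : 3 / (1 - l) ^ m * c / (R - r) ^ m = 3 * c' := by
    simp only [hc', mul_pow]; field_simp
  rw [e]
  refine hlim _ _ fun ε hε => ?_
  obtain ⟨n, hn⟩ := pow_unbounded_of_one_lt (K₀ / ε) one_lt_two
  have h0 := hQ n 0
  simp only [ha, pow_zero, mul_one, sub_sub_cancel, div_one] at h0
  refine hmono _ _ _ h0 ?_
  have : K₀ / 2 ^ n ≤ ε := by
    rw [div_le_iff₀ (by positivity)]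
    rw [div_lt_iff₀ hε] at hn
    linarith
  linarith

end Vale.Agent.P098.B5
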