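import Vale.Agent.P098.Regularity.B5.Harmonic
import Vale.Agent.P098.Regularity.B5.HolderExt
import Vale.Agent.P098.Regularity.Defs

/-!
P098, block B5: normals with a rate and nondegeneracy give a gradient which is Hölder up to the
free boundary, close to the normal, and of norm close to one.
-/

open MeasureTheory Filter Set
open scoped Topology ContDiff RealInnerProductSpace

namespace Vale.Agent.P098.B5

variable {d : ℕ}

/-- A function harmonic where positive, nondegenerate, with unit normals of order `1 + α` in the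
ball of radius `ρ` about `x₀`. -/
structure IsExp (u : Euc d → ℝ) (ν : Euc d → Euc d) (x₀ : Euc d) (c ρ α C : ℝ) : Prop where
  cont : Continuous u
  nonneg : ∀ x, 0 ≤ u x
  smooth : ContDiffOn ℝ ∞ u (posSet u)
  harmonic : ∀ x ∈ posSet u, ∑ i, pd i (pd i u) x = 0
  nondeg : ∀ x ∈ closure (posSet u), ∀ r : ℝ, 0 < r → ∃ y ∈ Metric.closedBall x r, c * r ≤ u y
  c_pos : 0 < c
  ρ_pos : 0 < ρ
  α_pos : 0 < α
  α_lt : α < 1
  C_nonneg : 0 ≤ C
  unit : ∀ x ∈ Metric.ball x₀ ρ ∩ frontier (posSet u), ‖ν x‖ = 1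
  expand : ∀ x ∈ Metric.ball x₀ ρ ∩ frontier (posSet u), ∀ y ∈ Metric.ball x₀ ρ,
    |u y - max ⟪ν x, y - x⟫ 0| ≤ C * ‖y - x‖ ^ (1 + α)

variable {u : Euc d → ℝ} {ν : Euc d → Euc d} {x₀ : Euc d} {c ρ α C : ℝ}
  (H : IsExp u ν x₀ c ρ α C)

include H

lemma IsExp.isOpen_pos : IsOpen (posSet u) := isOpen_lt continuous_const H.cont

lemma IsExp.eq_zero {z : Euc d} (hz : z ∈ frontier (posSet u)) : u z = 0 := by
  have h : z ∉ posSet u := fun h => hz.2 (by rwa [H.isOpen_pos.interior_eq])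
  exact le_antisymm (not_lt.1 h) (H.nonneg z)

omit H in
lemma two_rpow_le {α : ℝ} (hα1 : α ≤ 1) : (2 : ℝ) ^ (1 + α) ≤ 4 :=
  calc (2 : ℝ) ^ (1 + α) ≤ (2 : ℝ) ^ (2 : ℝ) :=
        Real.rpow_le_rpow_of_exponent_le one_le_two (by linarith)
    _ = 4 := by norm_num

omit H in
lemma rpow_scale {r s α : ℝ} (hr : 0 ≤ r) (hrs : r ≤ 2 * s) (hα : 0 ≤ α) (hα1 : α ≤ 1) :
    r ^ (1 + α) ≤ 4 * s ^ (1 + α) := by
  have hs : 0 ≤ s := by linarith
  calc r ^ (1 + α) ≤ (2 * s) ^ (1 + α) := Real.rpow_le_rpow hr hrs (by linarith)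
    _ = (2 : ℝ) ^ (1 + α) * s ^ (1 + α) := Real.mul_rpow (by norm_num) hs
    _ ≤ 4 * s ^ (1 + α) := mul_le_mul_of_nonneg_right (two_rpow_le hα1) (by positivity)

/-- The positivity set lies almost on the positive side of each normal. -/
lemma IsExp.side {z y : Euc d} (hz : z ∈ frontier (posSet u)) (hz0 : dist z x₀ < ρ / 4)
    (hy : y ∈ posSet u) (hy0 : dist y x₀ < ρ / 4) :
    -(4 * C / c) * ‖y - z‖ ^ (1 + α) ≤ ⟪ν z, y - z⟫ := by
  have hρ := H.ρ_pos
  have hc := H.c_pos
  have hzb : z ∈ Metric.ball x₀ ρ ∩ frontier (posSet u) := ⟨Metric.mem_ball.2 (by linarith), hz⟩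
  set l := ⟪ν z, y - z⟫ with hl
  have hnn : 0 ≤ 4 * C / c * ‖y - z‖ ^ (1 + α) := by have := H.C_nonneg; positivity
  rcases le_or_gt 0 l with h | h
  · linarith
  have hs : 0 < -l := by linarith
  have hsle : -l ≤ ‖y - z‖ := by
    have := abs_real_inner_le_norm (ν z) (y - z)
    rw [H.unit z hzb, one_mul] at this
    linarith [neg_abs_le l]
  obtain ⟨y', hy', hcy⟩ := H.nondeg y (subset_closure hy) (-l) hs
  rw [Metric.mem_closedBall, dist_eq_norm] at hy'
  have hyb : y' ∈ Metric.ball x₀ ρ := by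
    have h1 : ‖y - z‖ < ρ / 2 := by
      rw [← dist_eq_norm]; linarith [dist_triangle_right y z x₀]
    rw [Metric.mem_ball]
    calc dist y' x₀ ≤ dist y' y + dist y x₀ := dist_triangle _ _ _
      _ < ρ := by rw [dist_eq_norm y' y]; linarith
  have hl' : ⟪ν z, y' - z⟫ ≤ 0 := by
    have h1 := abs_real_inner_le_norm (ν z) (y' - y)
    rw [H.unit z hzb, one_mul] at h1
    rw [show y' - z = (y' - y) + (y - z) by abel, inner_add_right]
    linarith [le_abs_self ⟪ν z, y' - y⟫]
  have hn : ‖y' - z‖ ≤ 2 * ‖y - z‖ := by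
    calc ‖y' - z‖ ≤ ‖y' - y‖ + ‖y - z‖ := norm_sub_le_norm_sub_add_norm_sub _ _ _
      _ ≤ _ := by linarith
  have he := H.expand z hzb y' hyb
  rw [max_eq_right hl', sub_zero, abs_of_nonneg (H.nonneg y')] at he
  have hC4 : C * ‖y' - z‖ ^ (1 + α) ≤ C * (4 * ‖y - z‖ ^ (1 + α)) :=
    mul_le_mul_of_nonneg_left (rpow_scale (norm_nonneg _) hn H.α_pos.le H.α_lt.le) H.C_nonneg
  have : -l ≤ 4 * C / c * ‖y - z‖ ^ (1 + α) := by
    rw [div_mul_eq_mul_div, le_div_iff₀ hc]
    nlinarith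
  linarith

/-- Near a positive point the function is affine up to order `1 + α` of the distance to the free
boundary, which is attained. -/
lemma IsExp.exists_nearest (hx₀ : x₀ ∈ frontier (posSet u)) {x : Euc d} (hx : x ∈ posSet u) :
    ∃ z ∈ frontier (posSet u), Metric.ball x (dist x z) ⊆ posSet u ∧ 0 < dist x z ∧
      dist x z ≤ dist x x₀ ∧ dist z x₀ ≤ 2 * dist x x₀ := by
  have hne : ((posSet u)ᶜ).Nonempty := ⟨x₀, fun h => hx₀.2 (by rwa [H.isOpen_pos.interior_eq])⟩
  obtain ⟨z, hz, hd⟩ := H.isOpen_pos.isClosed_compl.exists_infDist_eq_dist hne x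
  have hsub : Metric.ball x (dist x z) ⊆ posSet u := fun y hy => by
    by_contra h
    have h1 : dist x z ≤ dist x y := hd ▸ Metric.infDist_le_dist_of_mem h
    rw [Metric.mem_ball, dist_comm] at hy
    linarith
  have hpos : 0 < dist x z := dist_pos.2 fun h => hz (h ▸ hx)
  have hle : dist x z ≤ dist x x₀ :=
    hd ▸ Metric.infDist_le_dist_of_mem (fun h => hx₀.2 (by rwa [H.isOpen_pos.interior_eq]))
  refine ⟨z, ⟨?_, fun h => hz (interior_subset h)⟩, hsub, hpos, hle, ?_⟩
  · refine closure_mono hsub ?_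
    rw [closure_ball x hpos.ne', Metric.mem_closedBall, dist_comm]
  · calc dist z x₀ ≤ dist z x + dist x x₀ := dist_triangle _ _ _
      _ ≤ _ := by rw [dist_comm z x]; linarith

omit H in
lemma pd_affine_sub {f : Euc d → ℝ} {y : Euc d} (hf : DifferentiableAt ℝ f y) (a b : Euc d)
    (i : Fin d) : pd i (fun w => f w - ⟪a, w - b⟫) y = pd i f y - a i := by
  have h : HasFDerivAt (fun w => f w - ⟪a, w - b⟫) (fderiv ℝ f y - innerSL ℝ a) y := by
    refine hf.hasFDerivAt.sub ?_
    exact ((innerSL ℝ a).hasFDerivAt.comp y ((hasFDerivAt_id y).sub_const b)).congr_fderiv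
      (ContinuousLinearMap.comp_id _)
  rw [pd, h.fderiv]
  simp [pd, EuclideanSpace.inner_single_right]

/-- First and second derivatives at a positive point in terms of the nearest normal. -/
theorem IsExp.exists_pointwise [NeZero d] (hx₀ : x₀ ∈ frontier (posSet u)) :
    ∃ K : ℝ, 0 ≤ K ∧ ∀ x ∈ posSet u, dist x x₀ < ρ / 16 →
      ∀ z ∈ frontier (posSet u), Metric.ball x (dist x z) ⊆ posSet u → 0 < dist x z →
        dist x z ≤ dist x x₀ → dist z x₀ ≤ 2 * dist x x₀ →
        (∀ i, |pd i u x - ν z i| ≤ K * dist x z ^ α) ∧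
        ∀ i j, ∀ y ∈ Metric.closedBall x (dist x z / 4),
          |pd j (pd i u) y| ≤ K * dist x z ^ (α - 1) := by
  obtain ⟨P, hP, hbound⟩ := exists_harmonic_bound d
  set C₂ := 4 * C + 16 * C / c with hC₂
  have hC0 := H.C_nonneg
  have hc := H.c_pos
  have hC₂0 : 0 ≤ C₂ := by positivity
  refine ⟨4 * P * C₂ + 80 * P * P * C₂, by positivity, ?_⟩
  intro x hx hx0 z hz hsub hδ hle hz0
  have hρ := H.ρ_pos
  set δ := dist x z with hδdef
  set l : Euc d → ℝ := fun y => u y - ⟪ν z, y - z⟫ with hl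
  have hzb : z ∈ Metric.ball x₀ ρ ∩ frontier (posSet u) := ⟨Metric.mem_ball.2 (by linarith), hz⟩
  have hlb : ∀ y ∈ Metric.ball x δ, |l y| ≤ C₂ * δ ^ (1 + α) := by
    intro y hy
    have hyd : dist y x < δ := hy
    have hy0 : dist y x₀ < ρ / 8 := by linarith [dist_triangle y x x₀]
    have hyz : ‖y - z‖ ≤ 2 * δ := by
      rw [← dist_eq_norm]; linarith [dist_triangle y x z]
    have h1 := H.side hz (by linarith) (hsub hy) (by linarith)
    have h2 := abs_le.1 (H.expand z hzb y (Metric.mem_ball.2 (by linarith)))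
    have h3 := rpow_scale (norm_nonneg _) hyz H.α_pos.le H.α_lt.le
    have hX : 0 ≤ δ ^ (1 + α) := by positivity
    have h3a : C * ‖y - z‖ ^ (1 + α) ≤ C * (4 * δ ^ (1 + α)) := mul_le_mul_of_nonneg_left h3 hC0
    have h3b : 4 * C / c * ‖y - z‖ ^ (1 + α) ≤ 4 * C / c * (4 * δ ^ (1 + α)) :=
      mul_le_mul_of_nonneg_left h3 (by positivity)
    have e : C₂ * δ ^ (1 + α) = C * (4 * δ ^ (1 + α)) + 4 * C / c * (4 * δ ^ (1 + α)) := by
      simp only [hC₂]; ring
    simp only [hl]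
    rcases le_total 0 ⟪ν z, y - z⟫ with h | h
    · rw [max_eq_left h] at h2
      rw [e]
      have : 0 ≤ 4 * C / c * (4 * δ ^ (1 + α)) := by positivity
      exact abs_le.2 ⟨by linarith [h2.1], by linarith [h2.2]⟩
    · rw [max_eq_right h] at h2
      rw [e]
      exact abs_le.2 ⟨by linarith [h2.1], by linarith [h2.2]⟩
  set U := Metric.ball x δ with hU
  have hls : ContDiffOn ℝ ∞ l U :=
    (H.smooth.mono hsub).sub ((contDiff_const.inner ℝ (contDiff_id.sub contDiff_const)).contDiffOn)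
  have hud : ∀ y ∈ U, DifferentiableAt ℝ u y := fun y hy =>
    (H.smooth.contDiffAt (H.isOpen_pos.mem_nhds (hsub hy))).differentiableAt (by simp)
  have hlpd : ∀ i, ∀ y ∈ U, pd i l y = pd i u y - ν z i := fun i y hy =>
    pd_affine_sub (hud y hy) _ _ i
  have hlpd2 : ∀ i j, ∀ y ∈ U, pd j (pd i l) y = pd j (pd i u) y := fun i j y hy => by
    have he : pd i l =ᶠ[𝓝 y] fun w => pd i u w - ν z i := by
      filter_upwards [Metric.isOpen_ball.mem_nhds hy] with w hw using hlpd i w hw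
    rw [pd_congr he, pd, fderiv_sub_const, pd]
  have hlh : ∀ y ∈ U, ∑ i, pd i (pd i l) y = 0 := fun y hy => by
    simp only [fun i => hlpd2 i i y hy]
    exact H.harmonic y (hsub hy)
  have hstep1 : ∀ i, ∀ y ∈ Metric.closedBall x (δ / 2), |pd i l y| ≤ P / (δ / 5) * (C₂ * δ ^ (1 + α)) := by
    intro i y hy
    rw [Metric.mem_closedBall] at hy
    refine hbound U l y (δ / 5) _ Metric.isOpen_ball hls hlh (by linarith) (fun w hw => ?_)
      (fun w hw => hlb w ?_) i
    · rw [Metric.mem_closedBall] at hw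
      exact Metric.mem_ball.2 (by linarith [dist_triangle w y x])
    · rw [Metric.mem_closedBall] at hw
      exact Metric.mem_ball.2 (by linarith [dist_triangle w y x])
  have hpow : δ ^ (1 + α) = δ * δ ^ α := by rw [Real.rpow_add hδ, Real.rpow_one]
  have hpow' : δ ^ α = δ * δ ^ (α - 1) := by
    rw [Real.rpow_sub_one hδ.ne', mul_div_cancel₀ _ hδ.ne']
  have e1 : P / (δ / 5) * (C₂ * δ ^ (1 + α)) = 5 * P * C₂ * δ ^ α := by rw [hpow]; field_simp
  have hstep1' : ∀ i, ∀ y ∈ Metric.closedBall x (δ / 4), |pd i l y| ≤ 4 * P * C₂ * δ ^ α := by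
    intro i y hy
    rw [Metric.mem_closedBall] at hy
    refine (hbound U l y (δ / 4) _ Metric.isOpen_ball hls hlh (by linarith) (fun w hw => ?_)
      (fun w hw => hlb w ?_) i).trans (le_of_eq (by rw [hpow]; field_simp))
    · rw [Metric.mem_closedBall] at hw
      exact Metric.mem_ball.2 (by linarith [dist_triangle w y x])
    · rw [Metric.mem_closedBall] at hw
      exact Metric.mem_ball.2 (by linarith [dist_triangle w y x])
  have hK1 : 4 * P * C₂ ≤ 4 * P * C₂ + 80 * P * P * C₂ := le_add_of_nonneg_right (by positivity)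
  refine ⟨fun i => ?_, fun i j y hy => ?_⟩
  · rw [← hlpd i x (Metric.mem_ball_self hδ)]
    exact (hstep1' i x (Metric.mem_closedBall_self (by linarith))).trans
      (mul_le_mul_of_nonneg_right hK1 (by positivity))
  · rw [Metric.mem_closedBall] at hy
    have hyU : y ∈ U := Metric.mem_ball.2 (by linarith)
    rw [← hlpd2 i j y hyU]
    refine (hbound U (pd i l) y (δ / 16) (5 * P * C₂ * δ ^ α) Metric.isOpen_ball
      (contDiffAt_pd_of_contDiffOn Metric.isOpen_ball hls i)
      (harmonic_pd Metric.isOpen_ball hls hlh i) (by linarith) (fun w hw => ?_)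
      (fun w hw => ?_) j).trans ?_
    · rw [Metric.mem_closedBall] at hw
      exact Metric.mem_ball.2 (by linarith [dist_triangle w y x])
    · rw [Metric.mem_closedBall] at hw
      rw [← e1]
      exact hstep1 i w (Metric.mem_closedBall.2 (by linarith [dist_triangle w y x]))
    · rw [show P / (δ / 16) * (5 * P * C₂ * δ ^ α) = (80 * P * P * C₂) * δ ^ (α - 1) by
        rw [hpow']; field_simp; ring]
      refine mul_le_mul_of_nonneg_right ?_ (by positivity)
      linarith [show 0 ≤ 4 * P * C₂ by positivity]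

/-- The normals are Hölder. -/
theorem IsExp.exists_normal_hold :
    ∃ K : ℝ, 0 ≤ K ∧ ∀ z ∈ frontier (posSet u), ∀ z' ∈ frontier (posSet u),
      dist z x₀ < ρ / 8 → dist z' x₀ < ρ / 8 → ‖ν z - ν z'‖ ≤ K * ‖z - z'‖ ^ α := by
  have hρ := H.ρ_pos
  have hc := H.c_pos
  have hC0 := H.C_nonneg
  have hα := H.α_pos
  set δ₀ : ℝ := min (ρ / 64) ((1 / (32 * (C + 1))) ^ (1 / α)) with hδ₀
  have hδ₀0 : 0 < δ₀ := lt_min (by linarith) (by positivity)
  refine ⟨2 / δ₀ ^ α + 2 * (32 * C + 64 * C / c), by positivity, ?_⟩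
  intro z hz z' hz' hz0 hz0'
  set δ := ‖z - z'‖ with hδ
  have hzb : z ∈ Metric.ball x₀ ρ ∩ frontier (posSet u) := ⟨Metric.mem_ball.2 (by linarith), hz⟩
  have hzb' : z' ∈ Metric.ball x₀ ρ ∩ frontier (posSet u) := ⟨Metric.mem_ball.2 (by linarith), hz'⟩
  have h2 : ‖ν z - ν z'‖ ≤ 2 := by
    refine (norm_sub_le _ _).trans ?_
    rw [H.unit z hzb, H.unit z' hzb']; norm_num
  have hX : 0 ≤ δ ^ α := by positivity
  have hrest : 0 ≤ 2 * (32 * C + 64 * C / c) * δ ^ α := by positivity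
  rcases lt_or_ge δ δ₀ with hsmall | hbig
  swap
  · have : 1 ≤ δ ^ α / δ₀ ^ α := by
      rw [one_le_div (by positivity)]
      exact Real.rpow_le_rpow hδ₀0.le hbig hα.le
    calc ‖ν z - ν z'‖ ≤ 2 := h2
      _ ≤ 2 * (δ ^ α / δ₀ ^ α) := by linarith
      _ ≤ _ := by rw [mul_div_assoc', ← div_mul_eq_mul_div]; linarith
  rcases eq_or_lt_of_le (norm_nonneg (z - z')) with h0 | h0
  · rw [sub_eq_zero.1 (norm_eq_zero.1 h0.symm)]
    simp only [sub_self, norm_zero]
    positivity
  rcases eq_or_ne (ν z - ν z') 0 with he | he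
  · rw [he, norm_zero]; positivity
  set e : Euc d := ‖ν z - ν z'‖⁻¹ • (ν z - ν z') with he'
  have hen : ‖e‖ = 1 := by
    rw [he', norm_smul, norm_inv, norm_norm, inv_mul_cancel₀ (norm_ne_zero_iff.2 he)]
  have hδα : δ ^ α ≤ 1 / (32 * (C + 1)) := by
    refine (Real.rpow_le_rpow h0.le (hsmall.le.trans (min_le_right _ _)) hα.le).trans (le_of_eq ?_)
    rw [← Real.rpow_mul (by positivity), one_div_mul_cancel hα.ne', Real.rpow_one]
  have hsmall' : δ < ρ / 64 := lt_of_lt_of_le hsmall (min_le_left _ _)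
  have key : ∀ w : Euc d, ‖w‖ ≤ δ → ∀ y, y = z + (2 * δ) • ν z + w →
      |⟪ν z, y - z⟫ - ⟪ν z', y - z'⟫| ≤ (32 * C + 64 * C / c) * (δ * δ ^ α) := by
    intro w hw y hy
    have hyz : ‖y - z‖ ≤ 2 * (2 * δ) := by
      rw [show y - z = (2 * δ) • ν z + w by rw [hy]; abel]
      refine (norm_add_le _ _).trans ?_
      rw [norm_smul, H.unit z hzb, Real.norm_eq_abs, abs_of_pos (by linarith)]
      linarith
    have hyz' : ‖y - z'‖ ≤ 2 * (2 * δ) := by
      rw [show y - z' = (2 * δ) • ν z + w + (z - z') by rw [hy]; abel]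
      refine (norm_add_le _ _).trans (le_trans (add_le_add (norm_add_le _ _) le_rfl) ?_)
      rw [norm_smul, H.unit z hzb, Real.norm_eq_abs, abs_of_pos (by linarith)]
      linarith
    have hy0 : dist y x₀ < ρ / 4 := by
      have h1 : dist y z ≤ 2 * (2 * δ) := by rwa [dist_eq_norm]
      linarith [dist_triangle y z x₀]
    have hl : δ ≤ ⟪ν z, y - z⟫ := by
      rw [show y - z = (2 * δ) • ν z + w by rw [hy]; abel, inner_add_right, inner_smul_right,
        real_inner_self_eq_norm_sq, H.unit z hzb]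
      have := abs_real_inner_le_norm (ν z) w
      rw [H.unit z hzb, one_mul] at this
      linarith [neg_abs_le ⟪ν z, w⟫]
    have hb : ∀ q : Euc d, ‖y - q‖ ≤ 2 * (2 * δ) →
        ‖y - q‖ ^ (1 + α) ≤ 16 * (δ * δ ^ α) := fun q hq => by
      refine (rpow_scale (norm_nonneg _) hq hα.le H.α_lt.le).trans ?_
      refine (mul_le_mul_of_nonneg_left (rpow_scale (by linarith) (le_refl (2 * δ)) hα.le H.α_lt.le)
        (by norm_num)).trans (le_of_eq ?_)
      rw [Real.rpow_add h0, Real.rpow_one]; ring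
    have e1 := abs_le.1 (H.expand z hzb y (Metric.mem_ball.2 (by linarith)))
    have e2 := abs_le.1 (H.expand z' hzb' y (Metric.mem_ball.2 (by linarith)))
    rw [max_eq_left (by linarith)] at e1
    have b1 := mul_le_mul_of_nonneg_left (hb z hyz) hC0
    have b2 := mul_le_mul_of_nonneg_left (hb z' hyz') hC0
    have b3 := mul_le_mul_of_nonneg_left (hb z' hyz') (show 0 ≤ 4 * C / c by positivity)
    have hpos : y ∈ posSet u := by
      have : C * (16 * (δ * δ ^ α)) < δ := by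
        have h3 : C * δ ^ α ≤ C * (1 / (32 * (C + 1))) := mul_le_mul_of_nonneg_left hδα hC0
        have h4 : C * (1 / (32 * (C + 1))) ≤ 1 / 32 := by
          rw [mul_one_div, div_le_iff₀ (by positivity)]; linarith
        nlinarith
      show 0 < u y
      linarith [e1.1]
    have hside := H.side hz' (by linarith) hpos hy0
    have hD : 0 ≤ δ * δ ^ α := by positivity
    have hcC : 0 ≤ 4 * C / c * (16 * (δ * δ ^ α)) := by positivity
    have eC : (32 * C + 64 * C / c) * (δ * δ ^ α)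
        = 2 * (C * (16 * (δ * δ ^ α))) + 4 * C / c * (16 * (δ * δ ^ α)) := by ring
    rw [eC]
    rcases le_total 0 ⟪ν z', y - z'⟫ with h | h
    · rw [max_eq_left h] at e2
      exact abs_le.2 ⟨by linarith [e1.1, e2.2], by linarith [e1.2, e2.1]⟩
    · rw [max_eq_right h] at e2
      exact abs_le.2 ⟨by linarith [e1.1, e2.2], by linarith [e1.2, e2.1]⟩
  have k1 := key (δ • e) (by rw [norm_smul, hen, Real.norm_eq_abs, abs_of_pos h0, mul_one]) _ rfl
  have k2 := key 0 (by rw [norm_zero]; exact h0.le) _ rfl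
  have hin : ⟪ν z - ν z', e⟫ = ‖ν z - ν z'‖ := by
    rw [he', inner_smul_right, real_inner_self_eq_norm_sq, sq, ← mul_assoc,
      inv_mul_cancel₀ (norm_ne_zero_iff.2 he), one_mul]
  have hdiff : (⟪ν z, z + (2 * δ) • ν z + δ • e - z⟫ - ⟪ν z', z + (2 * δ) • ν z + δ • e - z'⟫)
      - (⟪ν z, z + (2 * δ) • ν z + 0 - z⟫ - ⟪ν z', z + (2 * δ) • ν z + 0 - z'⟫)
      = δ * ‖ν z - ν z'‖ := by
    rw [← hin, inner_sub_left]
    simp only [inner_add_right, inner_sub_right, inner_smul_right, inner_zero_right]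
    ring
  have a1 := abs_le.1 k1
  have a2 := abs_le.1 k2
  have : δ * ‖ν z - ν z'‖ ≤ δ * (2 * (32 * C + 64 * C / c) * δ ^ α) := by
    rw [← hdiff]; linarith [a1.2, a2.1]
  have h3 := le_of_mul_le_mul_left this h0
  refine h3.trans ?_
  refine mul_le_mul_of_nonneg_right ?_ hX
  linarith [show 0 ≤ 2 / δ₀ ^ α by positivity]

end Vale.Agent.P098.B5
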