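import Vale.Agent.P098.Divergence

/-!
P098, block B5: averages `∫ k z f (x - τ z) dz` against a compactly supported kernel, their
derivatives in `(τ, x)` and their bounds on Hölder functions; the mollifier `rho`, whose radial
potential `sig` satisfies `∂ᵢ sig = -xᵢ rho`, so that `∂_τ` of a mollification is a Laplacian.
-/

open MeasureTheory Filter Set
open scoped Topology ContDiff

namespace Vale.Agent.P098.B5

variable {d : ℕ}

/-- The `i`-th coordinate vector. -/
noncomputable abbrev bas (i : Fin d) : Euc d := EuclideanSpace.single i 1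

lemma sum_smul_bas (x : Euc d) : ∑ i, x i • bas i = x := by
  ext j
  simp [bas, Pi.single_apply]

lemma clm_apply_eq (L : Euc d →L[ℝ] ℝ) (x : Euc d) : L x = ∑ i, x i * L (bas i) := by
  conv_lhs => rw [← sum_smul_bas x]
  simp

lemma contDiff_pd {n : WithTop ℕ∞} {k : Euc d → ℝ} (hk : ContDiff ℝ (n + 1) k) (i : Fin d) :
    ContDiff ℝ n (pd i k) :=
  (hk.fderiv_right le_rfl).clm_apply contDiff_const

/-- A kernel: continuous and vanishing outside the closed unit ball. -/
structure IsKernel (k : Euc d → ℝ) : Prop where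
  cont : Continuous k
  supp : ∀ x, 1 < ‖x‖ → k x = 0

lemma IsKernel.hasCompactSupport {k : Euc d → ℝ} (hk : IsKernel k) : HasCompactSupport k :=
  HasCompactSupport.intro (isCompact_closedBall 0 1) fun x hx =>
    hk.supp x (by simpa using hx)

lemma IsKernel.pd {k : Euc d → ℝ} (hk : IsKernel k) (h : ContDiff ℝ 1 k) (i : Fin d) :
    IsKernel (pd i k) := by
  refine ⟨continuous_pd h i, fun x hx => pd_eq_zero_of_eventually ?_ i⟩
  filter_upwards [(isOpen_lt continuous_const continuous_norm).mem_nhds hx] with y hy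
  exact hk.supp y hy

/-- The average of `f` against `k` at scale `τ` about `x`. -/
noncomputable def avg (k f : Euc d → ℝ) (τ : ℝ) (x : Euc d) : ℝ :=
  ∫ z, k z * f (x - τ • z)

/-- The kernel of `τ ∂_τ`. -/
noncomputable def euler (k : Euc d → ℝ) (z : Euc d) : ℝ :=
  -((d : ℝ) * k z + ∑ i, z i * pd i k z)

lemma IsKernel.euler {k : Euc d → ℝ} (hk : IsKernel k) (h : ContDiff ℝ 1 k) :
    IsKernel (euler k) := by
  refine ⟨?_, fun x hx => ?_⟩
  · exact ((continuous_const.mul hk.cont).add (continuous_finsetSum _ fun i _ =>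
      (EuclideanSpace.proj (𝕜 := ℝ) i).continuous.mul (continuous_pd h i))).neg
  · simp [B5.euler, hk.supp x hx, fun i => (hk.pd h i).supp x hx]

lemma avg_eq_scaled (k f : Euc d → ℝ) {τ : ℝ} (hτ : 0 < τ) (x : Euc d) :
    avg k f τ x = (τ ^ d)⁻¹ * ∫ y, k (τ⁻¹ • (x - y)) * f y := by
  have h1 := Measure.integral_comp_smul (μ := (volume : Measure (Euc d)))
    (fun w => k (τ⁻¹ • w) * f (x - w)) τ
  simp only [inv_smul_smul₀ hτ.ne', finrank_euclideanSpace_fin, smul_eq_mul] at h1
  rw [avg, h1, abs_of_pos (by positivity),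
    ← integral_sub_left_eq_self (fun w => k (τ⁻¹ • w) * f (x - w)) volume x]
  congr 1
  refine integral_congr_ae (Eventually.of_forall fun y => ?_)
  simp

lemma integrable_avg {k f : Euc d → ℝ} (hk : IsKernel k) (hf : Measurable f) {M : ℝ}
    (hM : ∀ y, |f y| ≤ M) (τ : ℝ) (x : Euc d) :
    Integrable fun z => k z * f (x - τ • z) :=
  (hk.cont.integrable_of_hasCompactSupport hk.hasCompactSupport).mul_bdd (c := M)
    (hf.comp (measurable_const.sub (measurable_id.const_smul τ))).aestronglyMeasurable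
    (Eventually.of_forall fun z => by simpa using hM _)

lemma hasFDerivAt_avg {k f : Euc d → ℝ} (hk : IsKernel k) (h1 : ContDiff ℝ 1 k)
    (hf : Measurable f) {M : ℝ} (hM : ∀ y, |f y| ≤ M) {τ : ℝ} (hτ : 0 < τ) (x : Euc d) :
    ∃ L : ℝ × Euc d →L[ℝ] ℝ, HasFDerivAt (fun p : ℝ × Euc d => avg k f p.1 p.2) L (τ, x) ∧
      ∀ a v, L (a, v) = τ⁻¹ * (a * avg (euler k) f τ x + ∑ i, v i * avg (pd i k) f τ x) := by
  set z : ℝ × Euc d → Euc d → Euc d := fun p y => p.1⁻¹ • (p.2 - y) with hz
  set Z' : ℝ × Euc d → Euc d → (ℝ × Euc d →L[ℝ] Euc d) := fun p y =>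
    p.1⁻¹ • ContinuousLinearMap.snd ℝ ℝ (Euc d) +
      (ContinuousLinearMap.fst ℝ ℝ (Euc d)).smulRight (-(p.1 ^ 2)⁻¹ • (p.2 - y)) with hZ'
  set S : Set (ℝ × Euc d) := Icc (τ / 2) (2 * τ) ×ˢ Metric.closedBall x 1 with hS
  have hSn : S ∈ 𝓝 (τ, x) :=
    prod_mem_nhds (Icc_mem_nhds (by linarith) (by linarith)) (Metric.closedBall_mem_nhds x one_pos)
  have hzd : ∀ p : ℝ × Euc d, p.1 ≠ 0 → ∀ y, HasFDerivAt (fun q => z q y) (Z' p y) p := by
    intro p hp y
    have := ((hasDerivAt_inv hp).hasFDerivAt.comp p (hasFDerivAt_fst (p := p))).fun_smul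
      ((hasFDerivAt_snd (p := p)).sub_const y)
    refine HasFDerivAt.congr_fderiv (by simpa [hz, Function.comp_def] using this) ?_
    ext v <;> simp [hZ', smul_smul, mul_comm]
  set F' : ℝ × Euc d → Euc d → (ℝ × Euc d →L[ℝ] ℝ) :=
    fun p y => f y • (fderiv ℝ k (z p y)).comp (Z' p y) with hF'
  have hcd : Continuous (fderiv ℝ k) := h1.continuous_fderiv one_ne_zero
  have hout : ∀ p ∈ S, ∀ y, y ∉ Metric.closedBall x (1 + 2 * τ) → 1 < ‖z p y‖ := by
    rintro ⟨s, w⟩ ⟨⟨hs1, hs2⟩, hw⟩ y hy
    simp only [Metric.mem_closedBall, dist_eq_norm] at hy hw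
    simp only [hz, norm_smul, Real.norm_eq_abs]
    simp only at hs1 hs2 hw
    have h2 : 2 * τ < ‖w - y‖ := by
      have e : ‖y - x‖ ≤ ‖w - y‖ + ‖w - x‖ := by
        have := norm_sub_le_norm_sub_add_norm_sub y w x
        rwa [norm_sub_rev y w] at this
      linarith [not_le.1 hy]
    have hs : 0 < s := by linarith
    rw [abs_of_pos (inv_pos.2 hs), lt_inv_mul_iff₀ hs]
    linarith
  have hfd0 : ∀ v, 1 < ‖v‖ → fderiv ℝ k v = 0 := fun v hv => by
    have : k =ᶠ[𝓝 v] fun _ => 0 := by
      filter_upwards [(isOpen_lt continuous_const continuous_norm).mem_nhds hv] with y hy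
      exact hk.supp y hy
    rw [this.fderiv_eq]
    simp
  have hcompact : IsCompact (S ×ˢ Metric.closedBall x (1 + 2 * τ)) :=
    (isCompact_Icc.prod (isCompact_closedBall _ _)).prod (isCompact_closedBall _ _)
  have hzc : ContinuousOn (fun q : (ℝ × Euc d) × Euc d => z q.1 q.2)
      (S ×ˢ (univ : Set (Euc d))) := by
    have h1 : ContinuousOn (fun q : (ℝ × Euc d) × Euc d => q.1.1) (S ×ˢ univ) := by fun_prop
    have h2 : ContinuousOn (fun q : (ℝ × Euc d) × Euc d => q.1.2 - q.2) (S ×ˢ univ) := by fun_prop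
    refine (h1.inv₀ fun q hq => ?_).smul h2
    have := hq.1.1.1
    exact ne_of_gt (lt_of_lt_of_le (by linarith) this)
  have hgc : ContinuousOn (fun q : (ℝ × Euc d) × Euc d => (fderiv ℝ k (z q.1 q.2)).comp (Z' q.1 q.2))
      (S ×ˢ (univ : Set (Euc d))) := by
    refine (hcd.comp_continuousOn hzc).clm_comp ?_
    have hi : ∀ q ∈ S ×ˢ (univ : Set (Euc d)), (q.1.1 : ℝ) ≠ 0 := fun q hq => by
      have := hq.1.1.1
      exact ne_of_gt (lt_of_lt_of_le (by linarith) this)
    have hc1 : ContinuousOn (fun q : (ℝ × Euc d) × Euc d => q.1.1⁻¹) (S ×ˢ univ) :=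
      ContinuousOn.inv₀ (by fun_prop) hi
    have hc2 : ContinuousOn (fun q : (ℝ × Euc d) × Euc d => -(q.1.1 ^ 2)⁻¹) (S ×ˢ univ) :=
      (ContinuousOn.inv₀ (by fun_prop) fun q hq => pow_ne_zero 2 (hi q hq)).neg
    simp only [hZ']
    refine (hc1.smul continuousOn_const).add ?_
    exact (ContinuousLinearMap.smulRightL ℝ (ℝ × Euc d) (Euc d)
      (ContinuousLinearMap.fst ℝ ℝ (Euc d))).continuous.comp_continuousOn (hc2.smul (by fun_prop))
  obtain ⟨B, hB⟩ := (hcompact.image_of_continuousOn
    (hgc.mono (prod_mono le_rfl (subset_univ _)))).isBounded.exists_norm_le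
  have hmeasF : ∀ᶠ p in 𝓝 (τ, x),
      AEStronglyMeasurable (fun y => k (z p y) * f y) volume :=
    Eventually.of_forall fun p =>
      ((hk.cont.comp (by simp only [hz]; fun_prop)).measurable.mul hf).aestronglyMeasurable
  have hint : ∀ (g : Euc d → ℝ), IsKernel g → Integrable fun y => g (z (τ, x) y) * f y := by
    intro g hg
    refine Integrable.mul_bdd (c := M) ?_ hf.aestronglyMeasurable
      (Eventually.of_forall fun y => by simpa using hM y)
    refine (hg.cont.comp (by simp only [hz]; fun_prop)).integrable_of_hasCompactSupport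
      (HasCompactSupport.intro (isCompact_closedBall x (1 + 2 * τ)) fun y hy => hg.supp _
        (hout _ (mem_of_mem_nhds hSn) y hy))
  have hmeasF' : AEStronglyMeasurable (F' (τ, x)) volume := by
    refine hf.stronglyMeasurable.aestronglyMeasurable.smul (Continuous.aestronglyMeasurable ?_)
    exact hgc.comp_continuous (f := fun y : Euc d => ((τ, x), y)) (by fun_prop)
      fun y => ⟨mem_of_mem_nhds hSn, trivial⟩
  have hbd : ∀ᵐ y ∂volume, ∀ p ∈ S,
      ‖F' p y‖ ≤ (Metric.closedBall x (1 + 2 * τ)).indicator (fun _ => |M| * |B|) y := by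
    refine Eventually.of_forall fun y p hp => ?_
    by_cases hy : y ∈ Metric.closedBall x (1 + 2 * τ)
    · rw [indicator_of_mem hy, hF', norm_smul, Real.norm_eq_abs]
      exact mul_le_mul ((hM y).trans (le_abs_self M))
        ((hB _ ⟨(p, y), ⟨hp, hy⟩, rfl⟩).trans (le_abs_self B)) (norm_nonneg _) (abs_nonneg M)
    · rw [indicator_of_notMem hy]
      simp only [hF', hfd0 _ (hout p hp y hy)]
      simp
  have hdiff : ∀ᵐ y ∂volume, ∀ p ∈ S, HasFDerivAt (fun q => k (z q y) * f y) (F' p y) p := by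
    refine Eventually.of_forall fun y p hp => ?_
    have hp0 : p.1 ≠ 0 := ne_of_gt (lt_of_lt_of_le (by linarith) hp.1.1)
    exact ((h1.differentiable one_ne_zero _).hasFDerivAt.comp p (hzd p hp0 y)).mul_const (f y)
  have hI := hasFDerivAt_integral_of_dominated_of_fderiv_le hSn hmeasF (hint k hk) hmeasF' hbd
    ((integrable_indicator_iff measurableSet_closedBall).2
      (integrableOn_const (isCompact_closedBall _ _).measure_lt_top.ne)) hdiff
  set I := ∫ y, k (z (τ, x) y) * f y with hIdef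
  have hpow : HasFDerivAt (fun p : ℝ × Euc d => (p.1 ^ d)⁻¹)
      ((-((d : ℝ) * τ⁻¹ * (τ ^ d)⁻¹)) • ContinuousLinearMap.fst ℝ ℝ (Euc d)) (τ, x) := by
    have h := HasDerivAt.comp_hasFDerivAt (f := Prod.fst) ((τ, x) : ℝ × Euc d)
      (((hasDerivAt_pow d τ).inv (by positivity)) : HasDerivAt _ _ ((τ, x) : ℝ × Euc d).1)
      (hasFDerivAt_fst (𝕜 := ℝ) (p := ((τ, x) : ℝ × Euc d)))
    refine HasFDerivAt.congr_fderiv h ?_
    congr 1
    rcases Nat.eq_zero_or_pos d with h0 | h0
    · subst h0; simp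
    · have : τ ^ d = τ ^ (d - 1) * τ := by rw [← pow_succ, Nat.sub_add_cancel h0]
      rw [this]
      field_simp
  have hev : (fun p : ℝ × Euc d => avg k f p.1 p.2)
      =ᶠ[𝓝 (τ, x)] fun p => (p.1 ^ d)⁻¹ * ∫ y, k (z p y) * f y := by
    filter_upwards [hSn] with p hp
    exact avg_eq_scaled k f (lt_of_lt_of_le (by linarith) hp.1.1) p.2
  refine ⟨_, (hpow.mul hI).congr_of_eventuallyEq hev, fun a v => ?_⟩
  have hF'int : Integrable (F' (τ, x)) := by
    refine Integrable.mono' (g := (Metric.closedBall x (1 + 2 * τ)).indicator fun _ => |M| * |B|)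
      ((integrable_indicator_iff measurableSet_closedBall).2
        (integrableOn_const (isCompact_closedBall _ _).measure_lt_top.ne)) hmeasF' ?_
    filter_upwards [hbd] with y hy using hy _ (mem_of_mem_nhds hSn)
  have e1 : (∫ y, F' (τ, x) y) (a, v) = τ⁻¹ * ∫ y,
      (∑ i, v i * (pd i k (z (τ, x) y) * f y)
        - a * ∑ i, z (τ, x) y i * (pd i k (z (τ, x) y) * f y)) := by
    rw [ContinuousLinearMap.integral_apply hF'int, ← integral_const_mul]
    refine integral_congr_ae (Eventually.of_forall fun y => ?_)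
    have e : Z' (τ, x) y (a, v) = τ⁻¹ • (v - a • z (τ, x) y) := by
      simp only [hZ', hz]
      simp only [add_apply, smul_apply, ContinuousLinearMap.coe_snd',
        ContinuousLinearMap.smulRight_apply, ContinuousLinearMap.coe_fst', neg_smul, smul_neg,
        smul_smul, smul_sub]
      rw [show τ⁻¹ * (a * τ⁻¹) = a * (τ ^ 2)⁻¹ by field_simp]
      abel
    simp only [hF', smul_apply, ContinuousLinearMap.comp_apply, e, map_smul,
      map_sub, smul_eq_mul, clm_apply_eq (fderiv ℝ k _) v, clm_apply_eq (fderiv ℝ k _) (z _ _)]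
    simp only [pd, mul_sub, Finset.mul_sum, bas]
    congr 1 <;> exact Finset.sum_congr rfl fun i _ => by ring
  have hI1 : ∀ i, Integrable fun y => pd i k (z (τ, x) y) * f y := fun i => hint _ (hk.pd h1 i)
  have hI2 : ∀ i, Integrable fun y => z (τ, x) y i * (pd i k (z (τ, x) y) * f y) := by
    intro i
    have hk' : IsKernel fun w : Euc d => w i * pd i k w :=
      ⟨(EuclideanSpace.proj (𝕜 := ℝ) i).continuous.mul (continuous_pd h1 i),
        fun w hw => by simp [(hk.pd h1 i).supp w hw]⟩
    simpa [mul_assoc] using hint _ hk'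
  have e2 : avg (euler k) f τ x = -((d : ℝ) * ((τ ^ d)⁻¹ * I)
      + (τ ^ d)⁻¹ * ∫ y, ∑ i, z (τ, x) y i * (pd i k (z (τ, x) y) * f y)) := by
    rw [avg_eq_scaled _ _ hτ, hIdef]
    have : ∀ y, euler k (τ⁻¹ • (x - y)) * f y = -((d : ℝ) * (k (z (τ, x) y) * f y)
        + ∑ i, z (τ, x) y i * (pd i k (z (τ, x) y) * f y)) := fun y => by
      simp only [B5.euler, hz, neg_mul, add_mul, Finset.sum_mul, mul_assoc]
    simp only [this, integral_neg]
    rw [integral_add ((hint k hk).const_mul _) (integrable_finsetSum _ fun i _ => hI2 i),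
      integral_const_mul]
    ring
  have e3 : ∀ i, avg (pd i k) f τ x = (τ ^ d)⁻¹ * ∫ y, pd i k (z (τ, x) y) * f y :=
    fun i => avg_eq_scaled _ _ hτ x
  simp only [add_apply, smul_apply, smul_eq_mul, e1]
  rw [integral_sub (integrable_finsetSum _ fun i _ => (hI1 i).const_mul _)
      ((integrable_finsetSum _ fun i _ => hI2 i).const_mul _),
    integral_finsetSum _ fun i _ => (hI1 i).const_mul _, integral_const_mul, e2]
  have e4 : ∑ i, v i * avg (pd i k) f τ x
      = (τ ^ d)⁻¹ * ∑ i, v i * ∫ y, pd i k (z (τ, x) y) * f y := by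
    rw [Finset.mul_sum]
    exact Finset.sum_congr rfl fun i _ => by rw [e3]; ring
  rw [e4]
  simp only [integral_const_mul, ContinuousLinearMap.coe_fst', hIdef]
  ring

lemma hasDerivAt_avg {k f : Euc d → ℝ} (hk : IsKernel k) (h1 : ContDiff ℝ 1 k)
    (hf : Measurable f) {M : ℝ} (hM : ∀ y, |f y| ≤ M) {τ : ℝ} (hτ : 0 < τ) (x : Euc d) :
    HasDerivAt (fun s => avg k f s x) (τ⁻¹ * avg (euler k) f τ x) τ := by
  obtain ⟨L, hL, hap⟩ := hasFDerivAt_avg hk h1 hf hM hτ x
  have h := hL.comp_hasDerivAt τ ((hasDerivAt_id τ).prodMk (hasDerivAt_const τ x))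
  rw [hap] at h
  simpa [Function.comp_def] using h

/-! ### Bounds -/

lemma abs_avg_le {k f : Euc d → ℝ} (hk : IsKernel k) {M τ : ℝ} {x : Euc d}
    (hM : ∀ z, ‖z‖ ≤ 1 → |f (x - τ • z)| ≤ M) :
    |avg k f τ x| ≤ (∫ z, |k z|) * M := by
  rw [avg, ← integral_mul_const]
  refine norm_integral_le_of_norm_le (f := fun z => k z * f (x - τ • z))
    ((hk.cont.abs.integrable_of_hasCompactSupport hk.hasCompactSupport.norm).mul_const M)
    (Eventually.of_forall fun z => ?_)
  rw [Real.norm_eq_abs, abs_mul]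
  by_cases hz : ‖z‖ ≤ 1
  · exact mul_le_mul_of_nonneg_left (hM z hz) (abs_nonneg _)
  · simp [hk.supp z (not_le.1 hz)]

/-- `f` is `α`-Hölder with constant `K`. -/
def Hold (α K : ℝ) (f : Euc d → ℝ) : Prop := ∀ x y, |f x - f y| ≤ K * ‖x - y‖ ^ α

lemma Hold.continuous {α K : ℝ} {f : Euc d → ℝ} (hα : 0 < α) (h : Hold α K f) :
    Continuous f := by
  refine continuous_iff_continuousAt.2 fun x => tendsto_iff_norm_sub_tendsto_zero.2 ?_
  refine squeeze_zero (fun _ => norm_nonneg _) (fun y => h y x) ?_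
  have hc : Continuous fun y : Euc d => K * ‖y - x‖ ^ α :=
    continuous_const.mul ((continuous_norm.comp (continuous_id.sub continuous_const)).rpow_const
      fun _ => Or.inr hα.le)
  simpa [Real.zero_rpow hα.ne'] using hc.tendsto x

lemma Hold.nonneg [NeZero d] {α K : ℝ} {f : Euc d → ℝ} (h : Hold α K f) : 0 ≤ K := by
  have := (abs_nonneg _).trans (h (bas 0) 0)
  simpa [bas] using this

lemma abs_avg_le_hold {k f : Euc d → ℝ} (hk : IsKernel k) (h0 : ∫ z, k z = 0) {α K τ : ℝ}
    (hα : 0 < α) (hK : 0 ≤ K) (hf : Hold α K f) (hτ : 0 ≤ τ) (x : Euc d) :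
    |avg k f τ x| ≤ (∫ z, |k z|) * (K * τ ^ α) := by
  have e : avg k f τ x = avg k (fun y => f y - f x) τ x := by
    have hint : Integrable fun z => k z * f (x - τ • z) :=
      (hk.cont.mul ((hf.continuous hα).comp (by fun_prop))).integrable_of_hasCompactSupport
        hk.hasCompactSupport.mul_right
    simp only [avg, mul_sub]
    rw [integral_sub hint
      ((hk.cont.integrable_of_hasCompactSupport hk.hasCompactSupport).mul_const _),
      integral_mul_const, h0, zero_mul, sub_zero]
  rw [e]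
  refine abs_avg_le hk fun z hz => (hf _ _).trans ?_
  refine mul_le_mul_of_nonneg_left (Real.rpow_le_rpow (norm_nonneg _) ?_ hα.le) hK
  rw [sub_sub_cancel_left, norm_neg, norm_smul, Real.norm_eq_abs, abs_of_nonneg hτ]
  exact mul_le_of_le_one_right hτ hz

/-- A shift of the centre is a shift of the kernel. -/
lemma avg_add {k f : Euc d → ℝ} (τ : ℝ) (x a : Euc d) :
    avg k f τ (x + τ • a) = ∫ z, k (z + a) * f (x - τ • z) := by
  rw [avg, ← integral_add_right_eq_self (fun z => k z * f (x + τ • a - τ • z)) a]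
  refine integral_congr_ae (Eventually.of_forall fun z => ?_)
  simp only [smul_add]
  congr 2
  abel

/-- Lipschitz dependence of an average on its centre. -/
lemma exists_avg_shift {k : Euc d → ℝ} (hk : IsKernel k) (h1 : ContDiff ℝ 1 k) :
    ∃ C, 0 ≤ C ∧ ∀ (f : Euc d → ℝ) (τ M : ℝ) (x a : Euc d), Measurable f → ‖a‖ ≤ 1 →
      (∀ z, ‖z‖ ≤ 2 → |f (x - τ • z) - f x| ≤ M) →
        |avg k f τ (x + τ • a) - avg k f τ x| ≤ C * M * ‖a‖ := by
  obtain ⟨L, hL⟩ := h1.lipschitzWith_of_hasCompactSupport hk.hasCompactSupport one_ne_zero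
  refine ⟨L * (volume (Metric.closedBall (0 : Euc d) 2)).toReal, by positivity, ?_⟩
  intro f τ M x a hf ha hM
  have hM0 : 0 ≤ M := (abs_nonneg _).trans (hM 0 (by simp))
  set g : Euc d → ℝ := fun z => f (x - τ • z) with hg
  have hgm : Measurable g := hf.comp (measurable_const.sub (measurable_id.const_smul τ))
  have hk2 : ∀ z : Euc d, 2 < ‖z‖ → k z = 0 ∧ k (z + a) = 0 := fun z hz => by
    refine ⟨hk.supp z (by linarith), hk.supp _ ?_⟩
    have := norm_sub_le (z + a) a
    rw [add_sub_cancel_right] at this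
    linarith
  have hgb : ∀ z, ‖z‖ ≤ 2 → |g z| ≤ M + |f x| := fun z hz => by
    calc |g z| = |(g z - f x) + f x| := by ring_nf
      _ ≤ |g z - f x| + |f x| := abs_add_le _ _
      _ ≤ M + |f x| := by linarith [hM z hz]
  have hfin : volume (Metric.closedBall (0 : Euc d) 2) ≠ ⊤ :=
    (isCompact_closedBall _ _).measure_lt_top.ne
  have hint : ∀ q : Euc d → ℝ, Continuous q → (∀ z, 2 < ‖z‖ → q z = 0) →
      Integrable fun z => q z * g z := by
    intro q hq hq0
    have hqs : HasCompactSupport q := HasCompactSupport.intro (isCompact_closedBall 0 2)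
      fun z hz => hq0 z (by simpa using hz)
    refine ((hq.integrable_of_hasCompactSupport hqs).norm.mul_const (M + |f x|)).mono'
      (hq.measurable.mul hgm).aestronglyMeasurable (Eventually.of_forall fun z => ?_)
    rw [norm_mul]
    by_cases hz : ‖z‖ ≤ 2
    · exact mul_le_mul_of_nonneg_left (hgb z hz) (norm_nonneg _)
    · simp [hq0 z (not_le.1 hz)]
  have hka : Continuous fun z => k (z + a) := hk.cont.comp (by fun_prop)
  have hki : Integrable k := hk.cont.integrable_of_hasCompactSupport hk.hasCompactSupport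
  have e : avg k f τ (x + τ • a) - avg k f τ x
      = ∫ z, (k (z + a) - k z) * (g z - f x) := by
    rw [avg_add, avg]
    rw [← integral_sub (hint _ hka fun z hz => (hk2 z hz).2)
      (hint _ hk.cont fun z hz => (hk2 z hz).1)]
    have h0 : ∫ z, (k (z + a) - k z) * f x = 0 := by
      rw [integral_mul_const, integral_sub (hki.comp_add_right a) hki,
        integral_add_right_eq_self k a, sub_self, zero_mul]
    have e0 : ∀ z : Euc d, (k (z + a) - k z) * (g z - f x)
        = (k (z + a) - k z) * g z - (k (z + a) - k z) * f x := fun z => mul_sub _ _ _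
    simp only [e0]
    rw [integral_sub (f := fun z => (k (z + a) - k z) * g z)
      (g := fun z => (k (z + a) - k z) * f x), h0, sub_zero]
    · simp only [sub_mul]
    · refine ((hint _ hka fun z hz => (hk2 z hz).2).sub
        (hint _ hk.cont fun z hz => (hk2 z hz).1)).congr (Eventually.of_forall fun z => ?_)
      simp [sub_mul]
    · exact ((hki.comp_add_right a).sub hki).mul_const _
  rw [e]
  refine (norm_integral_le_of_norm_le (f := fun z => (k (z + a) - k z) * (g z - f x))
    (g := (Metric.closedBall (0 : Euc d) 2).indicator fun _ => L * ‖a‖ * M)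
    ((integrable_indicator_iff measurableSet_closedBall).2 (integrableOn_const hfin))
    (Eventually.of_forall fun z => ?_)).trans (le_of_eq ?_)
  · by_cases hz : ‖z‖ ≤ 2
    · rw [indicator_of_mem (by simpa using hz), norm_mul, Real.norm_eq_abs (g z - f x)]
      refine mul_le_mul ?_ (hM z hz) (abs_nonneg _) (by positivity)
      simpa using hL.norm_sub_le (z + a) z
    · obtain ⟨e1, e2⟩ := hk2 z (not_le.1 hz)
      rw [indicator_of_notMem (by simpa using hz), e1, e2]
      simp
  · rw [integral_indicator_const _ measurableSet_closedBall, smul_eq_mul, measureReal_def]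
    ring

/-! ### The mollifier -/

/-- The radial potential before normalisation. -/
noncomputable def sig0 (x : Euc d) : ℝ := Real.smoothTransition (1 - ‖x‖ ^ 2)

/-- The mollifier before normalisation. -/
noncomputable def rho0 (x : Euc d) : ℝ := 2 * deriv Real.smoothTransition (1 - ‖x‖ ^ 2)

/-- The mollifier. -/
noncomputable def rho (x : Euc d) : ℝ := rho0 x / ∫ y : Euc d, rho0 y

/-- The potential of the mollifier. -/
noncomputable def sig (x : Euc d) : ℝ := sig0 x / ∫ y : Euc d, rho0 y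

lemma contDiff_sig0 : ContDiff ℝ ∞ (sig0 : Euc d → ℝ) :=
  Real.smoothTransition.contDiff.comp (contDiff_const.sub (contDiff_norm_sq ℝ))

lemma contDiff_rho0 : ContDiff ℝ ∞ (rho0 : Euc d → ℝ) := by
  have h : ContDiff ℝ ∞ (deriv Real.smoothTransition) :=
    (contDiff_infty_iff_deriv.1 Real.smoothTransition.contDiff).2
  exact contDiff_const.mul (h.comp (contDiff_const.sub (contDiff_norm_sq ℝ)))

lemma contDiff_sig : ContDiff ℝ ∞ (sig : Euc d → ℝ) := contDiff_sig0.div_const _

lemma contDiff_rho : ContDiff ℝ ∞ (rho : Euc d → ℝ) := contDiff_rho0.div_const _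

lemma isKernel_sig : IsKernel (sig : Euc d → ℝ) :=
  ⟨contDiff_sig.continuous, fun x hx => by
    rw [sig, sig0, Real.smoothTransition.zero_of_nonpos (by nlinarith), zero_div]⟩

lemma rho0_eq_zero {x : Euc d} (hx : 1 < ‖x‖) : rho0 x = 0 := by
  have h : Real.smoothTransition =ᶠ[𝓝 (1 - ‖x‖ ^ 2)] fun _ => 0 := by
    filter_upwards [gt_mem_nhds (show 1 - ‖x‖ ^ 2 < 0 by nlinarith)] with y hy
    exact Real.smoothTransition.zero_of_nonpos hy.le
  simp [rho0, h.deriv_eq]

lemma isKernel_rho : IsKernel (rho : Euc d → ℝ) :=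
  ⟨contDiff_rho.continuous, fun x hx => by simp [rho, rho0_eq_zero hx]⟩

lemma rho_nonneg_aux (x : Euc d) : 0 ≤ rho0 x :=
  mul_nonneg zero_le_two Real.smoothTransition.monotone.deriv_nonneg

lemma integral_rho0_pos [NeZero d] : 0 < ∫ y : Euc d, rho0 y := by
  obtain ⟨c, hc, hc'⟩ := exists_deriv_eq_slope Real.smoothTransition (show (0 : ℝ) < 1 by norm_num)
    Real.smoothTransition.continuous.continuousOn
    ((Real.smoothTransition.contDiff (n := 1)).differentiable one_ne_zero).differentiableOn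
  simp only [Real.smoothTransition.one, Real.smoothTransition.zero, sub_zero, div_one] at hc'
  refine integral_pos_of_integrable_nonneg_nonzero (x := Real.sqrt (1 - c) • bas 0)
    contDiff_rho0.continuous
    (contDiff_rho0.continuous.integrable_of_hasCompactSupport
      (HasCompactSupport.intro (isCompact_closedBall 0 1) fun x hx =>
        rho0_eq_zero (by simpa using hx))) (fun x => rho_nonneg_aux x) ?_
  have e : ‖Real.sqrt (1 - c) • bas (0 : Fin d)‖ ^ 2 = 1 - c := by
    rw [norm_smul, PiLp.norm_single, norm_one, mul_one, Real.norm_eq_abs, sq_abs,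
      Real.sq_sqrt (by linarith [hc.2])]
  simp [rho0, e, hc']

lemma integral_rho [NeZero d] : ∫ x : Euc d, rho x = 1 := by
  simp only [rho]
  rw [integral_div, div_self integral_rho0_pos.ne']

lemma pd_sig (i : Fin d) (x : Euc d) : pd i sig x = -(x i * rho x) := by
  have hd : DifferentiableAt ℝ Real.smoothTransition (1 - ‖x‖ ^ 2) :=
    (Real.smoothTransition.contDiff (n := 1)).differentiable one_ne_zero _
  have h1 : HasFDerivAt sig _ x :=
    ((hd.hasDerivAt.comp_hasFDerivAt x ((hasFDerivAt_id x).norm_sq.const_sub 1)).const_mul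
      (∫ y : Euc d, rho0 y)⁻¹).congr_of_eventuallyEq
      (Eventually.of_forall fun y => by simp [sig, sig0, div_eq_inv_mul])
  rw [pd, h1.fderiv]
  simp [rho, rho0, EuclideanSpace.inner_single_right]
  ring

lemma euler_rho (x : Euc d) : euler rho x = ∑ i, pd i (pd i sig) x := by
  have h : ∀ i : Fin d, pd i (pd i sig) x = -(rho x + x i * pd i rho x) := fun i => by
    have e : pd i (sig : Euc d → ℝ) = fun y => -(EuclideanSpace.proj (𝕜 := ℝ) i y * rho y) :=
      funext fun y => pd_sig i y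
    rw [e, pd, fderiv_fun_neg, fderiv_fun_mul (EuclideanSpace.proj (𝕜 := ℝ) i).differentiableAt
      (contDiff_rho.differentiable (by simp) x), ContinuousLinearMap.fderiv]
    simp [pd]
    ring
  simp [h, euler, Finset.sum_add_distrib]

lemma integral_pd_kernel {k : Euc d → ℝ} (hk : IsKernel k) (h1 : ContDiff ℝ 1 k) (i : Fin d) :
    ∫ x, pd i k x = 0 :=
  integral_pd_eq_zero h1 hk.hasCompactSupport i

lemma integral_euler_rho : ∫ x : Euc d, euler rho x = 0 := by
  have h1 : ∀ i : Fin d, ContDiff ℝ 1 (pd i (sig : Euc d → ℝ)) := fun i =>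
    contDiff_pd (contDiff_sig.of_le (WithTop.coe_le_coe.2 le_top)) i
  have hk : ∀ i : Fin d, IsKernel (pd i (sig : Euc d → ℝ)) := fun i =>
    isKernel_sig.pd (contDiff_sig.of_le (WithTop.coe_le_coe.2 le_top)) i
  simp only [euler_rho]
  rw [integral_finsetSum _ fun i _ => ((hk i).pd (h1 i) i).cont.integrable_of_hasCompactSupport
    ((hk i).pd (h1 i) i).hasCompactSupport]
  exact Finset.sum_eq_zero fun i _ => integral_pd_kernel (hk i) (h1 i) i

end Vale.Agent.P098.B5
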