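import Vale.Agent.P098.Regularity.B5.Hol

/-!
P098, block B5: one tangential derivative by difference quotients, and regularity of all orders
for the linear Neumann problem.
-/

open MeasureTheory Filter Set
open scoped Topology ContDiff

namespace Vale.Agent.P098.B5

variable {d : ℕ} {t : Fin d} {α ε R r : ℝ}

/-- A threshold for which the linear estimate holds. -/
def GoodEps (t : Fin d) (α ε : ℝ) : Prop :=
  0 < ε ∧ ε ≤ 1 / 2 ∧ ∀ r R M : ℝ, 0 < r → r < R → R ≤ 1 → 0 ≤ M → ∃ C : ℝ, 0 ≤ C ∧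
    ∀ (A : Fin d → Fin d → Euc d → ℝ) (F : Fin d → Euc d → ℝ) (w : Euc d → ℝ)
      (dw : Fin d → Euc d → ℝ) (N : ℝ), 0 ≤ N → IsLinSol t R α A F w dw →
      (∀ j k, ∀ x ∈ hball t R, |A j k x - if j = k then 1 else 0| ≤ ε) →
      (∀ j k, ∀ x ∈ hball t R, ∀ y ∈ hball t R, |A j k x - A j k y| ≤ M * ‖x - y‖ ^ α) →
      (∀ j, ∀ x ∈ hball t R, |F j x| ≤ N) →
      (∀ j, ∀ x ∈ hball t R, ∀ y ∈ hball t R, |F j x - F j y| ≤ N * ‖x - y‖ ^ α) →
      (∀ x ∈ hball t R, |w x| ≤ N) →
      ∀ i, (∀ x ∈ hball t r, |dw i x| ≤ C * N) ∧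
        ∀ x ∈ hball t r, ∀ y ∈ hball t r, |dw i x - dw i y| ≤ C * N * ‖x - y‖ ^ α

lemma exists_goodEps [NeZero d] (t : Fin d) (hα : 0 < α) (hα1 : α < 1) :
    ∃ ε, GoodEps t α ε := by
  obtain ⟨ε, hε, h⟩ := exists_linear_bound t hα hα1
  refine ⟨min ε (1 / 2), lt_min hε (by norm_num), min_le_right _ _, fun r R M hr hrR hR hM => ?_⟩
  obtain ⟨C, hC, hb⟩ := h r R M hr hrR hR hM
  exact ⟨C, hC, fun A F w dw N hN hs hA => hb A F w dw N hN hs
    fun j k x hx => (hA j k x hx).trans (min_le_left _ _)⟩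

/-- The flux of the linear problem. -/
def linFlux (A : Fin d → Fin d → Euc d → ℝ) (F : Fin d → Euc d → ℝ)
    (dw : Fin d → Euc d → ℝ) (j : Fin d) (x : Euc d) : ℝ :=
  (∑ k, A j k x * dw k x) - F j x

/-- A field with no weak source on the half ball and no flux through the flat boundary. -/
def IsWeakDiv (t : Fin d) (R : ℝ) (P : Fin d → Euc d → ℝ) : Prop :=
  ∀ φ, IsTestFn φ → tsupport φ ⊆ Metric.ball 0 R → ∫ x in upper t, ∑ j, P j x * pd j φ x = 0

lemma IsWeakDiv.mono {P : Fin d → Euc d → ℝ} (h : IsWeakDiv t R P) (hr : r ≤ R) :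
    IsWeakDiv t r P :=
  fun φ hφ hs => h φ hφ (hs.trans (Metric.ball_subset_ball hr))

lemma continuousOn_of_hold {S : Set (Euc d)} {f : Euc d → ℝ} {M : ℝ} (hα : 0 < α)
    (h : ∀ x ∈ S, ∀ y ∈ S, |f x - f y| ≤ M * ‖x - y‖ ^ α) : ContinuousOn f S := by
  intro x hx
  refine tendsto_iff_norm_sub_tendsto_zero.2 ?_
  refine squeeze_zero' (Eventually.of_forall fun _ => norm_nonneg _) ?_
    (g := fun y => M * ‖y - x‖ ^ α) ?_
  · filter_upwards [self_mem_nhdsWithin] with y hy using h y hy x hx
  · have hc : Continuous fun y : Euc d => M * ‖y - x‖ ^ α :=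
      continuous_const.mul ((continuous_norm.comp (continuous_id.sub continuous_const)).rpow_const
        fun _ => Or.inr hα.le)
    simpa [Real.zero_rpow hα.ne'] using
      (hc.tendsto x).mono_left (nhdsWithin_le_nhds (s := S))

lemma aesm_test {φ P : Euc d → ℝ} (hφ : IsTestFn φ) (hs : tsupport φ ⊆ Metric.ball 0 R)
    (hP : ContinuousOn P (hball t R)) (j : Fin d) :
    AEStronglyMeasurable (fun y => P y * pd j φ y) (volume.restrict (upper t)) := by
  have hc : ContinuousOn (fun y => P y * pd j φ y) (hball t R) :=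
    hP.mul (continuous_pd_test hφ j).continuousOn
  have hi : EqOn ((hball t R).indicator fun y => P y * pd j φ y) (fun y => P y * pd j φ y)
      (upper t) := by
    intro y hy
    by_cases hyR : y ∈ hball t R
    · rw [indicator_of_mem hyR]
    · rw [indicator_of_notMem hyR]
      have : y ∉ tsupport φ := fun h => hyR ⟨hs h, hy⟩
      simp [pd_eq_zero_of_eventually (notMem_tsupport_iff_eventuallyEq.1 this) j]
  exact ((aestronglyMeasurable_indicator_iff (isOpen_hball t R).measurableSet).2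
    (hc.aestronglyMeasurable (isOpen_hball t R).measurableSet)).restrict.congr
      ((ae_restrict_iff' (measurableSet_upper t)).2 (Eventually.of_forall hi))

lemma test_bound {φ P : Euc d → ℝ} (hs : tsupport φ ⊆ Metric.ball 0 R) {B : ℝ}
    (hb : ∀ x ∈ hball t R, |P x| ≤ B) (j : Fin d) {y : Euc d} (hy : y ∈ upper t) :
    |P y * pd j φ y| ≤ |B| * |pd j φ y| := by
  by_cases hyR : y ∈ hball t R
  · rw [abs_mul]
    exact mul_le_mul_of_nonneg_right ((hb y hyR).trans (le_abs_self B)) (abs_nonneg _)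
  · have : y ∉ tsupport φ := fun h => hyR ⟨hs h, hy⟩
    simp [pd_eq_zero_of_eventually (notMem_tsupport_iff_eventuallyEq.1 this) j]

lemma integrable_test {φ P : Euc d → ℝ} (hφ : IsTestFn φ) (hs : tsupport φ ⊆ Metric.ball 0 R)
    (hP : ContinuousOn P (hball t R)) {B : ℝ} (hb : ∀ x ∈ hball t R, |P x| ≤ B) (j : Fin d) :
    IntegrableOn (fun y => P y * pd j φ y) (upper t) :=
  (((continuous_pd_test hφ j).integrable_of_hasCompactSupport
    (hasCompactSupport_pd hφ.2 j)).abs.const_mul |B|).restrict.mono' (aesm_test hφ hs hP j)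
      ((ae_restrict_iff' (measurableSet_upper t)).2 (Eventually.of_forall fun y hy => by
        simpa [Real.norm_eq_abs] using test_bound hs hb j hy))

lemma shift_upper {i : Fin d} (hi : i ≠ t) (x : Euc d) (s : ℝ) :
    x + s • bas i ∈ upper t ↔ x ∈ upper t := by
  simp [upper, Ne.symm hi]

lemma shift_mem {i : Fin d} (hi : i ≠ t) {x : Euc d} {r R s : ℝ} (hx : x ∈ hball t r)
    (hs : r + |s| ≤ R) : x + s • bas i ∈ hball t R := by
  obtain ⟨h1, h2⟩ := mem_hball.1 hx
  refine mem_hball.2 ⟨lt_of_le_of_lt (norm_add_le _ _) ?_, (shift_upper hi x s).2 h2⟩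
  rw [norm_smul, PiLp.norm_single, norm_one, mul_one, Real.norm_eq_abs]
  linarith

/-- Tangential difference quotients of a weakly divergence free field are weakly divergence free. -/
lemma IsWeakDiv.dq {P : Fin d → Euc d → ℝ} (h : IsWeakDiv t R P) {i : Fin d} (hi : i ≠ t)
    (hc : ∀ j, ContinuousOn (P j) (hball t R)) {B : ℝ} (hb : ∀ j, ∀ x ∈ hball t R, |P j x| ≤ B)
    {s : ℝ} (hr : r + |s| ≤ R) :
    IsWeakDiv t r fun j x => (P j (x + s • bas i) - P j x) / s := by
  intro φ hφ hs
  set ψ : Euc d → ℝ := fun x => φ (x - s • bas i) with hψ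
  have hψT : IsTestFn ψ := by
    refine ⟨hφ.1.comp (contDiff_id.sub contDiff_const), ?_⟩
    exact hφ.2.comp_homeomorph (Homeomorph.subRight (s • bas i))
  have hψs : tsupport ψ ⊆ Metric.ball 0 R := by
    have : tsupport ψ ⊆ {x | x - s • bas i ∈ tsupport φ} :=
      closure_minimal (fun x hx => subset_tsupport φ hx)
        ((isClosed_tsupport φ).preimage (continuous_id.sub continuous_const))
    intro x hx
    have hm := hs (this hx)
    rw [mem_ball_zero_iff] at hm ⊢
    calc ‖x‖ = ‖(x - s • bas i) + s • bas i‖ := by simp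
      _ ≤ ‖x - s • bas i‖ + ‖s • bas i‖ := norm_add_le _ _
      _ < R := by rw [norm_smul, PiLp.norm_single, norm_one, mul_one, Real.norm_eq_abs]; linarith
  have hsR : tsupport φ ⊆ Metric.ball 0 R :=
    hs.trans (Metric.ball_subset_ball (by linarith [abs_nonneg s]))
  have hpd : ∀ j x, pd j ψ x = pd j φ (x - s • bas i) := fun j x => by
    have h1 : fderiv ℝ ψ x = _ := ((hφ.1.differentiable (by simp) _).hasFDerivAt.comp x
      ((hasFDerivAt_id x).sub_const (s • bas i))).fderiv
    rw [pd, h1]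
    simp [pd]
  have h1 := h ψ hψT hψs
  have h2 := h φ hφ hsR
  have e1 : ∫ x in upper t, ∑ j, P j (x + s • bas i) * pd j φ x = 0 := by
    rw [← h1, ← integral_indicator (measurableSet_upper t), ← integral_indicator (measurableSet_upper t),
      ← integral_add_right_eq_self (fun x => (upper t).indicator (fun y => ∑ j, P j y * pd j ψ y) x)
        (s • bas i)]
    refine integral_congr_ae (Eventually.of_forall fun x => ?_)
    by_cases hx : x ∈ upper t
    · simp [indicator_of_mem hx, indicator_of_mem ((shift_upper hi x s).2 hx), hpd]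
    · simp [indicator_of_notMem hx, indicator_of_notMem (mt (shift_upper hi x s).1 hx)]
  have hint2 : IntegrableOn (fun x => ∑ j, P j x * pd j φ x) (upper t) :=
    integrable_finsetSum _ fun j _ => integrable_test hφ hsR (hc j) (hb j) j
  have hint1 : IntegrableOn (fun x => ∑ j, P j (x + s • bas i) * pd j φ x) (upper t) := by
    refine integrable_finsetSum _ fun j _ => integrable_test (P := fun x => P j (x + s • bas i))
      hφ hs ?_ (fun x hx => hb j _ (shift_mem hi hx hr)) j
    exact (hc j).comp (Continuous.continuousOn (by fun_prop)) fun x hx => shift_mem hi hx hr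
  calc ∫ x in upper t, ∑ j, (P j (x + s • bas i) - P j x) / s * pd j φ x
      = ∫ x in upper t, (∑ j, P j (x + s • bas i) * pd j φ x - ∑ j, P j x * pd j φ x) / s := by
        refine setIntegral_congr_fun (measurableSet_upper t) fun x _ => ?_
        rw [← Finset.sum_sub_distrib, Finset.sum_div]
        exact Finset.sum_congr rfl fun j _ => by ring
    _ = 0 := by rw [integral_div, integral_sub hint1 hint2, e1, h2, sub_zero, zero_div]

/-- A smooth weakly divergence free field is divergence free. -/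
lemma IsWeakDiv.div_eq_zero {P : Fin d → Euc d → ℝ} (h : IsWeakDiv t R P)
    (hs : ∀ j, ContDiffOn ℝ ∞ (P j) (hball t R)) :
    ∀ x ∈ hball t R, ∑ j, pd j (P j) x = 0 := by
  have hU := isOpen_hball t R
  have hcont : ContinuousOn (fun x => ∑ j, pd j (P j) x) (hball t R) :=
    continuousOn_finsetSum _ fun j _ => (contDiffAt_pd_of_contDiffOn hU (hs j) j).continuousOn
  have hae : ∀ᵐ x, x ∈ hball t R → ∑ j, pd j (P j) x = 0 := by
    refine hU.ae_eq_zero_of_integral_contDiff_smul_eq_zero
      (hcont.locallyIntegrableOn hU.measurableSet) fun φ hφ hφc hφs => ?_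
    have hφ1 : ContDiff ℝ 1 φ := hφ.of_le (WithTop.coe_le_coe.2 le_top)
    have hf : ∀ j, ContDiff ℝ 1 fun y => φ y * P j y := fun j =>
      contDiff_mul_of_tsupport hU hφ1 hφs ((hs j).of_le (WithTop.coe_le_coe.2 le_top))
    have hfs : ∀ j, HasCompactSupport fun y => φ y * P j y := fun j => hφc.mul_right
    have h0 := h φ ⟨hφ, hφc⟩ (hφs.trans inter_subset_left)
    have hint : ∀ j, Integrable (pd j fun y => φ y * P j y) := fun j =>
      (continuous_pd (hf j) j).integrable_of_hasCompactSupport (hasCompactSupport_pd (hfs j) j)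
    have hint2 : ∀ j, Integrable fun y => P j y * pd j φ y := fun j =>
      ((contDiff_mul_of_tsupport (f := P j) (ψ := pd j φ) hU
        (contDiff_pd (hφ.of_le (WithTop.coe_le_coe.2 le_top)) j)
        ((tsupport_fderiv_apply_subset ℝ _).trans hφs)
        ((hs j).of_le (WithTop.coe_le_coe.2 le_top))).continuous.integrable_of_hasCompactSupport
          (hasCompactSupport_pd hφc j).mul_right).congr (Eventually.of_forall fun y => mul_comm _ _)
    have e : ∀ y, φ y • ∑ j, pd j (P j) y
        = (∑ j, pd j (fun y => φ y * P j y) y) - ∑ j, P j y * pd j φ y := fun y => by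
      by_cases hy : y ∈ hball t R
      · rw [← Finset.sum_sub_distrib, smul_eq_mul, Finset.mul_sum]
        refine Finset.sum_congr rfl fun j _ => ?_
        rw [pd_mul j (hφ1.differentiable one_ne_zero y)
          (((hs j).contDiffAt (hU.mem_nhds hy)).differentiableAt (by simp))]
        ring
      · have hn : y ∉ tsupport φ := fun h => hy (hφs h)
        have hz := notMem_tsupport_iff_eventuallyEq.1 hn
        have e1 : ∀ j, pd j (fun y => φ y * P j y) y = 0 := fun j => by
          refine pd_eq_zero_of_eventually ?_ j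
          filter_upwards [hz] with z hz'
          simp [hz']
        simp [e1, hz.eq_of_nhds, fun j => pd_eq_zero_of_eventually hz j]
    have hz : ∫ y, ∑ j, P j y * pd j φ y = 0 := by
      rw [← h0]
      refine (setIntegral_eq_integral_of_forall_compl_eq_zero fun y hy => ?_).symm
      have hn : y ∉ tsupport φ := fun h => hy (hφs h).2
      simp [fun j => pd_eq_zero_of_eventually (notMem_tsupport_iff_eventuallyEq.1 hn) j]
    rw [integral_congr_ae (Eventually.of_forall e),
      integral_sub (integrable_finsetSum _ fun j _ => hint j)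
        (integrable_finsetSum _ fun j _ => hint2 j), hz, sub_zero,
      integral_finsetSum _ fun j _ => hint j]
    exact Finset.sum_eq_zero fun j _ => integral_pd_eq_zero (hf j) (hfs j) j
  have hae' : ∀ᵐ x ∂(volume.restrict (hball t R)), ∑ j, pd j (P j) x = 0 :=
    (ae_restrict_iff' hU.measurableSet).2 hae
  exact Measure.eqOn_open_of_ae_eq hae' hU hcont continuousOn_const

/-- Uniform estimates for a family pass to the pointwise limit, and so does the equation. -/
theorem limit_step (hα : 0 < α) (hε : GoodEps t α ε) {δ M : ℝ} (hr : 0 < r) (hrR : r < R)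
    (hR : R ≤ 1) (hδ : 0 < δ) (hM : 0 ≤ M)
    {A : ℝ → Fin d → Fin d → Euc d → ℝ} {F : ℝ → Fin d → Euc d → ℝ} {z : ℝ → Euc d → ℝ}
    {dz : ℝ → Fin d → Euc d → ℝ} {A₀ : Fin d → Fin d → Euc d → ℝ} {F₀ : Fin d → Euc d → ℝ}
    {dz₀ : Fin d → Euc d → ℝ}
    (hsol : ∀ s ∈ Ioo 0 δ, IsLinSol t R α (A s) (F s) (z s) (dz s))
    (hA : ∀ s ∈ Ioo 0 δ, ∀ j k, ∀ x ∈ hball t R, |A s j k x - if j = k then 1 else 0| ≤ ε)
    (hAh : ∀ s ∈ Ioo 0 δ, ∀ j k, ∀ x ∈ hball t R, ∀ y ∈ hball t R,
      |A s j k x - A s j k y| ≤ M * ‖x - y‖ ^ α)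
    (hF : ∀ s ∈ Ioo 0 δ, ∀ j, ∀ x ∈ hball t R, |F s j x| ≤ M)
    (hFh : ∀ s ∈ Ioo 0 δ, ∀ j, ∀ x ∈ hball t R, ∀ y ∈ hball t R,
      |F s j x - F s j y| ≤ M * ‖x - y‖ ^ α)
    (hz : ∀ s ∈ Ioo 0 δ, ∀ x ∈ hball t R, |z s x| ≤ M)
    (hA₀ : ∀ j k, ∀ x ∈ hball t R, Tendsto (fun s => A s j k x) (𝓝[>] 0) (𝓝 (A₀ j k x)))
    (hF₀ : ∀ j, ∀ x ∈ hball t R, Tendsto (fun s => F s j x) (𝓝[>] 0) (𝓝 (F₀ j x)))
    (hz₀ : ∀ k, ∀ x ∈ hball t R, Tendsto (fun s => dz s k x) (𝓝[>] 0) (𝓝 (dz₀ k x))) :
    (∀ k, Hol0 (hball t r) α (dz₀ k)) ∧ IsWeakDiv t r (linFlux A₀ F₀ dz₀) := by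
  obtain ⟨C, hC, hb⟩ := hε.2.2 r R M hr hrR hR hM
  have hsub : hball t r ⊆ hball t R := hball_mono t hrR.le
  have hev : ∀ᶠ s in 𝓝[>] (0 : ℝ), s ∈ Ioo 0 δ := Ioo_mem_nhdsGT hδ
  have hbs := fun s hs =>
    hb (A s) (F s) (z s) (dz s) M hM (hsol s hs) (hA s hs) (hAh s hs) (hF s hs) (hFh s hs) (hz s hs)
  refine ⟨fun k => ⟨C * M, mul_nonneg hC hM, fun x hx => ?_, fun x hx y hy => ?_⟩, ?_⟩
  · exact le_of_tendsto (hz₀ k x (hsub hx)).abs (hev.mono fun s hs => (hbs s hs k).1 x hx)
  · exact le_of_tendsto ((hz₀ k x (hsub hx)).sub (hz₀ k y (hsub hy))).abs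
      (hev.mono fun s hs => (hbs s hs k).2 x hx y hy)
  intro φ hφ hs
  have hc : ∀ s ∈ Ioo 0 δ, ∀ j, ContinuousOn (linFlux (A s) (F s) (dz s) j) (hball t r) :=
    fun s hs j => (continuousOn_finsetSum _ fun k _ =>
      ((continuousOn_of_hold hα (hAh s hs j k)).mono hsub).mul
        (continuousOn_of_hold hα (hbs s hs k).2)).sub
      ((continuousOn_of_hold hα (hFh s hs j)).mono hsub)
  set B : ℝ := d * ((1 + ε) * (C * M)) + M with hB
  have hε0 := hε.1
  have hfb : ∀ s ∈ Ioo 0 δ, ∀ j, ∀ x ∈ hball t r, |linFlux (A s) (F s) (dz s) j x| ≤ B := by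
    intro s hs j x hx
    refine (abs_sub _ _).trans (add_le_add (abs_sum_le_card fun k => ?_) (hF s hs j x (hsub hx)))
    rw [abs_mul]
    refine mul_le_mul ?_ ((hbs s hs k).1 x hx) (abs_nonneg _) (by linarith)
    calc |A s j k x| = |(A s j k x - if j = k then 1 else 0) + if j = k then 1 else 0| := by ring_nf
      _ ≤ ε + |if j = k then (1 : ℝ) else 0| :=
          (abs_add_le _ _).trans (add_le_add (hA s hs j k x (hsub hx)) le_rfl)
      _ ≤ 1 + ε := by split_ifs <;> simp [add_comm]
  have hlim : Tendsto (fun s => ∫ x in upper t, ∑ j, linFlux (A s) (F s) (dz s) j x * pd j φ x)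
      (𝓝[>] 0) (𝓝 (∫ x in upper t, ∑ j, linFlux A₀ F₀ dz₀ j x * pd j φ x)) := by
    refine tendsto_integral_filter_of_dominated_convergence
      (fun y => ∑ j, |B| * |pd j φ y|) ?_ ?_ ?_ ?_
    · exact hev.mono fun s hs' =>
        Finset.aestronglyMeasurable_fun_sum _ fun j _ => aesm_test hφ hs (hc s hs' j) j
    · refine hev.mono fun s hs' => (ae_restrict_iff' (measurableSet_upper t)).2
        (Eventually.of_forall fun y hy => ?_)
      exact (norm_sum_le _ _).trans
        (Finset.sum_le_sum fun j _ => test_bound hs (hfb s hs' j) j hy)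
    · exact (integrable_finsetSum _ fun j _ => (((continuous_pd_test hφ j).integrable_of_hasCompactSupport
        (hasCompactSupport_pd hφ.2 j)).abs.const_mul |B|)).restrict
    · refine (ae_restrict_iff' (measurableSet_upper t)).2 (Eventually.of_forall fun y hy => ?_)
      by_cases hyr : y ∈ hball t r
      · refine tendsto_finsetSum _ fun j _ => Tendsto.mul_const _ ?_
        exact (tendsto_finsetSum _ fun k _ => (hA₀ j k y (hsub hyr)).mul (hz₀ k y (hsub hyr))).sub
          (hF₀ j y (hsub hyr))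
      · have hn : y ∉ tsupport φ := fun h => hyr ⟨hs h, hy⟩
        simp [fun j => pd_eq_zero_of_eventually (notMem_tsupport_iff_eventuallyEq.1 hn) j]
  refine (tendsto_nhds_unique hlim (tendsto_const_nhds.congr' (hev.mono fun s hs' => ?_)))
  exact ((hsol s hs').eqn φ hφ (hs.trans (Metric.ball_subset_ball hrR.le))).symm

/-- A linear problem whose coefficients are close to the identity. -/
structure IsLinEq (t : Fin d) (R ε : ℝ) (A : Fin d → Fin d → Euc d → ℝ) (F : Fin d → Euc d → ℝ)
    (w : Euc d → ℝ) : Prop where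
  A_smooth : ∀ j k, ContDiffOn ℝ ∞ (A j k) (hball t R)
  F_smooth : ∀ j, ContDiffOn ℝ ∞ (F j) (hball t R)
  w_smooth : ContDiffOn ℝ ∞ w (hball t R)
  close : ∀ j k, ∀ x ∈ hball t R, |A j k x - if j = k then 1 else 0| ≤ ε
  eqn : IsWeakDiv t R (linFlux A F fun k => pd k w)

/-- The datum of the differentiated problem. -/
noncomputable def diffDatum (A : Fin d → Fin d → Euc d → ℝ) (F : Fin d → Euc d → ℝ)
    (w : Euc d → ℝ) (i j : Fin d) (x : Euc d) : ℝ :=
  pd i (F j) x - ∑ k, pd i (A j k) x * pd k w x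

lemma differentiableAt_of_smooth {f : Euc d → ℝ} (hf : ContDiffOn ℝ ∞ f (hball t R)) {x : Euc d}
    (hx : x ∈ hball t R) : DifferentiableAt ℝ f x :=
  (hf.contDiffAt ((isOpen_hball t R).mem_nhds hx)).differentiableAt (by simp)

lemma pd_comp_shift {f : Euc d → ℝ} {x v : Euc d} (hf : DifferentiableAt ℝ f (x + v)) (k : Fin d) :
    pd k (fun y => f (y + v)) x = pd k f (x + v) := by
  have h : fderiv ℝ (fun y => f (y + v)) x = _ :=
    (hf.hasFDerivAt.comp x ((hasFDerivAt_id x).add_const v)).fderiv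
  rw [pd, h]
  simp [pd]

/-- The difference quotient of a smooth function and its gradient. -/
lemma diff_dq {w : Euc d → ℝ} {i : Fin d} (hi : i ≠ t) (hw : ContDiffOn ℝ ∞ w (hball t R))
    {s : ℝ} (hrs : r + |s| ≤ R) {x : Euc d} (hx : x ∈ hball t r) :
    DifferentiableAt ℝ (fun y => (w (y + s • bas i) - w y) / s) x ∧
      ∀ k, pd k (fun y => (w (y + s • bas i) - w y) / s) x
        = (pd k w (x + s • bas i) - pd k w x) / s := by
  have hx0 : x ∈ hball t R := hball_mono t (by linarith [abs_nonneg s]) hx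
  have hd0 := differentiableAt_of_smooth hw hx0
  have hd1 := differentiableAt_of_smooth hw (shift_mem hi hx hrs)
  have hd2 : DifferentiableAt ℝ (fun y => w (y + s • bas i)) x :=
    hd1.comp x (differentiableAt_id.add_const _)
  refine ⟨by simpa [div_eq_mul_inv] using (hd2.fun_sub hd0).mul_const s⁻¹, fun k => ?_⟩
  rw [show (fun y => (w (y + s • bas i) - w y) / s)
    = fun y => s⁻¹ * (w (y + s • bas i) - w y) by funext y; rw [div_eq_inv_mul],
    pd, fderiv_const_mul (hd2.fun_sub hd0), fderiv_fun_sub hd2 hd0, smul_apply, sub_apply,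
    smul_eq_mul, div_eq_inv_mul]
  show s⁻¹ * (pd k (fun y => w (y + s • bas i)) x - pd k w x) = _
  rw [pd_comp_shift hd1]

lemma exists_uniform {ι : Type*} [Finite ι] {S : Set (Euc d)} {f : ι → Euc d → ℝ}
    (h : ∀ a, Hol0 S α (f a)) : ∃ M, 0 ≤ M ∧ ∀ a, (∀ x ∈ S, |f a x| ≤ M) ∧
      ∀ x ∈ S, ∀ y ∈ S, |f a x - f a y| ≤ M * ‖x - y‖ ^ α := by
  have := Fintype.ofFinite ι
  choose M hM hb hh using h
  have hle : ∀ a, M a ≤ ∑ b, M b := fun a => Finset.single_le_sum (fun b _ => hM b) (Finset.mem_univ a)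
  exact ⟨∑ a, M a, Finset.sum_nonneg fun a _ => hM a, fun a =>
    ⟨fun x hx => (hb a x hx).trans (hle a), fun x hx y hy => (hh a x hx y hy).trans
      (mul_le_mul_of_nonneg_right (hle a) (Real.rpow_nonneg (norm_nonneg _) _))⟩⟩

/-- One tangential derivative of the linear problem. -/
theorem tangent_linear (hα : 0 < α) (hε : GoodEps t α ε) {A : Fin d → Fin d → Euc d → ℝ}
    {F : Fin d → Euc d → ℝ} {w : Euc d → ℝ} (hr : 0 < r) (hrR : r < R) (hR : R ≤ 1)
    (hE : IsLinEq t R ε A F w) (hA : ∀ j k, Hol (hball t R) α 1 (A j k))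
    (hF : ∀ j, Hol (hball t R) α 1 (F j)) (hw : Hol (hball t R) α 1 w) {i : Fin d} (hi : i ≠ t) :
    Hol (hball t r) α 1 (pd i w) ∧ IsLinEq t r ε A (diffDatum A F w i) (pd i w) := by
  set R' := (r + R) / 2 with hR'
  have hrR' : r < R' := by simp only [hR']; linarith
  have hR'R : R' < R := by simp only [hR']; linarith
  set δ := R - R' with hδ
  have hδ0 : 0 < δ := by simp only [hδ]; linarith
  have hsub : hball t R' ⊆ hball t R := hball_mono t hR'R.le
  have hsub' : hball t r ⊆ hball t R := hball_mono t (hrR.le)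
  have hU := isOpen_hball t R
  obtain ⟨MA, hMA, hA1⟩ := exists_uniform (fun p : Fin d × Fin d => ((hA p.1 p.2).2.2 i).hol0)
  obtain ⟨MA0, hMA0, hA0⟩ := exists_uniform (fun p : Fin d × Fin d => (hA p.1 p.2).hol0)
  obtain ⟨MF, hMF, hF1⟩ := exists_uniform (fun j => ((hF j).2.2 i).hol0)
  obtain ⟨MF0, hMF0, hF0⟩ := exists_uniform (fun j => (hF j).hol0)
  obtain ⟨Mw, hMw, hw1⟩ := exists_uniform (fun k => (hw.2.2 k).hol0)
  have hε0 := hε.1
  have hε2 := hε.2.1
  -- the family
  set q : (Euc d → ℝ) → ℝ → Euc d → ℝ := fun f s x => (f (x + s • bas i) - f x) / s with hq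
  have hpath : ∀ s ∈ Ioo 0 δ, ∀ x ∈ hball t R', ∀ τ ∈ Icc 0 s, x + τ • bas i ∈ hball t R :=
    fun s hs x hx τ hτ => shift_mem hi hx (by
      rw [abs_of_nonneg hτ.1]; simp only [hδ] at hs; linarith [hs.2, hτ.2])
  have hsh : ∀ s ∈ Ioo 0 δ, R' + |s| ≤ R := fun s hs => by
    rw [abs_of_pos hs.1]; simp only [hδ] at hs; linarith [hs.2]
  have hqA : ∀ s ∈ Ioo 0 δ, ∀ j k, (∀ x ∈ hball t R', |q (A j k) s x| ≤ MA) ∧
      ∀ x ∈ hball t R', ∀ y ∈ hball t R', |q (A j k) s x - q (A j k) s y| ≤ MA * ‖x - y‖ ^ α := by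
    intro s hs j k
    obtain ⟨h1, h2⟩ := dq_bounds (U := hball t R) (v := bas i) (M := MA) (α := α) hs.1
      (fun x hx => differentiableAt_of_smooth (hE.A_smooth j k) hx) (hA1 (j, k)).1 (hA1 (j, k)).2
    exact ⟨fun x hx => h1 x (hpath s hs x hx),
      fun x hx y hy => h2 x y (hpath s hs x hx) (hpath s hs y hy)⟩
  have hqF : ∀ s ∈ Ioo 0 δ, ∀ j, (∀ x ∈ hball t R', |q (F j) s x| ≤ MF) ∧
      ∀ x ∈ hball t R', ∀ y ∈ hball t R', |q (F j) s x - q (F j) s y| ≤ MF * ‖x - y‖ ^ α := by
    intro s hs j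
    obtain ⟨h1, h2⟩ := dq_bounds (U := hball t R) (v := bas i) (M := MF) (α := α) hs.1
      (fun x hx => differentiableAt_of_smooth (hE.F_smooth j) hx) (hF1 j).1 (hF1 j).2
    exact ⟨fun x hx => h1 x (hpath s hs x hx),
      fun x hx y hy => h2 x y (hpath s hs x hx) (hpath s hs y hy)⟩
  set A' : ℝ → Fin d → Fin d → Euc d → ℝ := fun s j k x => A j k (x + s • bas i) with hA'
  set F' : ℝ → Fin d → Euc d → ℝ :=
    fun s j x => q (F j) s x - ∑ k, q (A j k) s x * pd k w x with hF'
  set M := MA0 + MF + d * (2 * (MA * Mw)) + Mw with hM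
  have hM0 : 0 ≤ M := by positivity
  have hPc : ∀ j, ContinuousOn (linFlux A F (fun k => pd k w) j) (hball t R) := fun j =>
    (continuousOn_finsetSum _ fun k _ => (hE.A_smooth j k).continuousOn.mul
      (contDiffAt_pd_of_contDiffOn hU hE.w_smooth k).continuousOn).sub (hE.F_smooth j).continuousOn
  have hPb : ∀ j, ∀ x ∈ hball t R,
      |linFlux A F (fun k => pd k w) j x| ≤ d * (MA0 * Mw) + MF0 := fun j x hx =>
    (abs_sub _ _).trans (add_le_add (abs_sum_le_card fun k => by
      rw [abs_mul]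
      exact mul_le_mul ((hA0 (j, k)).1 x hx) ((hw1 k).1 x hx) (abs_nonneg _) hMA0)
      ((hF0 j).1 x hx))
  have hsol : ∀ s ∈ Ioo 0 δ,
      IsLinSol t R' α (A' s) (F' s) (q w s) (fun k => q (pd k w) s) := by
    intro s hs
    refine ⟨fun x hx => diff_dq hi hE.w_smooth (hsh s hs) hx, ⟨2 * Mw / s,
      div_nonneg (by linarith) hs.1.le, fun k x hx y hy => ?_⟩, fun φ hφ hφs => ?_⟩
    · simp only [hq]
      rw [← sub_div, abs_div, abs_of_pos hs.1, div_mul_eq_mul_div]
      refine div_le_div_of_nonneg_right ?_ hs.1.le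
      have h1 := (hw1 k).2 _ (shift_mem hi hx (hsh s hs)) _ (shift_mem hi hy (hsh s hs))
      rw [show x + s • bas i - (y + s • bas i) = x - y by abel] at h1
      have h2 := (hw1 k).2 x (hsub hx) y (hsub hy)
      have a1 := abs_le.1 h1
      have a2 := abs_le.1 h2
      exact abs_le.2 ⟨by linarith, by linarith⟩
    · rw [← hE.eqn.dq hi hPc hPb (hsh s hs) φ hφ hφs]
      refine setIntegral_congr_fun (measurableSet_upper t) fun x _ => ?_
      refine Finset.sum_congr rfl fun j _ => ?_
      congr 1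
      simp only [hA', hF', hq, linFlux]
      have e1 : (∑ k, A j k (x + s • bas i) * ((pd k w (x + s • bas i) - pd k w x) / s))
          + (∑ k, (A j k (x + s • bas i) - A j k x) / s * pd k w x)
          = ((∑ k, A j k (x + s • bas i) * pd k w (x + s • bas i)) - ∑ k, A j k x * pd k w x) / s := by
        rw [← Finset.sum_add_distrib, ← Finset.sum_sub_distrib, Finset.sum_div]
        exact Finset.sum_congr rfl fun k _ => by ring
      linear_combination e1
  have hlim : ∀ f : Euc d → ℝ, ContDiffOn ℝ ∞ f (hball t R) → ∀ x ∈ hball t R',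
      Tendsto (fun s => q f s x) (𝓝[>] 0) (𝓝 (pd i f x)) := fun f hf x hx =>
    tendsto_dq (differentiableAt_of_smooth hf (hsub hx))
  obtain ⟨hb, heq⟩ := limit_step (z := fun s => q w s) hα hε hr hrR' (hR'R.le.trans hR) hδ0 hM0 hsol
    (fun s hs j k x hx => hE.close j k _ (shift_mem hi hx (hsh s hs)))
    (fun s hs j k x hx y hy => by
      have h := (hA0 (j, k)).2 _ (shift_mem hi hx (hsh s hs)) _ (shift_mem hi hy (hsh s hs))
      rw [show x + s • bas i - (y + s • bas i) = x - y by abel] at h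
      exact h.trans (mul_le_mul_of_nonneg_right (by
        simp only [hM]; linarith [show 0 ≤ (d : ℝ) * (2 * (MA * Mw)) by positivity])
        (Real.rpow_nonneg (norm_nonneg _) _)))
    (fun s hs j x hx => by
      refine (abs_sub _ _).trans ?_
      refine (add_le_add ((hqF s hs j).1 x hx) (abs_sum_le_card (B := MA * Mw) fun k => ?_)).trans ?_
      · rw [abs_mul]
        exact mul_le_mul ((hqA s hs j k).1 x hx) ((hw1 k).1 x (hsub hx)) (abs_nonneg _) hMA
      · simp only [hM]
        linarith [show 0 ≤ (d : ℝ) * (MA * Mw) by positivity])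
    (fun s hs j x hx y hy => by
      simp only [hF']
      rw [show q (F j) s x - ∑ k, q (A j k) s x * pd k w x
          - (q (F j) s y - ∑ k, q (A j k) s y * pd k w y)
        = (q (F j) s x - q (F j) s y)
          - ∑ k, (q (A j k) s x * pd k w x - q (A j k) s y * pd k w y) by
        rw [Finset.sum_sub_distrib]; ring]
      refine (abs_sub _ _).trans ((add_le_add ((hqF s hs j).2 x hx y hy)
        (abs_sum_le_card (B := 2 * (MA * Mw) * ‖x - y‖ ^ α) fun k => ?_)).trans ?_)
      · rw [show q (A j k) s x * pd k w x - q (A j k) s y * pd k w y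
          = q (A j k) s x * (pd k w x - pd k w y) + pd k w y * (q (A j k) s x - q (A j k) s y) by ring]
        refine (abs_add_le _ _).trans ?_
        rw [abs_mul, abs_mul]
        calc _ ≤ MA * (Mw * ‖x - y‖ ^ α) + Mw * (MA * ‖x - y‖ ^ α) := add_le_add
              (mul_le_mul ((hqA s hs j k).1 x hx) ((hw1 k).2 x (hsub hx) y (hsub hy)) (abs_nonneg _) hMA)
              (mul_le_mul ((hw1 k).1 y (hsub hy)) ((hqA s hs j k).2 x hx y hy) (abs_nonneg _) hMw)
          _ = _ := by ring
      · rw [← mul_assoc, ← add_mul]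
        exact mul_le_mul_of_nonneg_right (by simp only [hM]; linarith)
          (Real.rpow_nonneg (norm_nonneg _) _))
    (fun s hs x hx => by
      obtain ⟨h1, -⟩ := dq_bounds (U := hball t R) (v := bas i) (M := Mw) (α := α) hs.1
        (fun x hx => differentiableAt_of_smooth hE.w_smooth hx) (hw1 i).1 (hw1 i).2
      refine (h1 x (hpath s hs x hx)).trans ?_
      simp only [hM]; linarith [show 0 ≤ (d : ℝ) * (2 * (MA * Mw)) by positivity])
    (A₀ := A) (F₀ := diffDatum A F w i) (dz₀ := fun k => pd i (pd k w))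
    (fun j k x hx => by
      have hc := ((hE.A_smooth j k).continuousOn.continuousAt (hU.mem_nhds (hsub hx))).tendsto
      refine hc.comp (tendsto_nhdsWithin_of_tendsto_nhds ?_)
      have := (show Continuous fun s : ℝ => x + s • bas i by fun_prop).tendsto 0
      simpa using this)
    (fun j x hx => (hlim _ (hE.F_smooth j) x hx).sub (tendsto_finsetSum _ fun k _ =>
      (hlim _ (hE.A_smooth j k) x hx).mul_const _))
    (fun k x hx => hlim _ (contDiffAt_pd_of_contDiffOn hU hE.w_smooth k) x hx)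
  have hcomm : ∀ k, ∀ x ∈ hball t R, pd i (pd k w) x = pd k (pd i w) x := fun k x hx =>
    pd_pd_comm ((hE.w_smooth.contDiffAt (hU.mem_nhds hx)).of_le (WithTop.coe_le_coe.2 le_top)) i k
  refine ⟨⟨((hw.2.2 i).hol0).mono hsub', fun x hx => (differentiableAt_of_smooth
      (contDiffAt_pd_of_contDiffOn hU hE.w_smooth i) (hsub' hx)).differentiableWithinAt,
      fun k => (hb k).congr fun x hx => (hcomm k x (hsub' hx)).symm⟩,
    fun j k => (hE.A_smooth j k).mono hsub', fun j => ?_,
    (contDiffAt_pd_of_contDiffOn hU hE.w_smooth i).mono hsub',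
    fun j k x hx => hE.close j k x (hsub' hx), fun φ hφ hs => ?_⟩
  · exact ((contDiffAt_pd_of_contDiffOn hU (hE.F_smooth j) i).sub (ContDiffOn.sum fun k _ =>
      (contDiffAt_pd_of_contDiffOn hU (hE.A_smooth j k) i).mul
        (contDiffAt_pd_of_contDiffOn hU hE.w_smooth k))).mono hsub'
  · rw [← heq φ hφ hs]
    refine setIntegral_congr_fun (measurableSet_upper t) fun x hx => ?_
    refine Finset.sum_congr rfl fun j _ => ?_
    by_cases hxr : x ∈ hball t r
    · congr 1
      simp only [linFlux, fun k => hcomm k x (hsub' hxr)]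
    · have hn : x ∉ tsupport φ := fun h => hxr ⟨hs h, hx⟩
      simp [pd_eq_zero_of_eventually (notMem_tsupport_iff_eventuallyEq.1 hn) j]

/-- The normal second derivative from the others. -/
lemma hol_normal {S : Set (Euc d)} (hS : IsOpen S) {k : ℕ} {w : Euc d → ℝ}
    {A : Fin d → Fin d → Euc d → ℝ} {rest : Euc d → ℝ}
    (hw : ContDiffOn ℝ ∞ w S) (hA : ∀ j l, Hol S α k (A j l))
    (hc : ∀ x ∈ S, 1 / 2 ≤ A t t x)
    (hD : ∀ i, i ≠ t → ∀ l, Hol S α k (pd l (pd i w)))
    (hrest : Hol S α k rest)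
    (heq : ∀ x ∈ S, (∑ j, ∑ l, A j l x * pd j (pd l w) x) + rest x = 0) :
    ∀ j l, Hol S α k (pd j (pd l w)) := by
  have hoff : ∀ j l, ¬(j = t ∧ l = t) → Hol S α k (pd j (pd l w)) := fun j l hjl => by
    by_cases hl : l = t
    · have hj : j ≠ t := fun h => hjl ⟨h, hl⟩
      refine (hD j hj l).congr hS fun x hx => ?_
      exact pd_pd_comm ((hw.contDiffAt (hS.mem_nhds hx)).of_le (WithTop.coe_le_coe.2 le_top)) j l
    · exact hD l hl j
  have hT : ∀ j l, Hol S α k fun x => if j = t ∧ l = t then 0 else A j l x * pd j (pd l w) x :=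
    fun j l => by
      by_cases hjl : j = t ∧ l = t
      · simp only [if_pos hjl]; exact hol_const k 0
      · simp only [if_neg hjl]; exact (hA j l).mul hS (hoff j l hjl)
  have htt : Hol S α k (pd t (pd t w)) := by
    refine ((((Hol.sum hS Finset.univ fun j _ => Hol.sum hS Finset.univ fun l _ => hT j l).add hS
      hrest).mul hS ((hA t t).inv hS (by norm_num) hc)).neg hS).congr hS fun x hx => ?_
    have h := heq x hx
    have e : (∑ j, ∑ l, A j l x * pd j (pd l w) x)
        = (∑ j, ∑ l, if j = t ∧ l = t then 0 else A j l x * pd j (pd l w) x)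
          + A t t x * pd t (pd t w) x := by
      have e1 : ∀ j l, A j l x * pd j (pd l w) x
          = (if j = t ∧ l = t then 0 else A j l x * pd j (pd l w) x)
            + (if l = t then (if j = t then A j l x * pd j (pd l w) x else 0) else 0) := fun j l => by
        by_cases hj : j = t <;> by_cases hl : l = t <;> simp [hj, hl]
      rw [Finset.sum_congr rfl fun j _ => Finset.sum_congr rfl fun l _ => e1 j l]
      simp [Finset.sum_add_distrib]
    rw [e] at h
    have hne : A t t x ≠ 0 := by linarith [hc x hx]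
    field_simp
    linarith
  intro j l
  by_cases hjl : j = t ∧ l = t
  · rw [hjl.1, hjl.2]; exact htt
  · exact hoff j l hjl

/-- All orders of regularity for the linear problem. -/
theorem linear_hol (hα : 0 < α) (hε : GoodEps t α ε) :
    ∀ (k : ℕ) {A : Fin d → Fin d → Euc d → ℝ} {F : Fin d → Euc d → ℝ} {w : Euc d → ℝ} {r R : ℝ},
      0 < r → r < R → R ≤ 1 → IsLinEq t R ε A F w → (∀ j l, Hol (hball t R) α k (A j l)) →
      (∀ j, Hol (hball t R) α k (F j)) → Hol (hball t R) α 1 w →
      Hol (hball t r) α (k + 1) w := by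
  intro k
  induction k with
  | zero => exact fun hr hrR _ _ _ _ hw => hw.mono (hball_mono t hrR.le)
  | succ k ih =>
    intro A F w r R hr hrR hR hE hA hF hw
    set r₁ := r + (R - r) * (3 / 4) with hr₁
    set r₂ := r + (R - r) / 2 with hr₂
    set r₃ := r + (R - r) / 4 with hr₃
    have h12 : r₂ < r₁ := by simp only [hr₁, hr₂]; linarith
    have h23 : r₃ < r₂ := by simp only [hr₃, hr₂]; linarith
    have h3 : r < r₃ := by simp only [hr₃]; linarith
    have h1R : r₁ < R := by simp only [hr₁]; linarith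
    have hA1 : ∀ j l, Hol (hball t R) α 1 (A j l) := fun j l => by
      refine ⟨(hA j l).1, (hA j l).2.1, fun i => ?_⟩
      exact ((hA j l).2.2 i).hol0
    have hF1 : ∀ j, Hol (hball t R) α 1 (F j) := fun j =>
      ⟨(hF j).1, (hF j).2.1, fun i => ((hF j).2.2 i).hol0⟩
    have hwk : Hol (hball t r₁) α (k + 1) w :=
      ih (by linarith) h1R hR hE (fun j l => (hA j l).of_succ) (fun j => (hF j).of_succ) hw
    have hz : ∀ i, i ≠ t → ∀ l, Hol (hball t r₃) α k (pd l (pd i w)) := by
      intro i hi l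
      obtain ⟨hz1, hzE⟩ := tangent_linear hα hε (r := r₂) (by linarith) (h12.trans h1R) hR hE hA1
        hF1 hw hi
      have hU := isOpen_hball t r₂
      have hs2 : hball t r₂ ⊆ hball t R := hball_mono t (h12.trans h1R).le
      have hdat : ∀ j, Hol (hball t r₂) α k (diffDatum A F w i j) := fun j =>
        (((hF j).2.2 i).mono hs2).sub hU (Hol.sum hU Finset.univ fun l _ =>
          (((hA j l).2.2 i).mono hs2).mul hU ((hwk.2.2 l).mono (hball_mono t h12.le)))
      exact (ih (by linarith) h23 (by linarith) hzE (fun j l => ((hA j l).of_succ).mono hs2) hdat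
        hz1).2.2 l
    have hS := isOpen_hball t r
    have hsR : hball t r ⊆ hball t R := hball_mono t hrR.le
    have hs3 : hball t r ⊆ hball t r₃ := hball_mono t h3.le
    have hwr : Hol (hball t r) α (k + 1) w := hwk.mono (hball_mono t (by linarith))
    have hsec : ∀ j l, Hol (hball t r) α k (pd j (pd l w)) := by
      refine hol_normal (t := t) (A := A) (rest := fun x => ∑ j, ((∑ l, pd j (A j l) x * pd l w x)
        - pd j (F j) x)) hS (hE.w_smooth.mono hsR) (fun j l => ((hA j l).of_succ).mono hsR)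
        (fun x hx => ?_) (fun i hi l => (hz i hi l).mono hs3) ?_ fun x hx => ?_
      · have := (abs_le.1 (hE.close t t x (hsR hx))).1
        simp only [if_true] at this
        linarith [hε.2.1]
      · exact Hol.sum hS Finset.univ fun j _ => (Hol.sum hS Finset.univ fun l _ =>
          (((hA j l).2.2 j).mono hsR).mul hS (hwr.2.2 l)).sub hS (((hF j).2.2 j).mono hsR)
      · have hU := isOpen_hball t R
        have hxR := hsR hx
        have hsm : ∀ j, ContDiffOn ℝ ∞ (linFlux A F (fun l => pd l w) j) (hball t R) := fun j =>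
          (ContDiffOn.sum fun l _ => (hE.A_smooth j l).mul
            (contDiffAt_pd_of_contDiffOn hU hE.w_smooth l)).sub (hE.F_smooth j)
        have h := hE.eqn.div_eq_zero hsm x hxR
        rw [← h, ← Finset.sum_add_distrib]
        refine Finset.sum_congr rfl fun j _ => ?_
        have hd1 : ∀ l, DifferentiableAt ℝ (A j l) x := fun l =>
          differentiableAt_of_smooth (hE.A_smooth j l) hxR
        have hd2 : ∀ l, DifferentiableAt ℝ (pd l w) x := fun l =>
          differentiableAt_of_smooth (contDiffAt_pd_of_contDiffOn hU hE.w_smooth l) hxR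
        have hd3 := differentiableAt_of_smooth (hE.F_smooth j) hxR
        have e : pd j (linFlux A F (fun l => pd l w) j) x
            = (∑ l, pd j (fun y => A j l y * pd l w y) x) - pd j (F j) x := by
          have h1 : fderiv ℝ (linFlux A F (fun l => pd l w) j) x = _ :=
            ((HasFDerivAt.fun_sum fun l (_ : l ∈ Finset.univ) =>
              ((hd1 l).fun_mul (hd2 l)).hasFDerivAt).sub hd3.hasFDerivAt).fderiv
          rw [pd, h1]
          simp [pd]
        rw [e, Finset.sum_congr rfl fun l _ => pd_mul j (hd1 l) (hd2 l), Finset.sum_add_distrib]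
        ring
    exact ⟨hwr.1, hwr.2.1, fun l => ⟨(hwr.2.2 l).hol0, fun x hx => (differentiableAt_of_smooth
      (contDiffAt_pd_of_contDiffOn (isOpen_hball t R) hE.w_smooth l) (hsR hx)).differentiableWithinAt,
      fun j => hsec j l⟩⟩

end Vale.Agent.P098.B5
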