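import Vale.Agent.P098.Regularity.B5.Hodograph
import Vale.Agent.P098.Regularity.B5.Extend

/-!
P098, block B5: from normals with a rate to smoothness up to the free boundary, given that the
hodograph has Hölder derivatives of all orders near the origin.
-/

open MeasureTheory Filter Set
open scoped Topology ContDiff NNReal

namespace Vale.Agent.P098.B5

/-- The statement of the bootstrap of the hodograph. -/
def BootstrapStatement (d : ℕ) : Prop :=
  ∀ [NeZero d] {u h : Euc d → ℝ} {t : Fin d} {R α M : ℝ},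
    IsHodo u h t R α M → 0 < α → α < 1 →
      ∃ R' : ℝ, 0 < R' ∧ R' ≤ R ∧ ∀ k, Hol (hball t R') α k h

variable {d : ℕ}

lemma smul_bas_mem_hball {t : Fin d} {ε R : ℝ} (h0 : 0 < ε) (hR : ε < R) :
    ε • bas t ∈ hball t R := by
  refine mem_hball.2 ⟨?_, ?_⟩
  · simpa [norm_smul, abs_of_pos h0] using hR
  · simpa using h0

/-- In adapted coordinates: a smooth function near the origin which extends `w` from its positivity
set and has gradient of norm one at its free boundary. -/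
lemma exists_extension_near [NeZero d] {w : Euc d → ℝ} {t : Fin d} {r α K : ℝ}
    (H : IsNear w t r α K) (boot : BootstrapStatement d) :
    ∃ (W : Set (Euc d)) (v : Euc d → ℝ), IsOpen W ∧ (0 : Euc d) ∈ W ∧ ContDiffOn ℝ ∞ v W ∧
      EqOn v w (W ∩ posSet w) ∧ ∀ z ∈ W ∩ frontier (posSet w), ‖fderiv ℝ v z‖ = 1 := by
  obtain ⟨h, R, M, G⟩ := H.exists_hodo
  obtain ⟨R', hR', hR'R, hhol⟩ := boot G H.α_pos H.α_lt
  obtain ⟨g, hg, hge⟩ := exists_contDiff_extension t H.α_pos (half_lt_self hR')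
    (G.smooth.mono (hball_mono t hR'R)) hhol
  have hline : Tendsto (fun ε : ℝ => ε • bas t) (𝓝[>] 0) (𝓝 (0 : Euc d)) := by
    have h1 : Tendsto (fun ε : ℝ => ε • bas t) (𝓝 0) (𝓝 ((0 : ℝ) • bas t)) :=
      (continuous_id.smul continuous_const).tendsto 0
    rw [zero_smul] at h1
    exact h1.mono_left nhdsWithin_le_nhds
  have hmem : ∀ᶠ ε : ℝ in 𝓝[>] 0,
      ε • bas t ∈ hball t (R' / 2) ∧ ε • bas t ∈ hball t R ∧ ‖ε • bas t‖ = ε := by
    filter_upwards [Ioo_mem_nhdsGT (half_pos hR')] with ε hε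
    exact ⟨smul_bas_mem_hball hε.1 hε.2, smul_bas_mem_hball hε.1 (by linarith [hε.2]),
      by simp [norm_smul, abs_of_pos hε.1]⟩
  have hid : Tendsto (fun ε : ℝ => ε) (𝓝[>] 0) (𝓝 0) := nhdsWithin_le_nhds
  have hg0 : g 0 = 0 := by
    refine tendsto_nhds_unique ((hg.continuous.tendsto 0).comp hline) ?_
    refine squeeze_zero_norm' ?_ (by simpa using hid.const_mul M)
    filter_upwards [hmem] with ε hε
    rw [Function.comp_apply, hge hε.1, Real.norm_eq_abs]
    exact (G.bdd _ hε.2.1).trans (le_of_eq (by rw [hε.2.2]))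
  have hq : pd t g 0 = 1 := by
    refine tendsto_nhds_unique (((continuous_pd (hg.of_le (by simp)) t).tendsto 0).comp hline) ?_
    refine tendsto_sub_nhds_zero_iff.1 (squeeze_zero_norm' (a := fun ε : ℝ => M * ε ^ α) ?_ ?_)
    · filter_upwards [hmem] with ε hε
      rw [Function.comp_apply,
        pd_congr (hge.eventuallyEq_of_mem ((isOpen_hball t _).mem_nhds hε.1)) t, Real.norm_eq_abs]
      have := G.near t _ hε.2.1
      rwa [if_pos rfl, hε.2.2] at this
    · simpa [Real.zero_rpow H.α_pos.ne'] using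
        (((Real.continuous_rpow_const H.α_pos.le).tendsto 0).comp hid).const_mul M
  obtain ⟨W₀, v, δ, hδ, hW₀, h0, hv, hinv⟩ := exists_inverse_coord t hg (hq ▸ one_ne_zero)
  obtain ⟨δ₁, hδ₁, honto⟩ := G.onto
  set η : ℝ := min δ (R' / 2) / 2 with hη
  have hη0 : 0 < η := half_pos (lt_min hδ (half_pos hR'))
  set W : Set (Euc d) := W₀ ∩ Metric.ball 0 (min r (min δ₁ η)) ∩ {x | w x < η} with hW
  have hWo : IsOpen W :=
    (hW₀.inter Metric.isOpen_ball).inter (isOpen_lt H.cont continuous_const)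
  have hW0 : (0 : Euc d) ∈ W := by
    refine ⟨⟨?_, Metric.mem_ball_self (lt_min H.r_pos (lt_min hδ₁ hη0))⟩, ?_⟩
    · simpa [hodo, hg0, flat] using h0
    · show w 0 < η
      rw [H.zero]; exact hη0
  have heq : EqOn v w (W ∩ posSet w) := by
    rintro x ⟨⟨⟨-, hxb⟩, hxw⟩, hxp⟩
    rw [mem_ball_zero_iff, lt_min_iff, lt_min_iff] at hxb
    obtain ⟨hyR, hhy⟩ := honto x hxp hxb.2.1
    set y := flat t x + w x • bas t with hy
    have hyn : ‖y‖ < min δ (R' / 2) := by
      calc ‖y‖ ≤ ‖flat t x‖ + |w x| := norm_flat_add_le t x _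
        _ < η + η := by
            rw [abs_of_pos (show 0 < w x from hxp)]
            exact add_lt_add ((norm_flat_le t x).trans_lt hxb.2.2) hxw
        _ = _ := by simp only [hη]; ring
    have hyt : y t = w x := by rw [hy, flat_add_apply, if_pos rfl]
    have hgy : g y = x t := by
      rw [hge (mem_hball.2 ⟨hyn.trans_le (min_le_right _ _), (mem_hball.1 hyR).2⟩), hhy]
    have hHy : hodo t g y = x := by rw [hodo, hgy, hy, flat_idem, flat_self]
    obtain ⟨-, hvy⟩ := hinv y (mem_ball_zero_iff.2 (hyn.trans_le (min_le_left _ _)))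
    rw [hHy, hyt] at hvy
    exact hvy
  have hvW : ContDiffOn ℝ ∞ v W := hv.mono fun x hx => hx.1.1
  refine ⟨W, v, hWo, hW0, hvW, heq, fun z ⟨hzW, hzF⟩ => ?_⟩
  have hpo : IsOpen (posSet w) := isOpen_lt continuous_const H.cont
  have hz0 : w z = 0 :=
    le_antisymm (not_lt.1 fun h => hzF.2 (by rwa [hpo.interior_eq])) (H.nonneg z)
  have : (𝓝[posSet w] z).NeBot := mem_closure_iff_nhdsWithin_neBot.1 hzF.1
  have hpc : ∀ i, ContinuousAt (pd i v) z := fun i =>
    ((contDiffAt_pd_of_contDiffOn hWo hvW i).continuousOn).continuousAt (hWo.mem_nhds hzW)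
  have hl1 : Tendsto (fun x => ∑ i, pd i v x ^ 2) (𝓝[posSet w] z) (𝓝 (∑ i, pd i v z ^ 2)) :=
    (tendsto_finsetSum _ fun i _ => ((hpc i).pow 2)).mono_left nhdsWithin_le_nhds
  have hl2 : Tendsto (fun x => ∑ i, pd i v x ^ 2) (𝓝[posSet w] z) (𝓝 1) := by
    refine tendsto_sub_nhds_zero_iff.1 (squeeze_zero_norm' (a := fun x => K * ‖x - z‖ ^ α) ?_ ?_)
    · have hnear : ∀ᶠ x in 𝓝[posSet w] z, x ∈ W ∩ posSet w :=
        Filter.inter_mem (mem_nhdsWithin_of_mem_nhds (hWo.mem_nhds hzW)) self_mem_nhdsWithin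
      filter_upwards [hnear] with x hx
      have hxr : ‖x‖ < r := (lt_min_iff.1 (mem_ball_zero_iff.1 hx.1.1.2)).1
      have he : ∀ i, pd i v x = pd i w x := fun i =>
        pd_congr (heq.eventuallyEq_of_mem ((hWo.inter hpo).mem_nhds hx)) i
      simp only [he, Real.norm_eq_abs, abs_sub_comm _ (1 : ℝ)]
      exact H.eik x hx.2 hxr z hz0
    · have hc : Continuous fun x : Euc d => K * ‖x - z‖ ^ α :=
        continuous_const.mul ((continuous_norm.comp (continuous_id.sub continuous_const)).rpow_const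
          fun _ => Or.inr H.α_pos.le)
      have := (hc.tendsto z).mono_left (nhdsWithin_le_nhds (s := posSet w))
      simpa [Real.zero_rpow H.α_pos.ne'] using this
  have h1 := tendsto_nhds_unique hl1 hl2
  have h2 : ‖fderiv ℝ v z‖ ^ 2 = 1 := by
    rw [norm_fderiv_sq, gradSq, ← h1]
    exact Finset.sum_congr rfl fun i _ => (sq _).symm
  exact (pow_eq_one_iff_of_nonneg (norm_nonneg _) two_ne_zero).1 h2

/-- B5, given the bootstrap. -/
theorem smoothBlock_of_bootstrap (d : ℕ) (boot : BootstrapStatement d) : SmoothBlock d := by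
  intro L c hc u x₀ hu hu0 hN
  have hpo : IsOpen (posSet u) := isOpen_lt continuous_const hu.lip.continuous
  by_cases hcl : x₀ ∈ closure (posSet u)
  swap
  · refine ⟨(closure (posSet u))ᶜ, 0, isClosed_closure.isOpen_compl, hcl, contDiffOn_const,
      fun x hx => absurd (subset_closure hx.2) hx.1, fun x hx => absurd hx.2.1 hx.1⟩
  have hnot : x₀ ∉ posSet u := fun h => by simp [posSet, hu0] at h
  have hF : x₀ ∈ frontier (posSet u) := ⟨hcl, fun h => hnot (interior_subset h)⟩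
  have hd : NeZero d := ⟨fun h => by
    subst h
    obtain ⟨y, hy⟩ := closure_nonempty_iff.1 ⟨x₀, hcl⟩
    exact hnot (Subsingleton.elim y x₀ ▸ hy)⟩
  obtain ⟨ρ, α, C, ν, hρ, hα, hα1, hC, hν⟩ := hN
  have E : IsExp u ν x₀ c ρ α C :=
    { cont := hu.lip.continuous, nonneg := hu.nonneg, smooth := hu.smooth
      harmonic := hu.harmonic, nondeg := hu.nondeg, c_pos := hc, ρ_pos := hρ, α_pos := hα
      α_lt := hα1, C_nonneg := hC, unit := fun x hx => (hν x hx).1
      expand := fun x hx => (hν x hx).2 }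
  obtain ⟨Q, r, K, H⟩ := E.exists_near (0 : Fin d) hF
  obtain ⟨W₀, v₀, hW₀, h0, hv₀, heq, hone⟩ := exists_extension_near H boot
  set φ : Euc d → Euc d := fun X => Q.symm (X - x₀) with hφ
  have hφi : ∀ X, x₀ + Q (φ X) = X := fun X => by simp [hφ]
  have hφd : ∀ X, HasFDerivAt φ (Q.symm.toContinuousLinearEquiv : Euc d →L[ℝ] Euc d) X := fun X =>
    ((Q.symm.toContinuousLinearEquiv : Euc d →L[ℝ] Euc d).hasFDerivAt.comp X
      ((hasFDerivAt_id X).sub_const x₀)).congr_fderiv (ContinuousLinearMap.comp_id _)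
  have hφs : ContDiff ℝ ∞ φ :=
    Q.symm.toContinuousLinearEquiv.contDiff.comp (contDiff_id.sub contDiff_const)
  set ψ : Euc d ≃ₜ Euc d :=
    (Homeomorph.subRight x₀).trans Q.symm.toHomeomorph with hψ
  have hψc : ∀ X, ψ X = φ X := fun X => rfl
  have hpre : posSet u = ψ ⁻¹' posSet (fun y => u (x₀ + Q y)) := by
    ext X
    simp [posSet, hψc, hφi]
  refine ⟨φ ⁻¹' W₀, fun X => v₀ (φ X), hW₀.preimage hφs.continuous, by simpa [hφ] using h0,
    hv₀.comp hφs.contDiffOn fun X hX => hX, fun X ⟨hX, hXp⟩ => ?_, fun X ⟨hX, hXF⟩ => ?_⟩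
  · show v₀ (φ X) = u X
    rw [heq ⟨hX, show 0 < u (x₀ + Q (φ X)) by rw [hφi]; exact hXp⟩]
    exact congrArg u (hφi X)
  · have hzF : φ X ∈ frontier (posSet fun y => u (x₀ + Q y)) := by
      rw [hpre, ← ψ.preimage_frontier] at hXF
      exact hXF
    have hd1 : DifferentiableAt ℝ v₀ (φ X) :=
      (hv₀.contDiffAt (hW₀.mem_nhds hX)).differentiableAt (by simp)
    rw [show (fun X => v₀ (φ X)) = v₀ ∘ φ from rfl, (hd1.hasFDerivAt.comp X (hφd X)).fderiv]
    rw [ContinuousLinearMap.opNorm_comp_linearIsometryEquiv]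
    exact hone (φ X) ⟨hX, hzF⟩

end Vale.Agent.P098.B5
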