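import Vale.Agent.P098.Regularity.B5.HalfSpace
import Vale.Agent.P098.Regularity.B5.HolderExt

/-!
P098, block B5: the Neumann estimate for coefficients close to the identity on a half ball, by
cut-off, absorption and iteration on radii.
-/

open MeasureTheory Filter Set
open scoped Topology ContDiff

namespace Vale.Agent.P098.B5

variable {d : ℕ}

/-- The open half ball about the origin. -/
def hball (t : Fin d) (R : ℝ) : Set (Euc d) := Metric.ball 0 R ∩ upper t

lemma mem_hball {t : Fin d} {R : ℝ} {x : Euc d} : x ∈ hball t R ↔ ‖x‖ < R ∧ 0 < x t := by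
  simp [hball, upper]

lemma isOpen_hball (t : Fin d) (R : ℝ) : IsOpen (hball t R) :=
  Metric.isOpen_ball.inter (isOpen_upper t)

lemma convex_hball (t : Fin d) (R : ℝ) : Convex ℝ (hball t R) :=
  (convex_ball 0 R).inter (convex_halfSpace_gt (f := fun a : Euc d => a t)
    ⟨fun _ _ => by simp, fun _ _ => by simp⟩ 0)

lemma hball_mono (t : Fin d) {a b : ℝ} (h : a ≤ b) : hball t a ⊆ hball t b :=
  inter_subset_inter_left _ (Metric.ball_subset_ball h)

lemma rpow_ge_of_le_two {r α : ℝ} (h0 : 0 ≤ r) (h2 : r ≤ 2) (hα : 0 < α) (hα1 : α ≤ 1) :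
    r ≤ 2 * r ^ α := by
  rcases le_total r 1 with h | h
  · linarith [Real.self_le_rpow_of_le_one h0 h hα1, Real.rpow_nonneg h0 α]
  · linarith [Real.one_le_rpow h hα.le]

lemma abs_sum_le_card {f : Fin d → ℝ} {B : ℝ} (h : ∀ i, |f i| ≤ B) : |∑ i, f i| ≤ d * B :=
  (Finset.abs_sum_le_sum_abs _ _).trans <| (Finset.sum_le_sum fun i _ => h i).trans (le_of_eq (by simp))

/-- Bounded and Hölder, with separate constants. -/
structure BH (α M K : ℝ) (f : Euc d → ℝ) : Prop where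
  bdd : ∀ x, |f x| ≤ M
  hold : Hold α K f

lemma BH.mono {α M K M' K' : ℝ} {f : Euc d → ℝ} (h : BH α M K f) (hM : M ≤ M') (hK : K ≤ K') :
    BH α M' K' f :=
  ⟨fun x => (h.bdd x).trans hM, fun x y => (h.hold x y).trans
    (mul_le_mul_of_nonneg_right hK (Real.rpow_nonneg (norm_nonneg _) _))⟩

lemma BH.congr {α M K : ℝ} {f g : Euc d → ℝ} (h : BH α M K f) (e : ∀ x, g x = f x) : BH α M K g :=
  (funext e : g = f) ▸ h

lemma BH.add {α M K M' K' : ℝ} {f g : Euc d → ℝ} (h : BH α M K f) (h' : BH α M' K' g) :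
    BH α (M + M') (K + K') fun x => f x + g x := by
  refine ⟨fun x => (abs_add_le _ _).trans (add_le_add (h.bdd x) (h'.bdd x)), fun x y => ?_⟩
  rw [show f x + g x - (f y + g y) = (f x - f y) + (g x - g y) by ring, add_mul]
  exact (abs_add_le _ _).trans (add_le_add (h.hold x y) (h'.hold x y))

lemma BH.mul {α M K M' K' : ℝ} {f g : Euc d → ℝ} (h : BH α M K f) (h' : BH α M' K' g) :
    BH α (M * M') (M * K' + M' * K) fun x => f x * g x := by
  have hM : 0 ≤ M := (abs_nonneg _).trans (h.bdd 0)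
  refine ⟨fun x => ?_, fun x y => ?_⟩
  · rw [abs_mul]; exact mul_le_mul (h.bdd x) (h'.bdd x) (abs_nonneg _) hM
  · rw [show f x * g x - f y * g y = f x * (g x - g y) + g y * (f x - f y) by ring, add_mul]
    refine (abs_add_le _ _).trans (add_le_add ?_ ?_)
    · rw [abs_mul, mul_assoc]
      exact mul_le_mul (h.bdd x) (h'.hold x y) (abs_nonneg _) hM
    · rw [abs_mul, mul_assoc]
      exact mul_le_mul (h'.bdd y) (h.hold x y) (abs_nonneg _)
        ((abs_nonneg _).trans (h'.bdd y))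

lemma BH.sum {α M K : ℝ} {f : Fin d → Euc d → ℝ} (h : ∀ i, BH α M K (f i)) :
    BH α (d * M) (d * K) fun x => ∑ i, f i x := by
  refine ⟨fun x => abs_sum_le_card fun i => (h i).bdd x, fun x y => ?_⟩
  rw [← Finset.sum_sub_distrib, mul_assoc]
  exact abs_sum_le_card fun i => (h i).hold x y

lemma bh_const (α c : ℝ) : BH α |c| 0 fun _ : Euc d => c :=
  ⟨fun _ => le_rfl, fun x y => by simp⟩

lemma bh_of_lip {α M L : ℝ} (hα : 0 < α) (hα1 : α ≤ 1) (hL : 0 ≤ L) {f : Euc d → ℝ}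
    (hb : ∀ x, |f x| ≤ M) (hl : ∀ x y, |f x - f y| ≤ L * ‖x - y‖) : BH α M (L + 2 * M) f := by
  have hM : 0 ≤ M := (abs_nonneg _).trans (hb 0)
  refine ⟨hb, fun x y => ?_⟩
  rcases le_total ‖x - y‖ 1 with h | h
  · refine (hl x y).trans (mul_le_mul (by linarith) ?_ (norm_nonneg _) (by positivity))
    exact Real.self_le_rpow_of_le_one (norm_nonneg _) h hα1
  · refine le_trans ((abs_sub _ _).trans (add_le_add (hb x) (hb y))) ?_
    refine le_trans ?_ (le_mul_of_one_le_right (by positivity) (Real.one_le_rpow h hα.le))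
    linarith

/-- A cut-off between two radii with scale-explicit bounds. -/
lemma exists_cutoff {α r : ℝ} (hα : 0 < α) (hα1 : α ≤ 1) (hr : 0 < r) :
    ∃ E : ℝ, 1 ≤ E ∧ ∀ a c : ℝ, r ≤ a → a < c → c ≤ 1 → ∃ η : Euc d → ℝ, ContDiff ℝ ∞ η ∧
      (∀ x, ‖x‖ ≤ a → η x = 1) ∧ (∀ x, ‖x‖ < a → ∀ i, pd i η x = 0) ∧
      (∀ x, c ≤ ‖x‖ → η x = 0) ∧ (∀ x, c ≤ ‖x‖ → ∀ i, pd i η x = 0) ∧
      BH α 1 (E / (c - a)) η ∧ ∀ i, BH α (E / (c - a)) (E / (c - a) ^ 2) (pd i η) := by
  set T := Real.smoothTransition with hT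
  have hTs : ContDiff ℝ ∞ T := Real.smoothTransition.contDiff
  have hT' : ContDiff ℝ ∞ (deriv T) := (contDiff_infty_iff_deriv.1 hTs).2
  have hTz : ∀ p : ℝ, p ≤ 0 → deriv T p = 0 := fun p hp => by
    have hzero : ∀ q : ℝ, q < 0 → deriv T q = 0 := fun q hq => by
      have h : T =ᶠ[𝓝 q] fun _ => 0 := by
        filter_upwards [gt_mem_nhds hq] with y hy
        exact Real.smoothTransition.zero_of_nonpos hy.le
      simp [h.deriv_eq]
    rcases hp.lt_or_eq with h | rfl
    · exact hzero p h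
    · have h1 : Tendsto (deriv T) (𝓝[<] 0) (𝓝 (deriv T 0)) :=
        tendsto_nhdsWithin_of_tendsto_nhds (hT'.continuous.tendsto 0)
      have h2 : Tendsto (deriv T) (𝓝[<] 0) (𝓝 0) := by
        refine tendsto_const_nhds.congr' ?_
        filter_upwards [self_mem_nhdsWithin] with q hq
        exact (hzero q hq).symm
      exact tendsto_nhds_unique h1 h2
  have hTo : ∀ p : ℝ, 1 < p → deriv T p = 0 := fun p hp => by
    have h : T =ᶠ[𝓝 p] fun _ => 1 := by
      filter_upwards [lt_mem_nhds hp] with y hy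
      exact Real.smoothTransition.one_of_one_le hy.le
    simp [h.deriv_eq]
  have hcs : HasCompactSupport (deriv T) := by
    refine HasCompactSupport.intro (isCompact_Icc (a := (0 : ℝ)) (b := 1)) fun p hp => ?_
    rcases not_and_or.1 hp with h | h
    · exact hTz p (le_of_not_ge h)
    · exact hTo p (lt_of_not_ge h)
  obtain ⟨B, hB⟩ := hcs.exists_bound_of_continuous hT'.continuous
  obtain ⟨L, hL⟩ := (hT'.of_le (WithTop.coe_le_coe.2 le_top) : ContDiff ℝ 1 (deriv T))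
    |>.lipschitzWith_of_hasCompactSupport hcs one_ne_zero
  have hB0 : 0 ≤ B := (norm_nonneg _).trans (hB 0)
  refine ⟨1 + 2 * B / r + 2 + 2 * (B + 2 * L / r) / r + 4 * B / r, ?_, fun a c hra hac hc => ?_⟩
  · have : 0 ≤ 2 * B / r + 2 + 2 * (B + 2 * L / r) / r + 4 * B / r := by positivity
    linarith
  have ha0 : 0 < a := lt_of_lt_of_le hr hra
  have hc0 : 0 < c := ha0.trans hac
  have hca : 0 < c - a := by linarith
  have hρ1 : c - a ≤ 1 := by linarith
  set s := (c ^ 2 - a ^ 2)⁻¹ with hs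
  have hcs0 : 0 < c ^ 2 - a ^ 2 := by nlinarith
  have hs0 : 0 < s := inv_pos.2 hcs0
  have hsb : s ≤ 1 / (r * (c - a)) := by
    rw [hs, one_div]
    exact inv_anti₀ (by positivity) (by nlinarith)
  set η : Euc d → ℝ := fun x => T ((c ^ 2 - ‖x‖ ^ 2) * s) with hη
  have hηs : ContDiff ℝ ∞ η :=
    hTs.comp ((contDiff_const.sub (contDiff_norm_sq ℝ)).mul contDiff_const)
  have hpd : ∀ i x, pd i η x = deriv T ((c ^ 2 - ‖x‖ ^ 2) * s) * (-(2 * x i) * s) := fun i x => by
    have h1 := ((hTs.differentiable (by simp) ((c ^ 2 - ‖x‖ ^ 2) * s)).hasDerivAt.comp_hasFDerivAt x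
      (((hasFDerivAt_id x).norm_sq.const_sub (c ^ 2)).mul_const s))
    have h2 : fderiv ℝ η x = _ := h1.fderiv
    rw [pd, h2]
    simp [EuclideanSpace.inner_single_right]
    left; ring
  set q : Euc d → ℝ := fun x => (c ^ 2 - min ‖x‖ c ^ 2) * s with hq
  have hqe : ∀ f : ℝ → ℝ, (∀ p, p ≤ 0 → f p = 0) → ∀ x : Euc d,
      f ((c ^ 2 - ‖x‖ ^ 2) * s) = f (q x) := fun f hf x => by
    rcases le_total ‖x‖ c with h | h
    · simp [hq, min_eq_left h]
    · rw [hf _ (mul_nonpos_of_nonpos_of_nonneg (by nlinarith) hs0.le), hq]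
      simp [min_eq_right h, hf 0 le_rfl]
  have hql : ∀ x y, |q x - q y| ≤ 2 / (r * (c - a)) * ‖x - y‖ := fun x y => by
    have h1 : |min ‖x‖ c - min ‖y‖ c| ≤ ‖x - y‖ := by
      refine (abs_min_sub_min_le_max _ _ _ _).trans ?_
      simp [abs_norm_sub_norm_le]
    have h2 : |min ‖x‖ c + min ‖y‖ c| ≤ 2 := by
      have := min_le_right ‖x‖ c
      have := min_le_right ‖y‖ c
      have := le_min (norm_nonneg x) hc0.le
      have := le_min (norm_nonneg y) hc0.le
      rw [abs_of_nonneg (by linarith)]; linarith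
    simp only [hq]
    rw [show (c ^ 2 - min ‖x‖ c ^ 2) * s - (c ^ 2 - min ‖y‖ c ^ 2) * s
      = -((min ‖x‖ c + min ‖y‖ c) * s * (min ‖x‖ c - min ‖y‖ c)) by ring, abs_neg, abs_mul, abs_mul,
      abs_of_pos hs0]
    calc |min ‖x‖ c + min ‖y‖ c| * s * |min ‖x‖ c - min ‖y‖ c| ≤ 2 * (1 / (r * (c - a))) * ‖x - y‖ :=
          mul_le_mul (mul_le_mul h2 hsb hs0.le (by norm_num)) h1 (abs_nonneg _) (by positivity)
      _ = 2 / (r * (c - a)) * ‖x - y‖ := by ring
  have hTl : ∀ p p' : ℝ, |T p - T p'| ≤ B * |p - p'| := fun p p' =>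
    convex_univ.norm_image_sub_le_of_norm_deriv_le
      (fun z _ => hTs.differentiable (by simp) z) (fun z _ => hB z) trivial trivial
  refine ⟨η, hηs, fun x hx => ?_, fun x hx i => ?_, fun x hx => ?_, fun x hx i => ?_, ?_, fun i => ?_⟩
  · refine Real.smoothTransition.one_of_one_le ?_
    rw [hs, ← div_eq_mul_inv, one_le_div hcs0]
    nlinarith [norm_nonneg x]
  · rw [hpd, hTo _ ?_, zero_mul]
    rw [hs, ← div_eq_mul_inv, one_lt_div hcs0]
    nlinarith [norm_nonneg x]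
  · exact Real.smoothTransition.zero_of_nonpos
      (mul_nonpos_of_nonpos_of_nonneg (by nlinarith) hs0.le)
  · rw [hpd, hTz _ (mul_nonpos_of_nonpos_of_nonneg (by nlinarith) hs0.le), zero_mul]
  · have e : ∀ x, η x = T (q x) :=
      hqe T fun p hp => Real.smoothTransition.zero_of_nonpos hp
    refine (bh_of_lip hα hα1 (L := B * (2 / (r * (c - a)))) (by positivity) (fun x => ?_)
      fun x y => ?_).mono le_rfl ?_
    · simp only [hη, hT]
      rw [abs_of_nonneg (Real.smoothTransition.nonneg _)]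
      exact Real.smoothTransition.le_one _
    · rw [e, e, mul_assoc]
      exact (hTl _ _).trans (mul_le_mul_of_nonneg_left (hql x y) hB0)
    · have e1 : B * (2 / (r * (c - a))) = (2 * B / r) / (c - a) := by field_simp
      have e2 : (2 : ℝ) * 1 ≤ 2 / (c - a) := by
        rw [le_div_iff₀ hca]; linarith
      rw [e1]
      refine le_trans (add_le_add le_rfl e2) ?_
      rw [← add_div]
      refine div_le_div_of_nonneg_right ?_ hca.le
      linarith [show 0 ≤ 2 * (B + 2 * L / r) / r + 4 * B / r by positivity]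
  · set z : Euc d → ℝ := fun x => max (-1) (min 1 (x i)) with hz
    have hzb : ∀ x, |z x| ≤ 1 := fun x =>
      abs_le.2 ⟨le_max_left _ _, max_le (by norm_num) (min_le_left _ _)⟩
    have hzl : ∀ x y, |z x - z y| ≤ ‖x - y‖ := fun x y => by
      refine ((abs_max_sub_max_le_max _ _ _ _).trans
        (by simpa using abs_min_sub_min_le_max 1 (x i) 1 (y i))).trans ?_
      simpa using abs_apply_le_norm (x - y) i
    have e : ∀ x, pd i η x = deriv T (q x) * z x * (-2 * s) := fun x => by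
      rw [hpd, hqe _ hTz]
      by_cases h : deriv T (q x) = 0
      · simp [h]
      · have hxc : ‖x‖ < c := by
          by_contra hxc
          refine h ?_
          simp [hq, min_eq_right (not_lt.1 hxc), hTz 0 le_rfl]
        have hxi := abs_le.1 ((abs_apply_le_norm x i).trans (hxc.le.trans hc))
        rw [hz]; simp only
        rw [min_eq_right hxi.2, max_eq_right hxi.1]
        ring
    have hLip : ∀ x y, |deriv T (q x) * z x - deriv T (q y) * z y|
        ≤ (B + 2 * L / r) / (c - a) * ‖x - y‖ := fun x y => by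
      rw [show deriv T (q x) * z x - deriv T (q y) * z y
        = deriv T (q x) * (z x - z y) + z y * (deriv T (q x) - deriv T (q y)) by ring]
      refine (abs_add_le _ _).trans ?_
      rw [abs_mul, abs_mul]
      have h1 : |deriv T (q x)| * |z x - z y| ≤ B * ‖x - y‖ :=
        mul_le_mul (hB _) (hzl x y) (abs_nonneg _) hB0
      have h2 : |z y| * |deriv T (q x) - deriv T (q y)| ≤ L * (2 / (r * (c - a)) * ‖x - y‖) := by
        refine le_trans (mul_le_of_le_one_left (abs_nonneg _) (hzb y)) ?_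
        refine le_trans ?_ (mul_le_mul_of_nonneg_left (hql x y) L.coe_nonneg)
        simpa [Real.norm_eq_abs] using hL.norm_sub_le (q x) (q y)
      refine (add_le_add h1 h2).trans ?_
      rw [show L * (2 / (r * (c - a)) * ‖x - y‖) = (2 * L / r) / (c - a) * ‖x - y‖ by field_simp,
        ← add_mul]
      refine mul_le_mul_of_nonneg_right ?_ (norm_nonneg _)
      rw [add_div]
      exact add_le_add (by rw [le_div_iff₀ hca]; nlinarith) le_rfl
    refine ((bh_of_lip hα hα1 (L := (B + 2 * L / r) / (c - a) * (2 * s)) (M := B * (2 * s))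
      (by positivity) (fun x => ?_) fun x y => ?_).congr e).mono ?_ ?_
    · rw [abs_mul, abs_mul, show |-2 * s| = 2 * s by rw [abs_mul, abs_neg]; simp [abs_of_pos hs0]]
      refine mul_le_mul_of_nonneg_right ?_ (by positivity)
      exact (mul_le_mul (hB _) (hzb x) (abs_nonneg _) hB0).trans (by simp)
    · rw [← sub_mul, abs_mul, show |-2 * s| = 2 * s by rw [abs_mul, abs_neg]; simp [abs_of_pos hs0]]
      calc _ ≤ (B + 2 * L / r) / (c - a) * ‖x - y‖ * (2 * s) :=
            mul_le_mul_of_nonneg_right (hLip x y) (by positivity)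
        _ = _ := by ring
    · calc B * (2 * s) ≤ B * (2 * (1 / (r * (c - a)))) := by gcongr
        _ = 2 * B / r / (c - a) := by field_simp
        _ ≤ _ := by
          refine div_le_div_of_nonneg_right ?_ hca.le
          linarith [show 0 ≤ 2 * (B + 2 * L / r) / r + 4 * B / r by positivity]
    · calc (B + 2 * L / r) / (c - a) * (2 * s) + 2 * (B * (2 * s))
          ≤ (B + 2 * L / r) / (c - a) * (2 * (1 / (r * (c - a))))
            + 2 * (B * (2 * (1 / (r * (c - a))))) := by gcongr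
        _ = (2 * (B + 2 * L / r) / r) / (c - a) ^ 2 + (4 * B / r) / (c - a) := by
            field_simp; ring
        _ ≤ (2 * (B + 2 * L / r) / r) / (c - a) ^ 2 + (4 * B / r) / (c - a) ^ 2 := by
            refine add_le_add le_rfl (div_le_div_of_nonneg_left (by positivity) (by positivity) ?_)
            nlinarith
        _ ≤ _ := by
          rw [← add_div]
          refine div_le_div_of_nonneg_right ?_ (by positivity)
          linarith [show 0 ≤ 2 * B / r by positivity]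

/-- Data of the linear weak Neumann problem on a half ball. -/
structure IsLinSol (t : Fin d) (R α : ℝ) (A : Fin d → Fin d → Euc d → ℝ)
    (F : Fin d → Euc d → ℝ) (w : Euc d → ℝ) (dw : Fin d → Euc d → ℝ) : Prop where
  diff : ∀ x ∈ hball t R, DifferentiableAt ℝ w x ∧ ∀ i, pd i w x = dw i x
  finite : ∃ K, 0 ≤ K ∧ ∀ i, ∀ x ∈ hball t R, ∀ y ∈ hball t R,
    |dw i x - dw i y| ≤ K * ‖x - y‖ ^ α
  eqn : ∀ φ, IsTestFn φ → tsupport φ ⊆ Metric.ball 0 R →
    ∫ x in upper t, ∑ j, ((∑ k, A j k x * dw k x) - F j x) * pd j φ x = 0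

/-- Interpolation: the gradient is bounded by its Hölder seminorm and the oscillation. -/
lemma abs_dw_le {t : Fin d} {a b α K N δ : ℝ} {w : Euc d → ℝ} {dw : Fin d → Euc d → ℝ}
    (hδ : 0 < δ) (hab : a + δ ≤ b) (hα : 0 ≤ α) (hK : 0 ≤ K)
    (hd : ∀ x ∈ hball t b, DifferentiableAt ℝ w x ∧ ∀ i, pd i w x = dw i x)
    (hh : ∀ i, ∀ x ∈ hball t b, ∀ y ∈ hball t b, |dw i x - dw i y| ≤ K * ‖x - y‖ ^ α)
    (hw : ∀ x ∈ hball t b, |w x| ≤ N) (i : Fin d) {x : Euc d} (hx : x ∈ hball t a) :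
    |dw i x| ≤ K * δ ^ α + 2 * N / δ := by
  rw [mem_hball] at hx
  have hmem : ∀ s ∈ Icc (0 : ℝ) δ, x + s • bas i ∈ hball t b := fun s hs => by
    rw [mem_hball]
    constructor
    · refine lt_of_le_of_lt (norm_add_le _ _) ?_
      rw [norm_smul, PiLp.norm_single, norm_one, mul_one, Real.norm_eq_abs, abs_of_nonneg hs.1]
      linarith [hs.2, hx.1]
    · simp only [PiLp.add_apply, PiLp.smul_apply, smul_eq_mul, bas_apply]
      split_ifs <;> linarith [hs.1, hx.2]
  have hline : ∀ s ∈ Icc (0 : ℝ) δ,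
      HasDerivAt (fun s => w (x + s • bas i)) (dw i (x + s • bas i)) s := fun s hs => by
    obtain ⟨h1, h2⟩ := hd _ (hmem s hs)
    have := h1.hasFDerivAt.comp_hasDerivAt s (((hasDerivAt_id s).smul_const (bas i)).const_add x)
    rw [← h2 i, pd]
    simpa [Function.comp_def] using this
  obtain ⟨s, hs, hse⟩ := exists_hasDerivAt_eq_slope (fun s => w (x + s • bas i))
    (fun s => dw i (x + s • bas i)) hδ (fun s hs => (hline s hs).continuousAt.continuousWithinAt)
    fun s hs => hline s (Ioo_subset_Icc_self hs)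
  have hs' := Ioo_subset_Icc_self hs
  have hx0 : x ∈ hball t b := by simpa using hmem 0 (left_mem_Icc.2 hδ.le)
  have h1 : |dw i (x + s • bas i)| ≤ 2 * N / δ := by
    simp only [hse]
    rw [abs_div, sub_zero, abs_of_pos hδ]
    refine div_le_div_of_nonneg_right ((abs_sub _ _).trans ?_) hδ.le
    linarith [hw _ (hmem δ (right_mem_Icc.2 hδ.le)), hw _ (hmem 0 (left_mem_Icc.2 hδ.le))]
  have h2 : |dw i x - dw i (x + s • bas i)| ≤ K * δ ^ α := by
    refine (hh i x hx0 _ (hmem s hs')).trans (mul_le_mul_of_nonneg_left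
      (Real.rpow_le_rpow (norm_nonneg _) ?_ hα) hK)
    rw [sub_add_cancel_left, norm_neg, norm_smul, PiLp.norm_single, norm_one, mul_one,
      Real.norm_eq_abs, abs_of_nonneg hs'.1]
    exact hs'.2
  calc |dw i x| = |(dw i x - dw i (x + s • bas i)) + dw i (x + s • bas i)| := by ring_nf
    _ ≤ _ := (abs_add_le _ _).trans (add_le_add h2 h1)

/-- The data of one localisation: a cut-off supported in `‖x‖ ≤ c` and global extensions of the
gradient, the function, the datum and `1 - A` from the half ball of radius `c'`. -/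
structure Local (d : ℕ) where
  c : ℝ
  c' : ℝ
  η : Euc d → ℝ
  V : Fin d → Euc d → ℝ
  wb : Euc d → ℝ
  Fb : Fin d → Euc d → ℝ
  Ab : Fin d → Fin d → Euc d → ℝ

namespace Local

variable (L : Local d)

/-- The localised function. -/
noncomputable def loc (x : Euc d) : ℝ := L.η x * L.wb x

/-- Its gradient. -/
noncomputable def dloc (i : Fin d) (x : Euc d) : ℝ := pd i L.η x * L.wb x + L.η x * L.V i x

/-- The extended coefficients. -/
noncomputable def coef (j k : Fin d) (x : Euc d) : ℝ :=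
  (if j = k then (1 : ℝ) else 0) + (-1) * L.Ab j k x

/-- The extended flux. -/
noncomputable def flux (j : Fin d) (x : Euc d) : ℝ :=
  (∑ k, L.coef j k x * L.V k x) + (-1) * L.Fb j x

/-- The vector datum of the localised problem. -/
noncomputable def datum (j : Fin d) (x : Euc d) : ℝ :=
  L.η x * L.Fb j x + ((∑ k, L.wb x * (L.coef j k x * pd k L.η x)) + ∑ k, L.Ab j k x * L.dloc k x)

/-- The scalar datum of the localised problem. -/
noncomputable def source (x : Euc d) : ℝ := ∑ j, (-1) * pd j L.η x * L.flux j x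

/-- Bounds on the data. -/
structure Bounds (α N S K M ε h q : ℝ) : Prop where
  η : BH α 1 h L.η
  dη : ∀ i, BH α h q (pd i L.η)
  smooth : ContDiff ℝ ∞ L.η
  V : ∀ i, BH α S K (L.V i)
  wb : BH α N (2 * (d * S)) L.wb
  Fb : ∀ j, BH α N N (L.Fb j)
  Ab : ∀ j k, BH α ε M (L.Ab j k)

variable {L} {α N S K M ε h q : ℝ} (H : L.Bounds α N S K M ε h q)

include H in
lemma Bounds.bh_coef (hε1 : ε ≤ 1) (j k : Fin d) : BH α 2 M (L.coef j k) :=
  ((bh_const α _).add ((bh_const α (-1)).mul (H.Ab j k))).mono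
    (by split_ifs <;> simp <;> linarith) (by simp)

include H in
lemma Bounds.bh_dloc (i : Fin d) :
    BH α (h * N + S) (h * (2 * (d * S)) + N * q + (K + S * h)) (L.dloc i) :=
  (((H.dη i).mul H.wb).add (H.η.mul (H.V i))).mono (le_of_eq (by ring)) (le_of_eq (by ring))

include H in
lemma Bounds.bh_datum (hε1 : ε ≤ 1) (j : Fin d) :
    BH α (1 * N + (d * (N * (2 * h)) + d * (ε * (h * N + S))))
      (1 * N + N * h + (d * (N * (2 * q + h * M) + 2 * h * (2 * (d * S)))
        + d * (ε * (h * (2 * (d * S)) + N * q + (K + S * h)) + (h * N + S) * M))) (L.datum j) :=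
  (H.η.mul (H.Fb j)).add
    ((BH.sum fun k => H.wb.mul ((H.bh_coef hε1 j k).mul (H.dη k))).add
      (BH.sum fun k => (H.Ab j k).mul (H.bh_dloc k)))

include H in
lemma Bounds.bh_flux (hε1 : ε ≤ 1) (j : Fin d) :
    BH α (d * (2 * S) + |(-1 : ℝ)| * N) (d * (2 * K + S * M) + (|(-1 : ℝ)| * N + N * 0)) (L.flux j) :=
  (BH.sum fun k => (H.bh_coef hε1 j k).mul (H.V k)).add ((bh_const α (-1)).mul (H.Fb j))

include H in
lemma Bounds.abs_source_le (hε1 : ε ≤ 1) (x : Euc d) :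
    |L.source x| ≤ d * (h * (d * (2 * S) + N)) := by
  refine abs_sum_le_card fun j => ?_
  rw [neg_one_mul, abs_mul, abs_neg]
  exact mul_le_mul ((H.dη j).bdd x) (((H.bh_flux hε1 j).bdd x).trans (le_of_eq (by simp)))
    (abs_nonneg _) ((abs_nonneg _).trans ((H.dη j).bdd x))

include H in
lemma Bounds.measurable_source (hε1 : ε ≤ 1) (hα : 0 < α) : Measurable L.source :=
  Finset.measurable_sum _ fun j _ => (measurable_const.mul
    (continuous_pd (H.smooth.of_le (WithTop.coe_le_coe.2 le_top)) j).measurable).mul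
    ((H.bh_flux hε1 j).hold.continuous hα).measurable

/-- The agreement of the extensions with the local problem. -/
structure Agree (L : Local d) (t : Fin d) (A : Fin d → Fin d → Euc d → ℝ)
    (F : Fin d → Euc d → ℝ) (w : Euc d → ℝ) (dw : Fin d → Euc d → ℝ) : Prop where
  lt : L.c < L.c'
  η0 : ∀ x, L.c ≤ ‖x‖ → L.η x = 0
  dη0 : ∀ x, L.c ≤ ‖x‖ → ∀ i, pd i L.η x = 0
  V : ∀ i, EqOn (L.V i) (dw i) (hball t L.c')
  wb : EqOn L.wb w (hball t L.c')
  Fb : ∀ j, EqOn (L.Fb j) (F j) (hball t L.c')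
  Ab : ∀ j k, EqOn (L.Ab j k) (fun x => (if j = k then (1 : ℝ) else 0) - A j k x) (hball t L.c')

variable {t : Fin d} {R : ℝ} {A : Fin d → Fin d → Euc d → ℝ} {F : Fin d → Euc d → ℝ}
  {w : Euc d → ℝ} {dw : Fin d → Euc d → ℝ}

lemma Agree.diff (hη : ContDiff ℝ ∞ L.η) (hA : L.Agree t A F w dw) (hc'R : L.c' ≤ R)
    (hsol : IsLinSol t R α A F w dw) :
    ∀ x ∈ upper t, DifferentiableAt ℝ L.loc x ∧ ∀ i, pd i L.loc x = L.dloc i x := by
  intro x hx
  by_cases hxc : ‖x‖ < L.c'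
  · have hxm : x ∈ hball t L.c' := mem_hball.2 ⟨hxc, hx⟩
    have he : L.loc =ᶠ[𝓝 x] fun z => L.η z * w z := by
      filter_upwards [(isOpen_hball t L.c').mem_nhds hxm] with z hz
      simp [loc, hA.wb hz]
    obtain ⟨hwd, hwp⟩ := hsol.diff x (hball_mono t hc'R hxm)
    have hηx := (hη.differentiable (by simp)) x
    refine ⟨(hηx.mul hwd).congr_of_eventuallyEq he, fun i => ?_⟩
    rw [pd_congr he, pd_mul i hηx hwd, hwp i]
    simp [dloc, hA.wb hxm, hA.V i hxm]
  · have hxc' : L.c < ‖x‖ := lt_of_lt_of_le hA.lt (not_lt.1 hxc)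
    have he : L.loc =ᶠ[𝓝 x] fun _ => 0 := by
      filter_upwards [(isOpen_lt continuous_const continuous_norm).mem_nhds hxc'] with z hz
      simp [loc, hA.η0 z (le_of_lt hz)]
    refine ⟨(differentiableAt_const 0).congr_of_eventuallyEq he, fun i => ?_⟩
    rw [pd_eq_zero_of_eventually he i]
    simp [dloc, hA.η0 x hxc'.le, hA.dη0 x hxc'.le i]

lemma Agree.eqn (hη : ContDiff ℝ ∞ L.η) (hA : L.Agree t A F w dw) (hc'R : L.c' ≤ R)
    (hsol : IsLinSol t R α A F w dw) {φ : Euc d → ℝ} (hφ : IsTestFn φ) :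
    ∫ x in upper t, (∑ j, (L.dloc j x - L.datum j x) * pd j φ x) - L.source x * φ x = 0 := by
  have hψ : IsTestFn fun x => L.η x * φ x := ⟨hη.mul hφ.1, hφ.2.mul_left⟩
  have hψs : tsupport (fun x => L.η x * φ x) ⊆ Metric.ball 0 R := by
    refine (closure_minimal (fun x hx => ?_) (Metric.isClosed_closedBall (x := (0 : Euc d))
      (ε := L.c))).trans (Metric.closedBall_subset_ball (lt_of_lt_of_le hA.lt hc'R))
    rw [mem_closedBall_zero_iff]
    by_contra hxc
    exact hx (by simp [hA.η0 x (not_le.1 hxc).le])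
  rw [← hsol.eqn _ hψ hψs]
  refine setIntegral_congr_fun (measurableSet_upper t) fun x hx => ?_
  have hpd : ∀ j, pd j (fun z => L.η z * φ z) x = pd j L.η x * φ x + L.η x * pd j φ x := fun j =>
    pd_mul j (hη.differentiable (by simp) x) (hφ.1.differentiable (by simp) x)
  by_cases hxc : ‖x‖ < L.c'
  · have hxm : x ∈ hball t L.c' := mem_hball.2 ⟨hxc, hx⟩
    have hC : ∀ j k, L.coef j k x = A j k x := fun j k => by simp [coef, hA.Ab j k hxm]
    have e2 : ∀ j, L.flux j x = (∑ k, A j k x * dw k x) - F j x := fun j => by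
      simp only [flux, hA.Fb j hxm, hC, fun k => hA.V k hxm]
      ring
    have e1 : ∀ j, L.dloc j x - L.datum j x = L.η x * ((∑ k, A j k x * dw k x) - F j x) := by
      intro j
      simp only [datum, dloc, hA.wb hxm, hA.Fb j hxm, hC, fun k => hA.V k hxm,
        fun k => hA.Ab j k hxm]
      simp only [sub_mul, ite_mul, one_mul, zero_mul, mul_add, mul_sub, Finset.mul_sum,
        Finset.sum_sub_distrib, Finset.sum_add_distrib, Finset.sum_ite_eq, Finset.mem_univ, if_true]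
      have e4 : ∑ k, A j k x * (pd k L.η x * w x) = ∑ k, w x * (A j k x * pd k L.η x) :=
        Finset.sum_congr rfl fun k _ => by ring
      have e5 : ∑ k, A j k x * (L.η x * dw k x) = ∑ k, L.η x * (A j k x * dw k x) :=
        Finset.sum_congr rfl fun k _ => by ring
      rw [e4, e5]
      ring
    simp only [e1, source, e2, hpd, Finset.sum_mul, ← Finset.sum_sub_distrib]
    exact Finset.sum_congr rfl fun j _ => by ring
  · have hxc' : L.c ≤ ‖x‖ := le_trans hA.lt.le (not_lt.1 hxc)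
    simp [datum, dloc, source, hpd, hA.η0 x hxc', hA.dη0 x hxc']

end Local

lemma lip_of_grad_upper {t : Fin d} {u : Euc d → ℝ} {du : Fin d → Euc d → ℝ} {B : ℝ} (hB : 0 ≤ B)
    (hc : Continuous u) (hdiff : ∀ x ∈ upper t, DifferentiableAt ℝ u x ∧ ∀ i, pd i u x = du i x)
    (hb : ∀ i x, |du i x| ≤ B) {x y : Euc d} (hx : 0 ≤ x t) (hy : 0 ≤ y t) :
    |u x - u y| ≤ d * B * ‖x - y‖ := by
  have hin : ∀ x ∈ upper t, ∀ y ∈ upper t, |u x - u y| ≤ d * B * ‖x - y‖ := by
    intro x hx y hy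
    have hconv : Convex ℝ (upper t) := convex_halfSpace_gt (f := fun a : Euc d => a t)
      ⟨fun _ _ => by simp, fun _ _ => by simp⟩ 0
    refine hconv.norm_image_sub_le_of_norm_fderiv_le (f := u) (fun z hz => (hdiff z hz).1)
      (fun z hz => ?_) hy hx
    refine ContinuousLinearMap.opNorm_le_bound _ (by positivity) fun v => ?_
    rw [clm_apply_eq, Real.norm_eq_abs]
    refine (abs_sum_le_card (B := ‖v‖ * B) fun j => ?_).trans (le_of_eq (by ring))
    have := (hdiff z hz).2 j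
    rw [pd] at this
    rw [abs_mul, show fderiv ℝ u z (bas j) = du j z from this]
    exact mul_le_mul (abs_apply_le_norm v j) (hb j z) (abs_nonneg _) (norm_nonneg _)
  have ht : Tendsto (fun s : ℝ => |u (x + s • bas t) - u (y + s • bas t)|) (𝓝[>] 0)
      (𝓝 |u x - u y|) := by
    refine tendsto_nhdsWithin_of_tendsto_nhds ?_
    have := (show Continuous fun s : ℝ => |u (x + s • bas t) - u (y + s • bas t)| by
      fun_prop).tendsto 0
    simpa using this
  refine le_of_tendsto ht ?_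
  filter_upwards [self_mem_nhdsWithin] with s hs
  have hs' : (0 : ℝ) < s := hs
  have hm : ∀ z : Euc d, 0 ≤ z t → z + s • bas t ∈ upper t := fun z hz => by
    show 0 < (z + s • bas t) t
    simp; linarith
  simpa using hin _ (hm x hx) _ (hm y hy)

/-- All the data of the localised problem are bounded by `d ε K` plus a multiple of
`(S + N) / ρ ^ 2`. -/
lemma local_arith {n E M S N K ρ ε : ℝ} (hn : 0 ≤ n) (hE : 1 ≤ E) (hM : 0 ≤ M) (hS : 0 ≤ S)
    (hN : 0 ≤ N) (hK : 0 ≤ K) (hρ : 0 < ρ) (hρ1 : ρ ≤ 1) (hε : 0 ≤ ε) (hε1 : ε ≤ 1) :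
    let h := 3 * E / ρ
    let q := 9 * E / ρ ^ 2
    let B := n * (ε * K) + 100 * ((n + 1) ^ 2 * (E * (M + 1))) * ((S + N) / ρ ^ 2)
    (h * N + S ≤ B) ∧ (n * (h * N + S) ≤ B) ∧ (n * (h * (n * (2 * S) + N)) ≤ B) ∧
    (1 * N + (n * (N * (2 * h)) + n * (ε * (h * N + S))) ≤ B) ∧
    (1 * N + N * h + (n * (N * (2 * q + h * M) + 2 * h * (2 * (n * S)))
        + n * (ε * (h * (2 * (n * S)) + N * q + (K + S * h)) + (h * N + S) * M)) ≤ B) := by
  intro h q B
  set T := (S + N) / ρ ^ 2 with hT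
  have hT0 : 0 ≤ T := by positivity
  have hone : 1 ≤ 1 / ρ ^ 2 := by rw [le_div_iff₀ (by positivity)]; nlinarith
  have hNT : N ≤ T := by
    refine le_trans ?_ (mul_le_mul_of_nonneg_left hone (by positivity) |>.trans (le_of_eq (by
      rw [hT]; ring : (S + N) * (1 / ρ ^ 2) = T)))
    linarith
  have hST : S ≤ T := by
    refine le_trans ?_ (mul_le_mul_of_nonneg_left hone (by positivity) |>.trans (le_of_eq (by
      rw [hT]; ring : (S + N) * (1 / ρ ^ 2) = T)))
    linarith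
  have hh : 0 ≤ h := by positivity
  have hinv : 1 / ρ ≤ 1 / ρ ^ 2 := one_div_le_one_div_of_le (by positivity) (by nlinarith)
  have hhN : h * N ≤ 3 * E * T := by
    calc h * N = 3 * E * (N * (1 / ρ)) := by simp only [h]; ring
      _ ≤ 3 * E * ((S + N) * (1 / ρ ^ 2)) := mul_le_mul_of_nonneg_left
          (mul_le_mul (by linarith) hinv (by positivity) (by linarith)) (by linarith)
      _ = 3 * E * T := by rw [hT]; ring
  have hhS : h * S ≤ 3 * E * T := by
    calc h * S = 3 * E * (S * (1 / ρ)) := by simp only [h]; ring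
      _ ≤ 3 * E * ((S + N) * (1 / ρ ^ 2)) := mul_le_mul_of_nonneg_left
          (mul_le_mul (by linarith) hinv (by positivity) (by linarith)) (by linarith)
      _ = 3 * E * T := by rw [hT]; ring
  have hqN : N * q ≤ 9 * E * T := by
    calc N * q = 9 * E * (N / ρ ^ 2) := by simp only [q]; ring
      _ ≤ 9 * E * T := mul_le_mul_of_nonneg_left
          (div_le_div_of_nonneg_right (by linarith) (by positivity)) (by linarith)
  have hεn : ε * (h * (2 * (n * S)) + N * q + S * h) ≤ h * (2 * (n * S)) + N * q + S * h :=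
    mul_le_of_le_one_left (by positivity) hε1
  have hεS : ε * (h * N + S) ≤ h * N + S := mul_le_of_le_one_left (by positivity) hε1
  have a1 := mul_le_mul_of_nonneg_left hhN hn
  have a2 := mul_le_mul_of_nonneg_left hhS hn
  have a3 := mul_le_mul_of_nonneg_left hhS (mul_nonneg hn hn)
  have a4 := mul_le_mul_of_nonneg_left hqN hn
  have a5 := mul_le_mul_of_nonneg_left hST hn
  have a6 := mul_le_mul_of_nonneg_left hhN (mul_nonneg hn hM)
  have a7 := mul_le_mul_of_nonneg_left hST (mul_nonneg hn hM)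
  have a8 := mul_le_mul_of_nonneg_left hεn hn
  have a9 := mul_le_mul_of_nonneg_left hεS hn
  have b0 : 0 ≤ n * (ε * K) := by positivity
  have b1 : 0 ≤ n * E * T := by positivity
  have b2 : 0 ≤ n * n * E * T := by positivity
  have b3 : 0 ≤ n * E * M * T := by positivity
  have b4 : 0 ≤ E * M * T := by positivity
  have b5 : 0 ≤ n * n * E * M * T := by positivity
  have b6 : T ≤ E * T := le_mul_of_one_le_left hT0 hE
  have b7 := mul_le_mul_of_nonneg_left b6 hn
  have b8 := mul_le_mul_of_nonneg_left b6 (mul_nonneg hn hM)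
  have hB : B = n * (ε * K) + 100 * (E * T + 2 * (n * E * T) + n * n * E * T + E * M * T
      + 2 * (n * E * M * T) + n * n * E * M * T) := by
    simp only [B]; ring
  have hhN0 : 0 ≤ h * N := mul_nonneg hh hN
  refine ⟨?_, ?_, ?_, ?_, ?_⟩ <;> rw [hB] <;> linarith

lemma step_bound [NeZero d] {t : Fin d} {α C₁ E M N K S ε a ρ R : ℝ} (hα : 0 < α) (hα1 : α < 1)
    (hNS : ∀ u du G g N, IsNeumann t u du G g α N →
      ∀ i, ∀ x ∈ upper t, ∀ y ∈ upper t, |du i x - du i y| ≤ C₁ * N * ‖x - y‖ ^ α)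
    (hE : 1 ≤ E) (hM : 0 ≤ M) (hN : 0 ≤ N) (hK : 0 ≤ K) (hS : 0 ≤ S) (hε : 0 ≤ ε) (hε1 : ε ≤ 1)
    (hρ : 0 < ρ) (hρ1 : ρ ≤ 1) (hR1 : R ≤ 1) (haR : a + 2 * ρ / 3 ≤ R)
    {η : Euc d → ℝ} (hηs : ContDiff ℝ ∞ η) (hη1 : ∀ x, ‖x‖ ≤ a → η x = 1)
    (hη1' : ∀ x, ‖x‖ < a → ∀ i, pd i η x = 0) (hη0 : ∀ x, a + ρ / 3 ≤ ‖x‖ → η x = 0)
    (hη0' : ∀ x, a + ρ / 3 ≤ ‖x‖ → ∀ i, pd i η x = 0)
    (hηb : BH α 1 (3 * E / ρ) η) (hηd : ∀ i, BH α (3 * E / ρ) (9 * E / ρ ^ 2) (pd i η))
    {A : Fin d → Fin d → Euc d → ℝ} {F : Fin d → Euc d → ℝ} {w : Euc d → ℝ}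
    {dw : Fin d → Euc d → ℝ} (hsol : IsLinSol t R α A F w dw)
    (hAε : ∀ j k, ∀ x ∈ hball t R, |A j k x - if j = k then 1 else 0| ≤ ε)
    (hAh : ∀ j k, ∀ x ∈ hball t R, ∀ y ∈ hball t R, |A j k x - A j k y| ≤ M * ‖x - y‖ ^ α)
    (hFb : ∀ j, ∀ x ∈ hball t R, |F j x| ≤ N)
    (hFh : ∀ j, ∀ x ∈ hball t R, ∀ y ∈ hball t R, |F j x - F j y| ≤ N * ‖x - y‖ ^ α)
    (hw : ∀ x ∈ hball t R, |w x| ≤ N)
    (hdwb : ∀ i, ∀ x ∈ hball t (a + 2 * ρ / 3), |dw i x| ≤ S)
    (hdwh : ∀ i, ∀ x ∈ hball t (a + 2 * ρ / 3), ∀ y ∈ hball t (a + 2 * ρ / 3),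
      |dw i x - dw i y| ≤ K * ‖x - y‖ ^ α) :
    ∀ i, ∀ x ∈ hball t a, ∀ y ∈ hball t a, |dw i x - dw i y| ≤
      C₁ * (d * (ε * K) + 100 * (((d : ℝ) + 1) ^ 2 * (E * (M + 1))) * ((S + N) / ρ ^ 2))
        * ‖x - y‖ ^ α := by
  set c' := a + 2 * ρ / 3 with hc'
  have hsub : hball t c' ⊆ hball t R := hball_mono t haR
  choose V hVh hVb hVe using fun i => exists_hold_extend hα hα1.le hK hS (hdwb i) (hdwh i)
  have hwl : ∀ x ∈ hball t c', ∀ y ∈ hball t c', |w x - w y| ≤ 2 * (d * S) * ‖x - y‖ ^ α := by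
    intro x hx y hy
    have h1 : |w x - w y| ≤ (d * S) * ‖x - y‖ := by
      refine (convex_hball t c').norm_image_sub_le_of_norm_fderiv_le (f := w)
        (fun z hz => (hsol.diff z (hsub hz)).1) (fun z hz => ?_) hy hx
      refine ContinuousLinearMap.opNorm_le_bound _ (by positivity) fun v => ?_
      rw [clm_apply_eq, Real.norm_eq_abs]
      refine (abs_sum_le_card (B := ‖v‖ * S) fun j => ?_).trans (le_of_eq (by ring))
      have := (hsol.diff z (hsub hz)).2 j
      rw [pd] at this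
      rw [abs_mul, show fderiv ℝ w z (bas j) = dw j z from this]
      exact mul_le_mul (abs_apply_le_norm v j) (hdwb j z hz) (abs_nonneg _) (norm_nonneg _)
    refine h1.trans ?_
    have h2 : ‖x - y‖ ≤ 2 := by
      have hx' := (mem_hball.1 hx).1
      have hy' := (mem_hball.1 hy).1
      linarith [norm_sub_le x y]
    calc (d * S) * ‖x - y‖ ≤ (d * S) * (2 * ‖x - y‖ ^ α) := mul_le_mul_of_nonneg_left
          (rpow_ge_of_le_two (norm_nonneg _) h2 hα hα1.le) (by positivity)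
      _ = _ := by ring
  obtain ⟨wb, hwbh, hwbb, hwbe⟩ := exists_hold_extend hα hα1.le
    (show (0 : ℝ) ≤ 2 * (d * S) by positivity) hN (fun x hx => hw x (hsub hx)) hwl
  choose Fb hFbh hFbb hFbe using fun j =>
    exists_hold_extend hα hα1.le hN hN (hFb j) (hFh j)
  choose Ab hAbh hAbb hAbe using fun j k => exists_hold_extend (f := fun x =>
    (if j = k then (1 : ℝ) else 0) - A j k x) hα hα1.le hM hε
    (fun x hx => by rw [abs_sub_comm]; exact hAε j k x hx)
    (fun x hx y hy => by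
      rw [show (if j = k then (1 : ℝ) else 0) - A j k x - ((if j = k then (1 : ℝ) else 0) - A j k y)
        = A j k y - A j k x by ring, abs_sub_comm]
      exact hAh j k x hx y hy)
  let L : Local d := ⟨a + ρ / 3, c', η, V, wb, Fb, Ab⟩
  have H : L.Bounds α N S K M ε (3 * E / ρ) (9 * E / ρ ^ 2) :=
    ⟨hηb, hηd, hηs, fun i => ⟨hVb i, hVh i⟩, ⟨hwbb, hwbh⟩, fun j => ⟨hFbb j, hFbh j⟩,
      fun j k => ⟨hAbb j k, hAbh j k⟩⟩
  have hA : L.Agree t A F w dw :=
    ⟨show a + ρ / 3 < c' by linarith, hη0, hη0', hVe, hwbe, fun j x hx => hFbe j (hsub hx),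
      fun j k x hx => hAbe j k (hsub hx)⟩
  obtain ⟨a1, a2, a3, a4, a5⟩ :=
    local_arith (Nat.cast_nonneg d) hE hM hS hN hK hρ hρ1 hε hε1
  set B := d * (ε * K) + 100 * (((d : ℝ) + 1) ^ 2 * (E * (M + 1))) * ((S + N) / ρ ^ 2) with hB
  have hd := hA.diff hηs haR hsol
  have hu0 : 0 ≤ 3 * E / ρ * N + S := by positivity
  have hNe : IsNeumann t L.loc L.dloc L.datum L.source α B :=
    ⟨fun x y hx hy => (lip_of_grad_upper hu0 (hηs.continuous.mul (H.wb.hold.continuous hα)) hd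
        (fun i => (H.bh_dloc i).bdd) hx hy).trans (mul_le_mul_of_nonneg_right a2 (norm_nonneg _)),
      hd, fun i => (H.bh_dloc i).hold.continuous hα, fun i x => ((H.bh_dloc i).bdd x).trans a1,
      H.measurable_source hε1 hα, fun x => (H.abs_source_le hε1 x).trans a3,
      fun j => ((H.bh_datum hε1 j).mono a4 a5).hold,
      fun j => ((H.bh_datum hε1 j).mono a4 a5).bdd,
      fun φ hφ => hA.eqn hηs haR hsol hφ⟩
  intro i x hx y hy
  have hxy : ∀ z ∈ hball t a, L.dloc i z = dw i z := fun z hz => by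
    have hzm : z ∈ hball t c' := hball_mono t (by simp only [hc']; linarith) hz
    simp [Local.dloc, L, hη1 z (mem_hball.1 hz).1.le, hη1' z (mem_hball.1 hz).1 i, hVe i hzm]
  have h := hNS _ _ _ _ B hNe i x (mem_hball.1 hx).2 y (mem_hball.1 hy).2
  rwa [hxy x hx, hxy y hy] at h

lemma absorb_arith {C Γ κ α K N ρ : ℝ} {p : ℕ} (hC : 0 ≤ C) (hΓ : 0 ≤ Γ) (hκ : 0 < κ)
    (hκ1 : κ ≤ 1) (hK : 0 ≤ K) (hN : 0 ≤ N) (hρ : 0 < ρ) (hρ1 : ρ ≤ 1) (hp : 2 ≤ (p : ℝ) * α)
    (hsmall : C * Γ * κ ^ α ≤ 1 / 4) :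
    C * (Γ * ((K * (κ * ρ ^ p) ^ α + 2 * N / (κ * ρ ^ p) + N) / ρ ^ 2))
      ≤ K / 4 + C * Γ * (3 / κ) * N / ρ ^ (p + 2) := by
  set δ := κ * ρ ^ p with hδ
  have hδ0 : 0 < δ := by positivity
  have hpow : δ ^ α / ρ ^ 2 ≤ κ ^ α := by
    rw [div_le_iff₀ (by positivity), hδ, Real.mul_rpow hκ.le (by positivity),
      ← Real.rpow_natCast ρ p, ← Real.rpow_mul hρ.le, ← Real.rpow_natCast ρ 2]
    refine mul_le_mul_of_nonneg_left (Real.rpow_le_rpow_of_exponent_ge hρ hρ1 ?_) (by positivity)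
    push_cast; linarith
  have hsplit : C * (Γ * ((K * δ ^ α + 2 * N / δ + N) / ρ ^ 2))
      = C * Γ * (δ ^ α / ρ ^ 2) * K + C * Γ * ((2 / δ + 1) * N / ρ ^ 2) := by ring
  rw [hsplit]
  refine add_le_add ?_ ?_
  · refine (mul_le_mul_of_nonneg_right ((mul_le_mul_of_nonneg_left hpow (by positivity)).trans
      hsmall) hK).trans (le_of_eq (by ring))
  · have hδ1 : δ ≤ 1 := mul_le_one₀ hκ1 (by positivity) (pow_le_one₀ hρ.le hρ1)
    have h3 : 2 / δ + 1 ≤ 3 / δ := by
      rw [show (3 : ℝ) / δ = 2 / δ + 1 / δ by ring]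
      exact add_le_add le_rfl (by rw [le_div_iff₀ hδ0]; linarith)
    calc C * Γ * ((2 / δ + 1) * N / ρ ^ 2) ≤ C * Γ * (3 / δ * N / ρ ^ 2) := by gcongr
      _ = C * Γ * (3 / κ) * N / ρ ^ (p + 2) := by simp only [hδ, pow_add]; field_simp

lemma linear_final {t : Fin d} {α N C r r' R : ℝ} {A : Fin d → Fin d → Euc d → ℝ}
    {F : Fin d → Euc d → ℝ} {w : Euc d → ℝ} {dw : Fin d → Euc d → ℝ} (hα : 0 ≤ α) (hN : 0 ≤ N)
    (hC : 0 ≤ C) (hr : r < r') (hR : r' ≤ R) (hsol : IsLinSol t R α A F w dw)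
    (hw : ∀ x ∈ hball t R, |w x| ≤ N)
    (hP : ∀ i, ∀ x ∈ hball t r', ∀ y ∈ hball t r', |dw i x - dw i y| ≤ C * N * ‖x - y‖ ^ α) :
    ∀ i, (∀ x ∈ hball t r, |dw i x| ≤ (C + C * (r' - r) ^ α + 2 / (r' - r)) * N) ∧
      ∀ x ∈ hball t r, ∀ y ∈ hball t r,
        |dw i x - dw i y| ≤ (C + C * (r' - r) ^ α + 2 / (r' - r)) * N * ‖x - y‖ ^ α := by
  have hsub : hball t r' ⊆ hball t R := hball_mono t hR
  have h0 : 0 < r' - r := by linarith
  have h1 : 0 ≤ C * (r' - r) ^ α := by positivity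
  have h2 : 0 ≤ 2 / (r' - r) := by positivity
  intro i
  refine ⟨fun x hx => ?_, fun x hx y hy => ?_⟩
  · refine (abs_dw_le h0 (by linarith) hα (mul_nonneg hC hN) (fun z hz => hsol.diff z (hsub hz))
      hP (fun z hz => hw z (hsub hz)) i hx).trans ?_
    rw [show C * N * (r' - r) ^ α + 2 * N / (r' - r) = (C * (r' - r) ^ α + 2 / (r' - r)) * N by ring]
    exact mul_le_mul_of_nonneg_right (by linarith) hN
  · refine (hP i x (hball_mono t hr.le hx) y (hball_mono t hr.le hy)).trans ?_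
    exact mul_le_mul_of_nonneg_right (mul_le_mul_of_nonneg_right (by linarith) hN)
      (Real.rpow_nonneg (norm_nonneg _) _)

theorem exists_linear_bound [NeZero d] (t : Fin d) {α : ℝ} (hα : 0 < α) (hα1 : α < 1) :
    ∃ ε : ℝ, 0 < ε ∧ ∀ r R M : ℝ, 0 < r → r < R → R ≤ 1 → 0 ≤ M → ∃ C : ℝ, 0 ≤ C ∧
      ∀ (A : Fin d → Fin d → Euc d → ℝ) (F : Fin d → Euc d → ℝ) (w : Euc d → ℝ)
        (dw : Fin d → Euc d → ℝ) (N : ℝ), 0 ≤ N → IsLinSol t R α A F w dw →
        (∀ j k, ∀ x ∈ hball t R, |A j k x - if j = k then 1 else 0| ≤ ε) →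
        (∀ j k, ∀ x ∈ hball t R, ∀ y ∈ hball t R, |A j k x - A j k y| ≤ M * ‖x - y‖ ^ α) →
        (∀ j, ∀ x ∈ hball t R, |F j x| ≤ N) →
        (∀ j, ∀ x ∈ hball t R, ∀ y ∈ hball t R, |F j x - F j y| ≤ N * ‖x - y‖ ^ α) →
        (∀ x ∈ hball t R, |w x| ≤ N) →
        ∀ i, (∀ x ∈ hball t r, |dw i x| ≤ C * N) ∧
          ∀ x ∈ hball t r, ∀ y ∈ hball t r, |dw i x - dw i y| ≤ C * N * ‖x - y‖ ^ α := by
  obtain ⟨C₁, hC₁, hNS⟩ := exists_neumann_bound t hα hα1
  set ε : ℝ := 1 / (4 * (C₁ + 1) * (d + 1)) with hεdef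
  have hε : 0 < ε := by positivity
  have hε1 : ε ≤ 1 := by
    rw [hεdef, div_le_one (by positivity)]
    nlinarith [Nat.cast_nonneg (α := ℝ) d]
  refine ⟨ε, hε, fun r R M hr hrR hR1 hM => ?_⟩
  obtain ⟨E, hE, hcut⟩ := exists_cutoff (d := d) hα hα1.le hr
  obtain ⟨p, hp⟩ := exists_nat_ge (2 / α)
  have hp' : 2 ≤ (p : ℝ) * α := (div_le_iff₀ hα).1 hp
  have hp1 : 1 ≤ p := by
    have : (0 : ℝ) < p := lt_of_lt_of_le (by positivity) hp
    exact_mod_cast this
  set Γ : ℝ := 100 * (((d : ℝ) + 1) ^ 2 * (E * (M + 1))) with hΓ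
  have hΓ0 : 0 < Γ := by positivity
  set κ : ℝ := min (1 / 3) ((1 / (4 * (C₁ + 1) * Γ)) ^ (1 / α)) with hκ
  have hκ0 : 0 < κ := lt_min (by norm_num) (by positivity)
  have hκ3 : κ ≤ 1 / 3 := min_le_left _ _
  have hκα : (C₁ + 1) * Γ * κ ^ α ≤ 1 / 4 := by
    have h1 : κ ^ α ≤ 1 / (4 * (C₁ + 1) * Γ) := by
      refine (Real.rpow_le_rpow hκ0.le (min_le_right _ _) hα.le).trans (le_of_eq ?_)
      rw [← Real.rpow_mul (by positivity), one_div_mul_cancel hα.ne', Real.rpow_one]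
    calc (C₁ + 1) * Γ * κ ^ α ≤ (C₁ + 1) * Γ * (1 / (4 * (C₁ + 1) * Γ)) := by gcongr
      _ = 1 / 4 := by field_simp
  set c₀ : ℝ := (C₁ + 1) * Γ * (3 / κ) with hc₀
  have hc₀0 : 0 ≤ c₀ := by positivity
  obtain ⟨D, hD, hiter⟩ := exists_iteration (p + 2)
  set r' := (r + R) / 2 with hr'
  have hrr' : r < r' := by simp only [hr']; linarith
  have hr'R : r' < R := by simp only [hr']; linarith
  set C₂ : ℝ := D * c₀ / (R - r') ^ (p + 2) with hC₂
  have hC₂0 : 0 ≤ C₂ := div_nonneg (mul_nonneg hD hc₀0) (pow_nonneg (by linarith) _)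
  set δ₀ : ℝ := r' - r with hδ₀
  have hδ₀0 : 0 < δ₀ := by simp only [hδ₀]; linarith
  refine ⟨C₂ + C₂ * δ₀ ^ α + 2 / δ₀, by positivity, ?_⟩
  intro A F w dw N hN hsol hAε hAh hFb hFh hw
  set P : ℝ → ℝ → Prop := fun a K => ∀ i, ∀ x ∈ hball t a, ∀ y ∈ hball t a,
    |dw i x - dw i y| ≤ K * ‖x - y‖ ^ α with hP
  have hstep : ∀ a b K, r' ≤ a → a < b → b ≤ R → 0 ≤ K → P b K →
      P a (K / 2 + c₀ * N / (b - a) ^ (p + 2)) := by
    intro a b K hra hab hbR hK hPb
    set ρ := b - a with hρ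
    have hρ0 : 0 < ρ := by simp only [hρ]; linarith
    have hρ1 : ρ ≤ 1 := by simp only [hρ]; linarith
    obtain ⟨η, hηs, hη1, hη1', hη0, hη0', hηb, hηd⟩ := hcut a (a + ρ / 3) (by linarith)
      (by linarith) (by simp only [hρ]; linarith)
    rw [add_sub_cancel_left] at hηb hηd
    have hb1 : E / (ρ / 3) = 3 * E / ρ := by field_simp
    have hb2 : E / (ρ / 3) ^ 2 = 9 * E / ρ ^ 2 := by field_simp; ring
    simp only [hb1, hb2] at hηb hηd
    have hδle : a + 2 * ρ / 3 + κ * ρ ^ p ≤ b := by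
      have : κ * ρ ^ p ≤ ρ / 3 := (mul_le_mul hκ3
        (by simpa using pow_le_pow_of_le_one hρ0.le hρ1 hp1) (by positivity) (by norm_num)).trans
        (le_of_eq (by ring))
      simp only [hρ] at this ⊢; linarith
    have hsubR : hball t b ⊆ hball t R := hball_mono t hbR
    have hsub' : hball t (a + 2 * ρ / 3) ⊆ hball t b :=
      hball_mono t (by linarith [show 0 ≤ κ * ρ ^ p by positivity])
    have hS0 : 0 ≤ K * (κ * ρ ^ p) ^ α + 2 * N / (κ * ρ ^ p) := by positivity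
    have h1 := step_bound hα hα1 hNS hE hM hN hK hS0 hε.le hε1 hρ0 hρ1 hR1
      (by simp only [hρ] at hδle ⊢; linarith [show 0 ≤ κ * (b - a) ^ p by positivity]) hηs hη1 hη1'
      hη0 hη0' hηb hηd hsol hAε hAh hFb hFh hw
      (fun i x hx => abs_dw_le (by positivity) hδle hα.le hK (fun z hz => hsol.diff z (hsubR hz))
        hPb (fun z hz => hw z (hsubR hz)) i hx)
      (fun i x hx y hy => hPb i x (hsub' hx) y (hsub' hy))
    intro i x hx y hy
    refine (h1 i x hx y hy).trans (mul_le_mul_of_nonneg_right ?_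
      (Real.rpow_nonneg (norm_nonneg _) _))
    have e1 : C₁ * (d * (ε * K)) ≤ K / 4 := by
      rw [hεdef, show C₁ * ((d : ℝ) * (1 / (4 * (C₁ + 1) * (d + 1)) * K))
        = (C₁ * d / ((C₁ + 1) * (d + 1))) * (K / 4) by field_simp]
      refine mul_le_of_le_one_left (by linarith) ?_
      rw [div_le_one (by positivity)]
      nlinarith
    have e2 := absorb_arith (C := C₁ + 1) (by linarith) hΓ0.le hκ0 (by linarith) hK hN hρ0 hρ1 hp' hκα
    have e3 : C₁ * (Γ * ((K * (κ * ρ ^ p) ^ α + 2 * N / (κ * ρ ^ p) + N) / ρ ^ 2))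
        ≤ (C₁ + 1) * (Γ * ((K * (κ * ρ ^ p) ^ α + 2 * N / (κ * ρ ^ p) + N) / ρ ^ 2)) :=
      mul_le_mul_of_nonneg_right (by linarith) (by positivity)
    rw [mul_add C₁, ← hΓ]
    linarith
  obtain ⟨K₀, hK₀, hfin⟩ := hsol.finite
  have hPr : P r' (D * (c₀ * N) / (R - r') ^ (p + 2)) :=
    hiter r' R (c₀ * N) P hr'R (by positivity)
      (fun a K K' h hKK i x hx y hy => (h i x hx y hy).trans
        (mul_le_mul_of_nonneg_right hKK (Real.rpow_nonneg (norm_nonneg _) _)))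
      (fun a b K hab h i x hx y hy => h i x (hball_mono t hab hx) y (hball_mono t hab hy))
      (fun a K h i x hx y hy => by
        refine le_of_forall_pos_le_add fun e he => ?_
        set q := ‖x - y‖ ^ α with hq
        have hq0 : 0 ≤ q := Real.rpow_nonneg (norm_nonneg _) _
        refine (h (e / (q + 1)) (by positivity) i x hx y hy).trans ?_
        have : e / (q + 1) * q ≤ e := by
          rw [div_mul_eq_mul_div, div_le_iff₀ (by positivity)]
          exact mul_le_mul_of_nonneg_left (by linarith only []) he.le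
        linarith [add_mul K (e / (q + 1)) q])
      hstep ⟨K₀, hK₀, hfin⟩
  rw [show D * (c₀ * N) / (R - r') ^ (p + 2) = C₂ * N by simp only [hC₂]; ring] at hPr
  exact linear_final hα.le hN hC₂0 hrr' hr'R.le hsol hw hPr

end Vale.Agent.P098.B5
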