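import Vale.Agent.P098.Regularity.B5.Interior
import Vale.Agent.P098.Regularity.B5.Variable

/-!
P098, block B5: coordinates at a free boundary point in which the normal is a coordinate vector.
-/

open MeasureTheory Filter Set
open scoped Topology ContDiff RealInnerProductSpace

namespace Vale.Agent.P098.B5

variable {d : ℕ}

/-- The situation at a free boundary point moved to the origin with normal `bas t`. -/
structure IsNear (u : Euc d → ℝ) (t : Fin d) (r α K : ℝ) : Prop where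
  cont : Continuous u
  nonneg : ∀ x, 0 ≤ u x
  smooth : ContDiffOn ℝ ∞ u (posSet u)
  harmonic : ∀ x ∈ posSet u, ∑ i, pd i (pd i u) x = 0
  r_pos : 0 < r
  K_nonneg : 0 ≤ K
  α_pos : 0 < α
  α_lt : α < 1
  zero : u 0 = 0
  grad : ∀ i, ∀ x ∈ posSet u, ‖x‖ < r → |pd i u x - if i = t then 1 else 0| ≤ K * ‖x‖ ^ α
  hold : ∀ i, ∀ x ∈ posSet u, ∀ y ∈ posSet u, ‖x‖ < r → ‖y‖ < r →
    |pd i u x - pd i u y| ≤ K * ‖x - y‖ ^ α
  eik : ∀ x ∈ posSet u, ‖x‖ < r → ∀ z, u z = 0 → |1 - ∑ i, pd i u x ^ 2| ≤ K * ‖x - z‖ ^ α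
  above : ∀ x, ‖x‖ < r → K * ‖x‖ ^ (1 + α) < x t → 0 < u x
  below : ∀ x, ‖x‖ < r → 0 < u x → -(K * ‖x‖ ^ (1 + α)) ≤ x t

lemma exists_isometry_bas {ν₀ : Euc d} (t : Fin d) (h : ‖ν₀‖ = 1) :
    ∃ R : Euc d ≃ₗᵢ[ℝ] Euc d, R (bas t) = ν₀ := by
  have hon : Orthonormal ℝ (({t} : Set (Fin d)).domRestrict fun _ => ν₀) := by
    refine ⟨fun i => h, fun i j hij => ?_⟩
    exact absurd (Subtype.ext (i.2.trans j.2.symm)) hij
  obtain ⟨b, hb⟩ := hon.exists_orthonormalBasis_extension_of_card_eq (by simp)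
  refine ⟨b.repr.symm, ?_⟩
  rw [OrthonormalBasis.repr_symm_single]
  exact hb t rfl

lemma sum_bilin_basis (B : Euc d →L[ℝ] Euc d →L[ℝ] ℝ) (R : Euc d ≃ₗᵢ[ℝ] Euc d) :
    ∑ i, B (R (bas i)) (R (bas i)) = ∑ i, B (bas i) (bas i) := by
  have hexp : ∀ v : Euc d, B v v = ∑ j, ∑ k, v j * v k * B (bas j) (bas k) := fun v => by
    rw [clm_apply_eq (B v) v, Finset.sum_comm]
    refine Finset.sum_congr rfl fun k _ => ?_
    conv_lhs => rw [← sum_smul_bas v]
    simp only [map_sum, map_smul, FunLike.coe_sum, Finset.sum_apply, smul_apply,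
      smul_eq_mul, Finset.mul_sum]
    simp only [sum_smul_bas]
    exact Finset.sum_congr rfl fun j _ => by ring
  have horth : ∀ j k, ∑ i, R (bas i) j * R (bas i) k = if j = k then 1 else 0 := fun j k => by
    have h := ((EuclideanSpace.basisFun (Fin d) ℝ).map R).sum_inner_mul_inner (bas j) (bas k)
    simpa [EuclideanSpace.inner_single_left, EuclideanSpace.inner_single_right,
      Pi.single_apply, eq_comm] using h
  simp only [hexp (R _)]
  rw [Finset.sum_comm]
  refine Finset.sum_congr rfl fun j _ => ?_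
  rw [Finset.sum_comm]
  simp [← Finset.sum_mul, horth]

lemma sum_sq_basis (L : Euc d →L[ℝ] ℝ) (R : Euc d ≃ₗᵢ[ℝ] Euc d) :
    ∑ i, L (R (bas i)) ^ 2 = ∑ i, L (bas i) ^ 2 := by
  have h := sum_bilin_basis (L.smulRight L) R
  simpa [sq] using h

variable {u : Euc d → ℝ} {ν : Euc d → Euc d} {x₀ : Euc d} {c ρ α C : ℝ}

theorem IsExp.exists_gradient [NeZero d] (H : IsExp u ν x₀ c ρ α C)
    (hx₀ : x₀ ∈ frontier (posSet u)) : ∃ K : ℝ, 0 ≤ K ∧
      (∀ i, ∀ x ∈ posSet u, dist x x₀ < ρ / 64 → |pd i u x - ν x₀ i| ≤ K * ‖x - x₀‖ ^ α) ∧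
      (∀ i, ∀ x ∈ posSet u, ∀ y ∈ posSet u, dist x x₀ < ρ / 64 → dist y x₀ < ρ / 64 →
        |pd i u x - pd i u y| ≤ K * ‖x - y‖ ^ α) ∧
      ∀ x ∈ posSet u, dist x x₀ < ρ / 64 → ∀ z, u z = 0 →
        |1 - ∑ i, pd i u x ^ 2| ≤ K * ‖x - z‖ ^ α := by
  obtain ⟨K₁, hK₁, hpt⟩ := H.exists_pointwise hx₀
  obtain ⟨K₂, hK₂, hν⟩ := H.exists_normal_hold
  have hρ := H.ρ_pos
  have hα := H.α_pos
  set B := K₁ * ρ ^ α with hB
  have hB0 : 0 ≤ B := by positivity
  refine ⟨K₁ + 2 * K₂ + (8 * K₁ + 9 * K₂ + d * K₁) + d * (K₁ * (2 + B)), by positivity,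
    fun i x hx hx0 => ?_, fun i x hx y hy hx0 hy0 => ?_, fun x hx hx0 z hz => ?_⟩
  · obtain ⟨z, hz, hsub, hδ, hle, hz0⟩ := H.exists_nearest hx₀ hx
    have h1 := (hpt x hx (by linarith) z hz hsub hδ hle hz0).1 i
    have h2 := hν z hz x₀ hx₀ (by linarith) (by simp; linarith)
    have h3 : dist x z ^ α ≤ ‖x - x₀‖ ^ α :=
      Real.rpow_le_rpow hδ.le (by rwa [← dist_eq_norm]) hα.le
    have h4 : ‖z - x₀‖ ^ α ≤ 2 * ‖x - x₀‖ ^ α := by
      refine (Real.rpow_le_rpow (norm_nonneg _) (by rwa [← dist_eq_norm, ← dist_eq_norm] :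
        ‖z - x₀‖ ≤ 2 * ‖x - x₀‖) hα.le).trans ?_
      rw [Real.mul_rpow (by norm_num) (norm_nonneg _)]
      refine mul_le_mul_of_nonneg_right ?_ (by positivity)
      simpa using Real.rpow_le_rpow_of_exponent_le one_le_two H.α_lt.le
    have h5 : |ν z i - ν x₀ i| ≤ ‖ν z - ν x₀‖ := by simpa using abs_apply_le_norm (ν z - ν x₀) i
    have hX : 0 ≤ ‖x - x₀‖ ^ α := by positivity
    calc |pd i u x - ν x₀ i| ≤ |pd i u x - ν z i| + |ν z i - ν x₀ i| := abs_sub_le _ _ _
      _ ≤ K₁ * ‖x - x₀‖ ^ α + K₂ * (2 * ‖x - x₀‖ ^ α) :=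
          add_le_add (h1.trans (mul_le_mul_of_nonneg_left h3 hK₁))
            (h5.trans (h2.trans (mul_le_mul_of_nonneg_left h4 hK₂)))
      _ = (K₁ + 2 * K₂) * ‖x - x₀‖ ^ α := by ring
      _ ≤ _ := mul_le_mul_of_nonneg_right (by
          linarith [show 0 ≤ 8 * K₁ + 9 * K₂ + d * K₁ + d * (K₁ * (2 + B)) by positivity]) hX
  · obtain ⟨zx, hzx, hsubx, hδx, hlex, hzx0⟩ := H.exists_nearest hx₀ hx
    obtain ⟨zy, hzy, hsuby, hδy, hley, hzy0⟩ := H.exists_nearest hx₀ hy
    obtain ⟨hx1, hx2⟩ := hpt x hx (by linarith) zx hzx hsubx hδx hlex hzx0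
    obtain ⟨hy1, hy2⟩ := hpt y hy (by linarith) zy hzy hsuby hδy hley hzy0
    set s := ‖x - y‖ with hs
    have hX : 0 ≤ s ^ α := by positivity
    refine le_trans ?_ (mul_le_mul_of_nonneg_right (show 8 * K₁ + 9 * K₂ + d * K₁
      ≤ K₁ + 2 * K₂ + (8 * K₁ + 9 * K₂ + d * K₁) + d * (K₁ * (2 + B)) by
        linarith [show 0 ≤ K₁ + 2 * K₂ + d * (K₁ * (2 + B)) by positivity]) hX)
    have far : ∀ a b z : Euc d, 4 * ‖a - b‖ < dist a z → 0 < dist a z →
        (∀ j, ∀ w ∈ Metric.closedBall a (dist a z / 4),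
          |pd j (pd i u) w| ≤ K₁ * dist a z ^ (α - 1)) →
        Metric.ball a (dist a z) ⊆ posSet u →
        |pd i u a - pd i u b| ≤ d * K₁ * ‖a - b‖ ^ α := by
      intro a b z hfar hδ hbd hsub
      rcases eq_or_lt_of_le (norm_nonneg (a - b)) with h0 | h0
      · rw [sub_eq_zero.1 (norm_eq_zero.1 h0.symm), sub_self, abs_zero]; positivity
      have hb : b ∈ Metric.closedBall a (dist a z / 4) := by
        rw [Metric.mem_closedBall, dist_comm, dist_eq_norm]; linarith
      have hdiff : ∀ w ∈ Metric.closedBall a (dist a z / 4), DifferentiableAt ℝ (pd i u) w :=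
        fun w hw => ((contDiffAt_pd_of_contDiffOn H.isOpen_pos H.smooth i).contDiffAt
          (H.isOpen_pos.mem_nhds (hsub (Metric.closedBall_subset_ball (by linarith) hw)))).differentiableAt
            (by simp)
      have h := (convex_closedBall a (dist a z / 4)).norm_image_sub_le_of_norm_fderiv_le
        (f := pd i u) hdiff (C := d * (K₁ * dist a z ^ (α - 1))) (fun w hw => ?_) hb
        (Metric.mem_closedBall_self (by linarith))
      · refine h.trans ?_
        have hp : dist a z ^ (α - 1) ≤ ‖a - b‖ ^ (α - 1) :=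
          Real.rpow_le_rpow_of_nonpos h0 (by linarith) (by linarith [H.α_lt])
        calc (d : ℝ) * (K₁ * dist a z ^ (α - 1)) * ‖a - b‖
            ≤ d * (K₁ * ‖a - b‖ ^ (α - 1)) * ‖a - b‖ := by gcongr
          _ = d * K₁ * ‖a - b‖ ^ α := by
              rw [Real.rpow_sub_one h0.ne']; field_simp
      · refine ContinuousLinearMap.opNorm_le_bound _ (by positivity) fun v => ?_
        rw [clm_apply_eq, Real.norm_eq_abs]
        refine (abs_sum_le_card (B := ‖v‖ * (K₁ * dist a z ^ (α - 1))) fun j => ?_).trans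
          (le_of_eq (by ring))
        rw [abs_mul]
        exact mul_le_mul (abs_apply_le_norm v j) (hbd j w hw) (abs_nonneg _) (norm_nonneg _)
    rcases lt_or_ge (4 * s) (dist x zx) with hfx | hfx
    · refine (far x y zx hfx hδx (fun j => hx2 i j) hsubx).trans
        (mul_le_mul_of_nonneg_right (by linarith [show 0 ≤ 8 * K₁ + 9 * K₂ by positivity]) hX)
    rcases lt_or_ge (4 * s) (dist y zy) with hfy | hfy
    · rw [abs_sub_comm]
      have := far y x zy (by rwa [norm_sub_rev]) hδy (fun j => hy2 i j) hsuby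
      rw [norm_sub_rev] at this
      exact this.trans
        (mul_le_mul_of_nonneg_right (by linarith [show 0 ≤ 8 * K₁ + 9 * K₂ by positivity]) hX)
    have h2 := hν zx hzx zy hzy (by linarith) (by linarith)
    have h4 : ∀ q m : ℝ, 1 ≤ m → 0 ≤ q → q ≤ m * s → q ^ α ≤ m * s ^ α := fun q m hm hq hqs => by
      refine (Real.rpow_le_rpow hq hqs hα.le).trans ?_
      rw [Real.mul_rpow (by linarith) (norm_nonneg _)]
      refine mul_le_mul_of_nonneg_right ?_ hX
      simpa using Real.rpow_le_rpow_of_exponent_le hm H.α_lt.le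
    have h9 : ‖zx - zy‖ ≤ 9 * s := by
      rw [← dist_eq_norm]
      have := dist_triangle4 zx x y zy
      rw [dist_comm zx x, dist_eq_norm x y, ← hs] at this
      linarith
    have h5 : |ν zx i - ν zy i| ≤ ‖ν zx - ν zy‖ := by simpa using abs_apply_le_norm (ν zx - ν zy) i
    calc |pd i u x - pd i u y|
        ≤ |pd i u x - ν zx i| + |ν zx i - ν zy i| + |pd i u y - ν zy i| := by
          have := abs_sub_le (pd i u x) (ν zx i) (pd i u y)
          have := abs_sub_le (ν zx i) (ν zy i) (pd i u y)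
          rw [abs_sub_comm (ν zy i) (pd i u y)] at this
          linarith
      _ ≤ K₁ * (4 * s ^ α) + K₂ * (9 * s ^ α) + K₁ * (4 * s ^ α) :=
          add_le_add (add_le_add
            ((hx1 i).trans (mul_le_mul_of_nonneg_left (h4 _ 4 (by norm_num) hδx.le hfx) hK₁))
            (h5.trans (h2.trans (mul_le_mul_of_nonneg_left
              (h4 _ 9 (by norm_num) (norm_nonneg _) h9) hK₂))))
            ((hy1 i).trans (mul_le_mul_of_nonneg_left (h4 _ 4 (by norm_num) hδy.le hfy) hK₁))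
      _ = (8 * K₁ + 9 * K₂) * s ^ α := by ring
      _ ≤ _ := mul_le_mul_of_nonneg_right (by linarith [show (0 : ℝ) ≤ d * K₁ by positivity]) hX
  · obtain ⟨w, hw, hsub, hδ, hle, hw0⟩ := H.exists_nearest hx₀ hx
    have h1 := (hpt x hx (by linarith) w hw hsub hδ hle hw0).1
    have hu1 : ‖ν w‖ = 1 := H.unit w ⟨Metric.mem_ball.2 (by linarith), hw⟩
    have hdz : dist x w ≤ ‖x - z‖ := by
      by_contra hcon
      have hm : z ∈ Metric.ball x (dist x w) := by
        rw [Metric.mem_ball, dist_comm, dist_eq_norm]; exact not_le.1 hcon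
      exact absurd (hsub hm) (by simp [posSet, hz])
    have hsum : (1 : ℝ) = ∑ i, ν w i ^ 2 := by rw [← norm_sq_sum, hu1]; norm_num
    have hdα : dist x w ^ α ≤ ‖x - z‖ ^ α := Real.rpow_le_rpow hδ.le hdz hα.le
    have hbig : dist x w ^ α ≤ ρ ^ α := Real.rpow_le_rpow hδ.le (by linarith) hα.le
    rw [hsum, ← Finset.sum_sub_distrib]
    refine (abs_sum_le_card (B := K₁ * (2 + B) * ‖x - z‖ ^ α) fun i => ?_).trans ?_
    · have hνi : |ν w i| ≤ 1 := hu1 ▸ abs_apply_le_norm (ν w) i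
      rw [show ν w i ^ 2 - pd i u x ^ 2 = (ν w i + pd i u x) * (ν w i - pd i u x) by ring, abs_mul,
        abs_sub_comm (ν w i)]
      have hp : |pd i u x| ≤ 1 + B := by
        calc |pd i u x| = |(pd i u x - ν w i) + ν w i| := by ring_nf
          _ ≤ _ := (abs_add_le _ _).trans (by
              have := (h1 i).trans (mul_le_mul_of_nonneg_left hbig hK₁); linarith)
      calc |ν w i + pd i u x| * |pd i u x - ν w i| ≤ (2 + B) * (K₁ * dist x w ^ α) :=
            mul_le_mul ((abs_add_le _ _).trans (by linarith)) (h1 i) (abs_nonneg _) (by linarith)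
        _ ≤ (2 + B) * (K₁ * ‖x - z‖ ^ α) := by gcongr
        _ = _ := by ring
    · rw [← mul_assoc]
      exact mul_le_mul_of_nonneg_right (by
        linarith [show 0 ≤ K₁ + 2 * K₂ + (8 * K₁ + 9 * K₂ + d * K₁) by positivity]) (by positivity)

/-- Coordinates at a free boundary point. -/
theorem IsExp.exists_near [NeZero d] (H : IsExp u ν x₀ c ρ α C) (t : Fin d)
    (hx₀ : x₀ ∈ frontier (posSet u)) :
    ∃ (R : Euc d ≃ₗᵢ[ℝ] Euc d) (r K : ℝ), IsNear (fun y => u (x₀ + R y)) t r α K := by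
  have hρ := H.ρ_pos
  have hunit : ‖ν x₀‖ = 1 := H.unit x₀ ⟨Metric.mem_ball_self hρ, hx₀⟩
  obtain ⟨R, hR⟩ := exists_isometry_bas t hunit
  obtain ⟨K, hK, hg, hh, he⟩ := H.exists_gradient hx₀
  set φ : Euc d → Euc d := fun y => x₀ + R y with hφ
  set w : Euc d → ℝ := fun y => u (φ y) with hw
  have hφd : ∀ y, HasFDerivAt φ R.toContinuousLinearEquiv.toContinuousLinearMap y := fun y =>
    (R.toContinuousLinearEquiv.hasFDerivAt).const_add x₀
  have hnorm : ∀ a b, ‖φ a - φ b‖ = ‖a - b‖ := fun a b => by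
    rw [hφ]; simp only
    rw [add_sub_add_left_eq_sub, ← map_sub, R.norm_map]
  have hd0 : ∀ a, dist (φ a) x₀ = ‖a‖ := fun a => by
    rw [dist_eq_norm]; simp [hφ]
  have hud : ∀ z ∈ posSet u, DifferentiableAt ℝ u z := fun z hz =>
    (H.smooth.contDiffAt (H.isOpen_pos.mem_nhds hz)).differentiableAt (by simp)
  have hpd : ∀ i y, φ y ∈ posSet u → pd i w y = ∑ j, R (bas i) j * pd j u (φ y) := fun i y hy => by
    have h : fderiv ℝ w y = (fderiv ℝ u (φ y)).comp R.toContinuousLinearEquiv.toContinuousLinearMap :=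
      ((hud _ hy).hasFDerivAt.comp y (hφd y)).fderiv
    rw [pd, h]
    exact clm_apply_eq (fderiv ℝ u (φ y)) (R (bas i))
  have hcoef : ∀ i j, |R (bas i) j| ≤ 1 := fun i j =>
    (abs_apply_le_norm _ j).trans (le_of_eq (by rw [R.norm_map, PiLp.norm_single, norm_one]))
  have hνsum : ∀ i, ∑ j, R (bas i) j * ν x₀ j = if i = t then 1 else 0 := fun i => by
    have h : ⟪R (bas t), R (bas i)⟫ = if i = t then (1 : ℝ) else 0 := by
      rw [R.inner_map_map, EuclideanSpace.inner_single_left]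
      simp [eq_comm]
    rw [hR, PiLp.inner_apply] at h
    simpa [mul_comm] using h
  refine ⟨R, ρ / 64, d * K + 4 * C / c + C, ⟨H.cont.comp (by fun_prop), fun y => H.nonneg _, ?_, ?_,
    by linarith, by have := H.C_nonneg; have := H.c_pos; positivity, H.α_pos, H.α_lt, ?_, ?_, ?_,
    ?_, ?_, ?_⟩⟩
  · exact H.smooth.comp (contDiff_const.add R.toContinuousLinearEquiv.contDiff).contDiffOn
      fun y hy => hy
  · intro y hy
    have hs : ContDiffAt ℝ 2 u (φ y) :=
      (H.smooth.contDiffAt (H.isOpen_pos.mem_nhds hy)).of_le (WithTop.coe_le_coe.2 le_top)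
    have hD : DifferentiableAt ℝ (fderiv ℝ u) (φ y) :=
      (hs.fderiv_right (m := 1) le_rfl).differentiableAt one_ne_zero
    have e : ∀ i, pd i (pd i w) y = fderiv ℝ (fderiv ℝ u) (φ y) (R (bas i)) (R (bas i)) := fun i => by
      have hev : pd i w =ᶠ[𝓝 y] fun z => fderiv ℝ u (φ z) (R (bas i)) := by
        filter_upwards [(H.isOpen_pos.preimage (by fun_prop : Continuous φ)).mem_nhds hy] with z hz
        rw [hpd i z hz]
        exact (clm_apply_eq (fderiv ℝ u (φ z)) (R (bas i))).symm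
      have h1 := (hD.hasFDerivAt.comp y (hφd y)).clm_apply (hasFDerivAt_const (R (bas i)) y)
      have h2 : fderiv ℝ (fun z => fderiv ℝ u (φ z) (R (bas i))) y = _ := h1.fderiv
      rw [pd_congr hev, pd, h2]
      simp [ContinuousLinearMap.flip_apply]
    show ∑ i, pd i (pd i w) y = 0
    simp only [e]
    rw [sum_bilin_basis]
    refine Eq.trans (Finset.sum_congr rfl fun i _ => ?_) (H.harmonic _ hy)
    show _ = fderiv ℝ (fun z => fderiv ℝ u z (bas i)) (φ y) (bas i)
    rw [fderiv_clm_apply hD (differentiableAt_const _)]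
    simp
  · show u (φ 0) = 0
    have : φ 0 = x₀ := by simp [hφ]
    rw [this]; exact H.eq_zero hx₀
  · intro i y hy hyr
    show |pd i w y - _| ≤ _
    rw [hpd i y hy, ← hνsum i, ← Finset.sum_sub_distrib]
    refine (abs_sum_le_card (B := K * ‖y‖ ^ α) fun j => ?_).trans ?_
    · rw [← mul_sub, abs_mul]
      refine le_trans (mul_le_of_le_one_left (abs_nonneg _) (hcoef i j)) ?_
      refine (hg j _ hy (by rw [hd0]; exact hyr)).trans ?_
      rw [← dist_eq_norm, hd0]
    · rw [← mul_assoc]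
      exact mul_le_mul_of_nonneg_right (by
        have := H.C_nonneg; have := H.c_pos
        linarith [show 0 ≤ 4 * C / c + C by positivity]) (by positivity)
  · intro i a ha b hb har hbr
    show |pd i w a - pd i w b| ≤ _
    rw [hpd i a ha, hpd i b hb, ← Finset.sum_sub_distrib]
    refine (abs_sum_le_card (B := K * ‖a - b‖ ^ α) fun j => ?_).trans ?_
    · rw [← mul_sub, abs_mul]
      refine le_trans (mul_le_of_le_one_left (abs_nonneg _) (hcoef i j)) ?_
      refine (hh j _ ha _ hb (by rw [hd0]; exact har) (by rw [hd0]; exact hbr)).trans ?_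
      rw [hnorm]
    · rw [← mul_assoc]
      exact mul_le_mul_of_nonneg_right (by
        have := H.C_nonneg; have := H.c_pos
        linarith [show 0 ≤ 4 * C / c + C by positivity]) (by positivity)
  · intro y hy hyr z hz
    show |1 - ∑ i, pd i w y ^ 2| ≤ _
    have e : ∑ i, pd i w y ^ 2 = ∑ i, pd i u (φ y) ^ 2 := by
      simp only [fun i => hpd i y hy]
      simp only [fun i => (clm_apply_eq (fderiv ℝ u (φ y)) (R (bas i))).symm, pd]
      exact sum_sq_basis _ R
    rw [e]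
    refine (he _ hy (by rw [hd0]; exact hyr) (φ z) hz).trans ?_
    rw [hnorm]
    refine mul_le_mul_of_nonneg_right ?_ (by positivity)
    have := H.C_nonneg; have := H.c_pos
    have h1 : (1 : ℝ) ≤ d := by exact_mod_cast Nat.one_le_iff_ne_zero.2 (NeZero.ne d)
    linarith [mul_le_mul_of_nonneg_right h1 hK, show 0 ≤ 4 * C / c + C by positivity]
  · intro y hyr hlt
    show 0 < u (φ y)
    have he := abs_le.1 (H.expand x₀ ⟨Metric.mem_ball_self hρ, hx₀⟩ (φ y)
      (Metric.mem_ball.2 (by rw [hd0]; linarith)))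
    have hl : ⟪ν x₀, φ y - x₀⟫ = y t := by
      rw [← hR, hφ]; simp only
      rw [add_sub_cancel_left, R.inner_map_map, EuclideanSpace.inner_single_left]
      simp
    rw [hl, ← dist_eq_norm, hd0] at he
    have hX : 0 ≤ ‖y‖ ^ (1 + α) := by positivity
    have h0 : C * ‖y‖ ^ (1 + α) ≤ (d * K + 4 * C / c + C) * ‖y‖ ^ (1 + α) :=
      mul_le_mul_of_nonneg_right (by
        have := H.C_nonneg; have := H.c_pos; linarith [show 0 ≤ d * K + 4 * C / c by positivity]) hX
    linarith [he.1, le_max_left (y t) 0]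
  · intro y hyr hy
    have h := H.side hx₀ (by simp; linarith) (show φ y ∈ posSet u from hy) (by rw [hd0]; linarith)
    have hl : ⟪ν x₀, φ y - x₀⟫ = y t := by
      rw [← hR, hφ]; simp only
      rw [add_sub_cancel_left, R.inner_map_map, EuclideanSpace.inner_single_left]
      simp
    rw [hl, ← dist_eq_norm, hd0] at h
    refine le_trans ?_ h
    rw [neg_mul]
    refine neg_le_neg (mul_le_mul_of_nonneg_right ?_ (by positivity))
    have := H.C_nonneg
    linarith [show (0 : ℝ) ≤ d * K by positivity]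

end Vale.Agent.P098.B5
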