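import Vale.Agent.P098.Regularity.B5.Bootstrap
import Vale.Agent.P098.Regularity.B5.Main

/-!
P098, block B5: normals with a rate give smoothness up to the free boundary.
-/

namespace Vale.Agent.P098.B5

/-- Block B5 in every dimension. -/
theorem smoothBlock (d : ℕ) : SmoothBlock d :=
  smoothBlock_of_bootstrap d fun H hα hα1 => H.exists_all_hol hα hα1

end Vale.Agent.P098.B5
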